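import Vale.Agent.P147.Visits

/-!
P147: the directional zero-one law when some projection of the walk has no drift and covariance
not too anisotropic. Given a path up to time `n`, the rows off its range are fresh, so escape to
the other side has conditional chance at least `κ^L` times the annealed one minus the chance to
meet the range after `L` further steps, and the latter is small on average in `n`.
-/

open MeasureTheory Filter ProbabilityTheory
open scoped RealInnerProductSpace Topology ENNReal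

namespace Vale.Agent.P147

variable {d : ℕ} [NeZero d] {E : Type*} [NormedAddCommGroup E] [InnerProductSpace ℝ E]

lemma measurable_law_fun (x : Site d) : Measurable fun ω : Env d => law ω x :=
  Measure.measurable_of_measurable_coe _ fun _ hs => measurable_law x hs

/-- The annealed law of the path from the origin. -/
noncomputable def annealed (μ : Measure (Step d → ℝ)) : Measure (Path d) :=
  (iidLaw μ).bind fun ω => law ω 0

lemma annealed_apply (μ : Measure (Step d → ℝ)) {s : Set (Path d)} (hs : MeasurableSet s) :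
    annealed μ s = ∫⁻ ω, law ω 0 s ∂iidLaw μ :=
  Measure.bind_apply hs (measurable_law_fun 0).aemeasurable

instance (μ : Measure (Step d → ℝ)) [IsProbabilityMeasure μ] :
    IsProbabilityMeasure (annealed μ) :=
  ⟨by rw [annealed_apply μ .univ]; simp⟩

lemma lintegral_annealed (μ : Measure (Step d → ℝ)) {g : Path d → ℝ≥0∞} (hg : Measurable g) :
    ∫⁻ X, g X ∂annealed μ = ∫⁻ ω, ∫⁻ X, g X ∂law ω 0 ∂iidLaw μ :=
  Measure.lintegral_bind (measurable_law_fun 0).aemeasurable hg.aemeasurable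

omit [NeZero d] in
lemma theta_escape_compl (ℓ : Fin d → ℝ) : theta ⁻¹' (escape ℓ)ᶜ = (escape ℓ)ᶜ := by
  rw [Set.preimage_compl, theta_escape]

lemma law_compl_shift {ω : Env d} (hω : Good ω) (ℓ : Fin d → ℝ) (z : Site d) :
    law (shift z ω) 0 (escape ℓ)ᶜ = law ω z (escape ℓ)ᶜ := by
  rw [← ofReal_measureReal, ← ofReal_measureReal (μ := law ω z),
    probReal_compl_eq_one_sub (measurableSet_escape ℓ),
    probReal_compl_eq_one_sub (measurableSet_escape ℓ)]
  exact congrArg (fun r => ENNReal.ofReal (1 - r)) (pr_escape_shift hω ℓ z)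

/-- The annealed chance not to escape does not depend on the start. -/
lemma lintegral_compl_eq (μ : Measure (Step d → ℝ)) [IsProbabilityMeasure μ]
    (hrow : ∀ᵐ p ∂μ, GoodRow p) (ℓ : Fin d → ℝ) (z : Site d) :
    ∫⁻ ω, law ω z (escape ℓ)ᶜ ∂iidLaw μ = annealed μ (escape ℓ)ᶜ := by
  rw [annealed_apply μ (measurableSet_escape ℓ).compl,
    ← (measurePreserving_shift μ z).lintegral_comp
      (measurable_law 0 (measurableSet_escape ℓ).compl)]
  exact lintegral_congr_ae ((ae_forall_site μ hrow).mono fun ω hω =>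
    (law_compl_shift hω ℓ z).symm)

/-- Following the fixed step `e₀` for `L` steps. -/
lemma law_compl_ge {ω : Env d} (hω : Good ω) (ℓ : Fin d → ℝ) {e₀ : Step d} {κ : ℝ}
    (hκ : ∀ x, κ ≤ ω x e₀) (L : ℕ) :
    ∀ x, ENNReal.ofReal κ ^ L * law ω (x + L • move e₀) (escape ℓ)ᶜ ≤ law ω x (escape ℓ)ᶜ := by
  induction L with
  | zero => intro x; simp
  | succ L ih =>
    intro x
    conv_rhs => rw [← theta_escape_compl ℓ, law_theta hω x (measurableSet_escape ℓ).compl]
    refine le_trans ?_ (Finset.single_le_sum (fun e _ => zero_le) (Finset.mem_univ e₀))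
    rw [pow_succ', mul_assoc, succ_nsmul', ← add_assoc]
    exact mul_le_mul' (ENNReal.ofReal_le_ofReal (hκ x)) (ih _)

/-- The past of a path up to time `n`, as seen by the projection after `L` more steps. -/
noncomputable def pastPot (a : Fin d → E) (φ : E → ℝ) (w : E) (n : ℕ) (X : Path d) : ℝ≥0∞ :=
  ∑ k ∈ Finset.range (n + 1), ENNReal.ofReal (φ (emb a (X n) - emb a (X k) + w))

omit [NeZero d] in
lemma measurable_pastPot (a : Fin d → E) (φ : E → ℝ) (w : E) (n : ℕ) :
    Measurable (pastPot a φ w n) :=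
  Finset.measurable_sum _ fun k _ => measurable_two (fun y y' => φ (emb a y - emb a y' + w)) n k

omit [NeZero d] in
lemma sum_image_le {α β : Type*} [DecidableEq β] (s : Finset α) (g : α → β) (h : β → ℝ≥0∞) :
    ∑ b ∈ s.image g, h b ≤ ∑ x ∈ s, h (g x) :=
  Finset.sum_image_le_of_nonneg fun _ _ => zero_le

/-- The conditional lower bound on one cylinder. -/
lemma cyl_bound (μ : Measure (Step d → ℝ)) [IsProbabilityMeasure μ] {a : Fin d → E}
    {φ f : E → ℝ} {e₀ : Step d} {κ : ℝ}
    (hall : ∀ᵐ ω ∂iidLaw μ, Good ω ∧ Pays a ω φ f ∧ ∀ x, κ ≤ ω x e₀)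
    (hrow : ∀ᵐ p ∂μ, GoodRow p) (ℓ : Fin d → ℝ) (L n : ℕ) (q : Path d) :
    ENNReal.ofReal κ ^ L * annealed μ (escape ℓ)ᶜ * annealed μ (cyl n q) ≤
      annealed μ (cyl n q ∩ (escape ℓ)ᶜ) +
        ENNReal.ofReal κ ^ L * (pastPot a φ ((L : ℝ) • emb a (move e₀)) n q *
          annealed μ (cyl n q)) := by
  classical
  set Ac := (escape (d := d) ℓ)ᶜ
  have hAc : MeasurableSet Ac := (measurableSet_escape ℓ).compl
  set z : Site d := q n + L • move e₀ with hz
  set S : Finset (Site d) := (Finset.range (n + 1)).image q with hS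
  set Φ := pastPot a φ ((L : ℝ) • emb a (move e₀)) n q
  set w : Env d → ℝ≥0∞ := fun ω => law ω 0 (cyl n q)
  set g : Env d → ℝ≥0∞ := fun ω => law ω z (Ac ∩ avoid S)
  have hw : Measurable w := measurable_law 0 (measurableSet_cyl n q)
  have hg : Measurable g := measurable_law z (hAc.inter (measurableSet_avoid S))
  have hsplit := lintegral_mul_split μ S hw hg
    (fun ω ω' h => by
      simp only [w, law_cyl]
      refine congrArg _ (Finset.prod_congr rfl fun k hk => ?_)
      rw [h (q k) (Finset.mem_image_of_mem _ (Finset.mem_range.mpr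
        (Nat.lt_succ_of_lt (Finset.mem_range.mp hk))))])
    (fun ω ω' h => law_avoid_congr h hAc)
  have hzg : annealed μ Ac ≤ (∫⁻ ω, g ω ∂iidLaw μ) + Φ := by
    rw [← lintegral_compl_eq μ hrow ℓ z]
    calc ∫⁻ ω, law ω z Ac ∂iidLaw μ ≤ ∫⁻ ω, (g ω + Φ) ∂iidLaw μ := by
          refine lintegral_mono_ae (hall.mono fun ω hω => ?_)
          refine le_trans (measure_mono (fun X hX => ?_ : Ac ⊆ (Ac ∩ avoid S) ∪ (avoid S)ᶜ))
            ((measure_union_le _ _).trans (add_le_add le_rfl ?_))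
          · by_cases h : X ∈ avoid S
            · exact Or.inl ⟨hX, h⟩
            · exact Or.inr h
          rw [← ofReal_measureReal]
          refine (ENNReal.ofReal_le_ofReal (hit_bound hω.1 hω.2.1 S z)).trans ?_
          rw [ENNReal.ofReal_sum_of_nonneg fun s _ => hω.2.1.nonneg _]
          refine (sum_image_le _ _ _).trans (le_of_eq (Finset.sum_congr rfl fun k _ => ?_))
          rw [hz, emb_add, emb_nsmul, sub_add_eq_add_sub]
      _ = (∫⁻ ω, g ω ∂iidLaw μ) + Φ := by
          rw [lintegral_add_right _ measurable_const, lintegral_const, measure_univ, mul_one]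
  have hwg : ENNReal.ofReal κ ^ L * ∫⁻ ω, w ω * g ω ∂iidLaw μ ≤
      annealed μ (cyl n q ∩ Ac) := by
    rw [← lintegral_const_mul' _ _ (ENNReal.pow_ne_top ENNReal.ofReal_ne_top),
      annealed_apply μ ((measurableSet_cyl n q).inter hAc)]
    refine lintegral_mono_ae (hall.mono fun ω hω => ?_)
    rw [law_cyl_inter hω.1 hAc (theta_escape_compl ℓ) n, mul_left_comm]
    refine mul_le_mul' le_rfl (le_trans (mul_le_mul' le_rfl (measure_mono Set.inter_subset_left)) ?_)
    exact law_compl_ge hω.1 ℓ hω.2.2 L (q n)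
  have hcyl : annealed μ (cyl n q) = ∫⁻ ω, w ω ∂iidLaw μ :=
    annealed_apply μ (measurableSet_cyl n q)
  calc ENNReal.ofReal κ ^ L * annealed μ Ac * annealed μ (cyl n q)
      ≤ ENNReal.ofReal κ ^ L * ((∫⁻ ω, g ω ∂iidLaw μ) + Φ) * annealed μ (cyl n q) := by gcongr
    _ = ENNReal.ofReal κ ^ L * ∫⁻ ω, w ω * g ω ∂iidLaw μ +
          ENNReal.ofReal κ ^ L * (Φ * annealed μ (cyl n q)) := by rw [hsplit, hcyl]; ring
    _ ≤ _ := by gcongr

/-- The conditional lower bound on an event which depends on the first `n` steps only. -/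
lemma past_bound (μ : Measure (Step d → ℝ)) [IsProbabilityMeasure μ] {a : Fin d → E}
    {φ f : E → ℝ} {e₀ : Step d} {κ : ℝ}
    (hall : ∀ᵐ ω ∂iidLaw μ, Good ω ∧ Pays a ω φ f ∧ ∀ x, κ ≤ ω x e₀)
    (hrow : ∀ᵐ p ∂μ, GoodRow p) (ℓ : Fin d → ℝ) (L n : ℕ) {C : Set (Path d)}
    (hCn : ∀ X X' : Path d, (∀ k ≤ n, X k = X' k) → X ∈ C → X' ∈ C) :
    ENNReal.ofReal κ ^ L * annealed μ (escape ℓ)ᶜ * annealed μ C ≤
      annealed μ (C ∩ (escape ℓ)ᶜ) + ENNReal.ofReal κ ^ L *
        ∫⁻ X, pastPot a φ ((L : ℝ) • emb a (move e₀)) n X ∂annealed μ := by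
  classical
  set Ac := (escape (d := d) ℓ)ᶜ
  set Φ := pastPot a φ ((L : ℝ) • emb a (move e₀)) n
  let Q := {q : Fin (n + 1) → Site d // extend n q ∈ C}
  let Z : Q → Set (Path d) := fun q => cyl n (extend n q.1)
  have hmem : ∀ (q : Fin (n + 1) → Site d) (X : Path d), X ∈ cyl n (extend n q) →
      ∀ i : Fin (n + 1), X i = q i := fun q X hX i => by
    rw [hX i (Nat.lt_succ_iff.mp i.2), extend, dif_pos i.2]
  have hcov : C = ⋃ q : Q, Z q := by
    ext X
    simp only [Set.mem_iUnion, Z]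
    constructor
    · intro hX
      have h : ∀ k ≤ n, X k = extend n (fun i : Fin (n + 1) => X i) k := fun k hk => by
        rw [extend, dif_pos (Nat.lt_succ_of_le hk)]
      exact ⟨⟨_, hCn X _ h hX⟩, h⟩
    · rintro ⟨⟨q, hq⟩, hX⟩
      exact hCn _ X (fun k hk => (hX k hk).symm) hq
  have hd : Pairwise (Function.onFun Disjoint Z) := fun q q' hne => Set.disjoint_left.mpr
    fun X h h' => hne (Subtype.ext (funext fun i => (hmem _ X h i).symm.trans (hmem _ X h' i)))
  have hm : ∀ q, MeasurableSet (Z q) := fun q => measurableSet_cyl n _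
  have h1 : annealed μ C = ∑' q, annealed μ (Z q) := by rw [hcov, measure_iUnion hd hm]
  have h2 : annealed μ (C ∩ Ac) = ∑' q, annealed μ (Z q ∩ Ac) := by
    rw [hcov, Set.iUnion_inter, measure_iUnion
      (hd.mono fun q q' h => h.mono Set.inter_subset_left Set.inter_subset_left)
      (fun q => (hm q).inter (measurableSet_escape ℓ).compl)]
  have h3 : ∑' q : Q, Φ (extend n q.1) * annealed μ (Z q) ≤ ∫⁻ X, Φ X ∂annealed μ := by
    have e : ∀ q : Q, Φ (extend n q.1) * annealed μ (Z q) = ∫⁻ X in Z q, Φ X ∂annealed μ := by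
      intro q
      rw [setLIntegral_congr_fun (hm q) (g := fun _ => Φ (extend n q.1)), setLIntegral_const]
      intro X hX
      refine Finset.sum_congr rfl fun k hk => ?_
      rw [hX n le_rfl, hX k (Nat.lt_succ_iff.mp (Finset.mem_range.mp hk))]
    simp only [e]
    rw [← lintegral_iUnion hm hd]
    exact setLIntegral_le_lintegral _ _
  rw [h1, h2, ← ENNReal.tsum_mul_left]
  refine (ENNReal.tsum_le_tsum fun q => cyl_bound μ hall hrow ℓ L n _).trans ?_
  rw [ENNReal.tsum_add, ENNReal.tsum_mul_left]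
  gcongr

omit [NeZero d] in
/-- Approximation of an event by one depending on finitely many times. -/
lemma exists_past_approx (ν : Measure (Path d)) [IsFiniteMeasure ν] {A : Set (Path d)}
    (hA : MeasurableSet A) {ε : ℝ} (hε : 0 < ε) :
    ∃ (n : ℕ) (C : Set (Path d)), (∀ m ≥ n, ∀ X X' : Path d,
      (∀ k ≤ m, X k = X' k) → X ∈ C → X' ∈ C) ∧ ν (symmDiff A C) ≤ ENNReal.ofReal ε := by
  obtain ⟨B, hB, hBε⟩ := (Measure.MeasureDense.of_generateFrom_isSetAlgebra_finite ν
    isSetAlgebra_measurableCylinders generateFrom_measurableCylinders.symm).approx A hA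
    (measure_ne_top _ _) ε hε
  obtain ⟨I, S, -, rfl⟩ := (mem_measurableCylinders B).mp hB
  refine ⟨I.sup id, _, fun m hm X X' h hX => ?_, hBε.le⟩
  rw [mem_cylinder] at hX ⊢
  convert hX using 1
  funext i
  exact (h i ((Finset.le_sup (f := id) i.2).trans hm)).symm

/-- The directional zero-one law for walks with a driftless projection of bounded anisotropy. -/
theorem zero_one_projection (μ : Measure (Step d → ℝ)) [IsProbabilityMeasure μ]
    (a : Fin d → E) {γ κ : ℝ} (hγ : 4 < γ) (hκ : 0 < κ) (e₀ : Step d)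
    (he₀ : emb a (move e₀) ≠ 0) (hrow : ∀ᵐ p ∂μ, GoodRow p)
    (hmean : ∀ᵐ p ∂μ, ∑ e, p e • emb a (move e) = 0)
    (haniso : ∀ᵐ p ∂μ, ∀ u : E, γ * ∑ e, p e * ⟪u, emb a (move e)⟫ ^ 2 ≤
      ‖u‖ ^ 2 * ∑ e, p e * ‖emb a (move e)‖ ^ 2)
    (hell : ∀ᵐ p ∂μ, κ ≤ p e₀) (ℓ : Fin d → ℝ) :
    annealed μ (escape ℓ) = 0 ∨ annealed μ (escape ℓ) = 1 := by
  set v₀ := emb a (move e₀)
  obtain ⟨φ, f, hpays, hlim⟩ := exists_pays a hγ
    (show 0 < κ * ‖v₀‖ ^ 2 by have := norm_pos_iff.mpr he₀; positivity)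
  have hall : ∀ᵐ ω ∂iidLaw μ, Good ω ∧ Pays a ω φ f ∧ ∀ x, κ ≤ ω x e₀ := by
    filter_upwards [ae_forall_site μ hrow, ae_forall_site μ hmean, ae_forall_site μ haniso,
      ae_forall_site μ hell] with ω h1 h2 h3 h4
    refine ⟨h1, hpays ω h1 h2 h3 fun x => ?_, h4⟩
    exact (mul_le_mul_of_nonneg_right (h4 x) (sq_nonneg _)).trans
      (Finset.single_le_sum (f := fun e => ω x e * ‖emb a (move e)‖ ^ 2)
        (fun e _ => mul_nonneg ((h1 x).1 e).le (sq_nonneg _)) (Finset.mem_univ e₀))
  set A := escape (d := d) ℓ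
  have hA : MeasurableSet A := measurableSet_escape ℓ
  set p := (annealed μ).real A
  set q := (annealed μ).real Aᶜ
  have hq : q = 1 - p := probReal_compl_eq_one_sub hA
  have hp0 : 0 ≤ p := measureReal_nonneg
  have hp1 : p ≤ 1 := measureReal_le_one
  have hkey : ∀ (L : ℕ), q * p ≤ 2 * f ((L : ℝ) • v₀) := by
    intro L
    set w := (L : ℝ) • v₀
    obtain ⟨ω₀, hω₀⟩ := hall.exists
    have hf : 0 ≤ f w := hω₀.2.1.nonneg' w
    refine le_of_forall_pos_le_add fun η hη => ?_
    set ε := η * κ ^ L / (2 + κ ^ L) with hε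
    have hκL : 0 < κ ^ L := pow_pos hκ L
    have hεpos : 0 < ε := by positivity
    obtain ⟨n, C, hC, hCA⟩ := exists_past_approx (annealed μ) hA hεpos
    set Φ : ℕ → ℝ≥0∞ := fun m => ∫⁻ X, pastPot a φ w m X ∂annealed μ
    have htotal : ∑ m ∈ Finset.range (2 * n + 2), Φ m ≤
        ((2 * n + 2 : ℕ) : ℝ≥0∞) * ENNReal.ofReal (f w) := by
      rw [← lintegral_finsetSum _ fun m _ => measurable_pastPot a φ w m,
        lintegral_annealed μ (Finset.measurable_sum _ fun m _ => measurable_pastPot a φ w m)]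
      refine (lintegral_mono_ae (g := fun _ =>
        ((2 * n + 2 : ℕ) : ℝ≥0∞) * ENNReal.ofReal (f w))
        (hall.mono fun ω hω => pairs_bound hω.1 hω.2.1 w _ 0)).trans ?_
      rw [lintegral_const, measure_univ, mul_one]
    obtain ⟨m, hm, hΦ⟩ : ∃ m ≥ n, Φ m ≤ ENNReal.ofReal (2 * f w) := by
      by_contra hcon
      push Not at hcon
      have hlow : ((n + 2 : ℕ) : ℝ≥0∞) * ENNReal.ofReal (2 * f w) <
          ∑ m ∈ Finset.Ico n (2 * n + 2), Φ m := by
        have hne : (Finset.Ico n (2 * n + 2)).Nonempty := ⟨n, by simp; omega⟩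
        calc ((n + 2 : ℕ) : ℝ≥0∞) * ENNReal.ofReal (2 * f w)
            = ∑ m ∈ Finset.Ico n (2 * n + 2), ENNReal.ofReal (2 * f w) := by
              rw [Finset.sum_const, Nat.card_Ico, nsmul_eq_mul, show 2 * n + 2 - n = n + 2 by omega]
          _ < _ := ENNReal.sum_lt_sum_of_nonempty hne fun m hm => hcon m (Finset.mem_Ico.mp hm).1
      refine absurd hlow (not_lt.mpr ?_)
      refine ((Finset.sum_le_sum_of_subset (fun m hm => Finset.mem_range.mpr
        (Finset.mem_Ico.mp hm).2)).trans htotal).trans ?_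
      rw [ENNReal.ofReal_mul zero_le_two, ENNReal.ofReal_ofNat, ← mul_assoc]
      refine mul_le_mul' ?_ le_rfl
      exact_mod_cast (show 2 * n + 2 ≤ (n + 2) * 2 by omega)
    have hb := past_bound μ hall hrow ℓ L m (hC m hm)
    have hsub : C ∩ Aᶜ ⊆ symmDiff A C := fun X hX => Or.inr ⟨hX.1, hX.2⟩
    have hb' : ENNReal.ofReal κ ^ L * annealed μ Aᶜ * annealed μ C ≤
        ENNReal.ofReal ε + ENNReal.ofReal κ ^ L * ENNReal.ofReal (2 * f w) :=
      hb.trans (add_le_add ((measure_mono hsub).trans hCA) (mul_le_mul' le_rfl hΦ))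
    have hreal : κ ^ L * q * (annealed μ).real C ≤ ε + κ ^ L * (2 * f w) := by
      have := ENNReal.toReal_mono (by finiteness) hb'
      rw [ENNReal.toReal_add (by finiteness) (by finiteness), ENNReal.toReal_mul,
        ENNReal.toReal_mul, ENNReal.toReal_mul, ENNReal.toReal_pow, ENNReal.toReal_ofReal hκ.le,
        ENNReal.toReal_ofReal hεpos.le, ENNReal.toReal_ofReal (by positivity)] at this
      exact this
    have hpC : p ≤ (annealed μ).real C + ε := by
      refine (measureReal_mono (fun X hX => ?_ : A ⊆ C ∪ symmDiff A C)).trans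
        ((measureReal_union_le _ _).trans
          (add_le_add le_rfl (ENNReal.toReal_le_of_le_ofReal hεpos.le hCA)))
      by_cases h : X ∈ C
      · exact Or.inl h
      · exact Or.inr (Or.inl ⟨hX, h⟩)
    have hηε : ε * (1 + κ ^ L) ≤ η * κ ^ L := by
      rw [hε, div_mul_eq_mul_div, div_le_iff₀ (by positivity)]
      exact mul_le_mul_of_nonneg_left (by linarith) (by positivity)
    have hq0 : 0 ≤ q := measureReal_nonneg
    have hq1 : q ≤ 1 := measureReal_le_one
    refine le_of_mul_le_mul_left (?_ : κ ^ L * (q * p) ≤ κ ^ L * (2 * f w + η)) hκL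
    calc κ ^ L * (q * p) ≤ κ ^ L * (q * ((annealed μ).real C + ε)) := by gcongr
      _ = κ ^ L * q * (annealed μ).real C + κ ^ L * (q * ε) := by ring
      _ ≤ ε + κ ^ L * (2 * f w) + κ ^ L * (1 * ε) := by gcongr
      _ = κ ^ L * (2 * f w) + ε * (1 + κ ^ L) := by ring
      _ ≤ κ ^ L * (2 * f w) + η * κ ^ L := by gcongr
      _ = κ ^ L * (2 * f w + η) := by ring
  have h0 : q * p ≤ 0 := by
    have := (hlim v₀ he₀).const_mul 2
    rw [mul_zero] at this
    exact ge_of_tendsto' this hkey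
  have hz : p = 0 ∨ p = 1 := by
    rw [hq] at h0
    rcases hp0.eq_or_lt' with h | h
    · exact Or.inl h
    · exact Or.inr (le_antisymm hp1 (by nlinarith))
  rcases hz with h | h
  · exact Or.inl ((measureReal_eq_zero_iff (measure_ne_top _ _)).mp h)
  · exact Or.inr ((ENNReal.toReal_eq_one_iff _).mp h)

/-- The quenched form. -/
theorem zero_one_projection_quenched (μ : Measure (Step d → ℝ)) [IsProbabilityMeasure μ]
    (hrow : ∀ᵐ p ∂μ, GoodRow p) (ℓ : Fin d → ℝ) {c : ℝ≥0∞} (hc : c = 0 ∨ c = 1)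
    (h : annealed μ (escape ℓ) = c) :
    ∀ᵐ ω ∂iidLaw μ, Good ω ∧ ∀ x, law ω x (escape ℓ) = c := by
  have hA := measurableSet_escape (d := d) ℓ
  have hgood := ae_forall_site μ hrow
  have h0 : ∀ᵐ ω ∂iidLaw μ, law ω 0 (escape ℓ) = c := by
    rcases hc with rfl | rfl
    · rw [annealed_apply μ hA, lintegral_eq_zero_iff (measurable_law 0 hA)] at h
      exact h
    · have h' : annealed μ (escape ℓ)ᶜ = 0 := (prob_compl_eq_zero_iff hA).mpr h
      rw [annealed_apply μ hA.compl, lintegral_eq_zero_iff (measurable_law 0 hA.compl)] at h'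
      filter_upwards [h'] with ω hω
      exact (prob_compl_eq_zero_iff hA).mp hω
  filter_upwards [hgood, ae_all_iff.mpr fun x =>
    (measurePreserving_shift μ x).quasiMeasurePreserving.ae h0] with ω hω hx
  refine ⟨hω, fun x => ?_⟩
  have e := pr_escape_shift hω ℓ x
  simp only [pr] at e
  rw [← ofReal_measureReal, ← e, ofReal_measureReal]
  exact hx x

end Vale.Agent.P147
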