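import Vale.Agent.P147.Defs

/-!
P147: the quenched law exists, is unique and satisfies the first step identity.
-/

open MeasureTheory Filter

namespace Vale.Agent.P147

variable {d : ℕ}

/-- The paths which follow `p` up to time `n`. -/
def cyl (n : ℕ) (p : Path d) : Set (Path d) := {X | ∀ k ≤ n, X k = p k}

/-- The shift of paths. -/
def theta (X : Path d) : Path d := fun k => X (k + 1)

lemma measurable_theta : Measurable (theta (d := d)) :=
  measurable_pi_lambda _ fun k => measurable_pi_apply (k + 1)

lemma measurableSet_cyl (n : ℕ) (p : Path d) : MeasurableSet (cyl n p) := by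
  have h : cyl n p = ⋂ k ∈ Finset.range (n + 1), (fun X : Path d => X k) ⁻¹' {p k} := by
    ext X
    simp [cyl]
  rw [h]
  exact Finset.measurableSet_biInter _ fun k _ =>
    measurable_pi_apply k (measurableSet_singleton _)

/-- The cylinders together with the empty set. -/
def cyls (d : ℕ) : Set (Set (Path d)) := insert ∅ (Set.range fun q : ℕ × Path d => cyl q.1 q.2)

lemma isPiSystem_cyls : IsPiSystem (cyls d) := by
  rintro s hs t ht hst
  rcases hs with rfl | ⟨⟨n, p⟩, rfl⟩
  · simp at hst
  rcases ht with rfl | ⟨⟨m, q⟩, rfl⟩
  · simp at hst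
  obtain ⟨X, hX1, hX2⟩ := hst
  refine Or.inr ⟨(max n m, X), ?_⟩
  ext Y
  constructor
  · intro hY
    refine ⟨fun k hk => ?_, fun k hk => ?_⟩
    · exact (hY k (le_trans hk (le_max_left _ _))).trans (hX1 k hk)
    · exact (hY k (le_trans hk (le_max_right _ _))).trans (hX2 k hk)
  · rintro ⟨hY1, hY2⟩ k hk
    rcases le_max_iff.mp hk with h | h
    · exact (hY1 k h).trans (hX1 k h).symm
    · exact (hY2 k h).trans (hX2 k h).symm

/-- The path which follows a finite vector. -/
def extend (n : ℕ) (f : Fin (n + 1) → Site d) : Path d :=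
  fun k => if h : k < n + 1 then f ⟨k, h⟩ else 0

lemma generateFrom_cyls :
    (MeasurableSpace.pi : MeasurableSpace (Path d)) = MeasurableSpace.generateFrom (cyls d) := by
  apply le_antisymm
  · refine iSup_le fun k => Measurable.comap_le ?_
    letI : MeasurableSpace (Path d) := MeasurableSpace.generateFrom (cyls d)
    refine measurable_to_countable' fun a => ?_
    have h : (fun X : Path d => X k) ⁻¹' {a} =
        ⋃ f : {f : Fin (k + 1) → Site d // f (Fin.last k) = a}, cyl k (extend k f.1) := by
      ext X
      simp only [Set.mem_preimage, Set.mem_singleton_iff, Set.mem_iUnion, Subtype.exists]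
      constructor
      · intro hX
        refine ⟨fun i => X i, by simpa using hX, fun i hi => ?_⟩
        simp [extend, Nat.lt_succ_iff.mpr hi]
      · rintro ⟨f, hf, hX⟩
        rw [hX k le_rfl, extend, dif_pos (Nat.lt_succ_self k)]
        exact hf
    rw [h]
    exact MeasurableSet.iUnion fun f =>
      MeasurableSpace.measurableSet_generateFrom (Or.inr ⟨(k, extend k f.1), rfl⟩)
  · refine MeasurableSpace.generateFrom_le ?_
    rintro s (rfl | ⟨⟨n, p⟩, rfl⟩)
    · exact MeasurableSet.empty
    · exact measurableSet_cyl n p

lemma univ_eq_iUnion : (Set.univ : Set (Path d)) = ⋃ a : Site d, cyl 0 (fun _ => a) := by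
  ext X
  simp [cyl]

lemma measure_univ_eq_tsum (μ : Measure (Path d)) :
    μ Set.univ = ∑' a : Site d, μ (cyl 0 (fun _ => a)) := by
  rw [univ_eq_iUnion, measure_iUnion _ (fun a => measurableSet_cyl _ _)]
  intro a b hab
  refine Set.disjoint_left.mpr fun X ha hb => hab ?_
  exact (ha 0 le_rfl).symm.trans (hb 0 le_rfl)

lemma ext_cyl {μ ν : Measure (Path d)} [IsFiniteMeasure μ]
    (h : ∀ n p, μ (cyl n p) = ν (cyl n p)) : μ = ν := by
  refine ext_of_generate_finite (cyls d) generateFrom_cyls isPiSystem_cyls ?_ ?_
  · rintro s (rfl | ⟨⟨n, p⟩, rfl⟩)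
    · simp
    · exact h n p
  · rw [measure_univ_eq_tsum, measure_univ_eq_tsum]
    exact tsum_congr fun a => h 0 _

/-- A row is a strictly positive probability vector. -/
def GoodRow (p : Step d → ℝ) : Prop := (∀ e, 0 < p e) ∧ ∑ e, p e = 1

/-- An environment all whose rows are good. -/
def Good (ω : Env d) : Prop := ∀ a, GoodRow (ω a)

lemma measurableSet_goodRow : MeasurableSet {p : Step d → ℝ | GoodRow p} := by
  have h : {p : Step d → ℝ | GoodRow p} = (⋂ e, {p | 0 < p e}) ∩ {p | ∑ e, p e = 1} := by
    ext p
    simp [GoodRow]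
  rw [h]
  exact (MeasurableSet.iInter fun e =>
    measurableSet_lt measurable_const (measurable_pi_apply e)).inter
    (measurableSet_eq_fun (Finset.measurable_sum _ fun e _ => measurable_pi_apply e)
      measurable_const)

variable [NeZero d]

open Classical in
/-- The law of one step with row `p` (a fixed step if the row is not good). -/
noncomputable def rowMeasure (p : Step d → ℝ) : Measure (Step d) :=
  if GoodRow p then ∑ e, ENNReal.ofReal (p e) • Measure.dirac e
  else Measure.dirac ((0 : Fin d), true)

instance (p : Step d → ℝ) : IsProbabilityMeasure (rowMeasure p) := by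
  unfold rowMeasure
  split_ifs with h
  · constructor
    simp only [Measure.coe_finsetSum, Finset.sum_apply, Measure.smul_apply, measure_univ,
      smul_eq_mul, mul_one]
    rw [← ENNReal.ofReal_sum_of_nonneg fun e _ => (h.1 e).le, h.2, ENNReal.ofReal_one]
  · infer_instance

lemma rowMeasure_apply {p : Step d → ℝ} (h : GoodRow p) (s : Set (Step d)) [DecidablePred (· ∈ s)] :
    rowMeasure p s = ENNReal.ofReal (∑ e, if e ∈ s then p e else 0) := by
  rw [rowMeasure, if_pos h, ENNReal.ofReal_sum_of_nonneg fun e _ => by
    split_ifs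
    · exact (h.1 e).le
    · exact le_rfl]
  simp only [Measure.coe_finsetSum, Finset.sum_apply, Measure.smul_apply, smul_eq_mul]
  refine Finset.sum_congr rfl fun e _ => ?_
  rw [Measure.dirac_apply]
  by_cases he : e ∈ s <;> simp [he]

lemma measurable_rowMeasure (s : Set (Step d)) :
    Measurable fun p : Step d → ℝ => rowMeasure p s := by
  classical
  have h : (fun p : Step d → ℝ => rowMeasure p s) = fun p => if GoodRow p then
      ENNReal.ofReal (∑ e, if e ∈ s then p e else 0)
      else Measure.dirac ((0 : Fin d), true) s := by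
    funext p
    split_ifs with hp
    · exact rowMeasure_apply hp s
    · rw [rowMeasure, if_neg hp]
  rw [h]
  refine Measurable.ite measurableSet_goodRow ?_ measurable_const
  refine ENNReal.measurable_ofReal.comp (Finset.measurable_sum _ fun e _ => ?_)
  by_cases he : e ∈ s
  · simpa [he] using measurable_pi_apply e
  · simp [he]

/-- The index of the randomness: time and site. -/
abbrev Idx (d : ℕ) := ℕ × Site d

/-- The walk built from independent steps attached to (time, site). -/
def walk (x : Site d) (ξ : Idx d → Step d) : Path d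
  | 0 => x
  | k + 1 => walk x ξ k + move (ξ (k, walk x ξ k))

omit [NeZero d] in
lemma measurable_walk (x : Site d) : Measurable (walk x) := by
  refine measurable_pi_lambda _ fun k => ?_
  induction k with
  | zero => exact measurable_const
  | succ k ih =>
    refine measurable_to_countable' fun b => ?_
    have h : (fun ξ : Idx d → Step d => walk x ξ (k + 1)) ⁻¹' {b} =
        ⋃ a : Site d, ((fun ξ : Idx d → Step d => walk x ξ k) ⁻¹' {a} ∩
          (fun ξ : Idx d → Step d => ξ (k, a)) ⁻¹' {e | a + move e = b}) := by
      ext ξ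
      simp [walk]
    rw [h]
    exact MeasurableSet.iUnion fun a =>
      (ih (measurableSet_singleton a)).inter
        (measurable_pi_apply (k, a) MeasurableSet.of_discrete)

/-- The quenched law. -/
noncomputable def law (ω : Env d) (x : Site d) : Measure (Path d) :=
  (Measure.infinitePi fun i : Idx d => rowMeasure (ω i.2)).map (walk x)

instance (ω : Env d) (x : Site d) : IsProbabilityMeasure (law ω x) :=
  Measure.isProbabilityMeasure_map (measurable_walk x).aemeasurable

lemma law_cyl (ω : Env d) (x : Site d) (n : ℕ) (p : Path d) :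
    law ω x (cyl n p) = (if p 0 = x then 1 else 0) *
      ∏ k ∈ Finset.range n, rowMeasure (ω (p k)) {e | p k + move e = p (k + 1)} := by
  rw [law, Measure.map_apply (measurable_walk x) (measurableSet_cyl n p)]
  by_cases hx : p 0 = x
  · rw [if_pos hx, one_mul]
    set I : Finset (Idx d) := (Finset.range n).image fun k => (k, p k) with hI
    set t : Idx d → Set (Step d) := fun i => {e | i.2 + move e = p (i.1 + 1)} with ht
    have h : walk x ⁻¹' cyl n p = Set.pi (I : Set (Idx d)) t := by
      ext ξ
      simp only [hI, ht, Set.mem_preimage, cyl, Set.mem_ofPred_eq, Set.mem_pi, Finset.mem_coe,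
        Finset.mem_image, Finset.mem_range, forall_exists_index, and_imp,
        forall_apply_eq_imp_iff₂]
      constructor
      · intro hξ k hk
        have h1 := hξ (k + 1) hk
        rw [walk, hξ k hk.le] at h1
        exact h1
      · intro hξ k hk
        induction k with
        | zero => exact hx.symm
        | succ k ih =>
          rw [walk, ih (Nat.le_of_succ_le hk)]
          exact hξ k hk
    rw [h, Measure.infinitePi_pi _ fun i _ => MeasurableSet.of_discrete, hI,
      Finset.prod_image fun a _ b _ hab => (Prod.ext_iff.mp hab).1]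
  · rw [if_neg hx, zero_mul]
    have h : walk x ⁻¹' cyl n p = ∅ := by
      ext ξ
      simp only [Set.mem_preimage, cyl, Set.mem_ofPred_eq, Set.mem_empty_iff_false, iff_false]
      exact fun hξ => hx (hξ 0 (Nat.zero_le n)).symm
    rw [h, measure_empty]

lemma measurable_law (x : Site d) {s : Set (Path d)} (hs : MeasurableSet s) :
    Measurable fun ω : Env d => law ω x s := by
  have h : Measurable fun ω : Env d => law ω x := by
    refine Measurable.measure_of_isPiSystem_of_isProbabilityMeasure generateFrom_cyls
      isPiSystem_cyls ?_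
    rintro s (rfl | ⟨⟨n, p⟩, rfl⟩)
    · simp
    · simp only [law_cyl]
      refine measurable_const.mul (Finset.measurable_prod _ fun k _ => ?_)
      exact (measurable_rowMeasure _).comp (measurable_pi_apply (p k))
  exact (Measure.measurable_coe hs).comp h

lemma rowMeasure_jump {ω : Env d} (hω : Good ω) (a b : Site d) :
    rowMeasure (ω a) {e | a + move e = b} = ENNReal.ofReal (jump ω a b) := by
  rw [rowMeasure_apply (hω a)]
  rfl

lemma isQuenchedLaw_law {ω : Env d} (hω : Good ω) (x : Site d) :
    IsQuenchedLaw ω x (law ω x) := by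
  intro n p
  refine (law_cyl ω x n p).trans ?_
  simp only [rowMeasure_jump hω]

lemma law_cyl_jump {ω : Env d} (hω : Good ω) (x : Site d) (n : ℕ) (p : Path d) :
    law ω x (cyl n p) = (if p 0 = x then 1 else 0) *
      ∏ k ∈ Finset.range n, ENNReal.ofReal (jump ω (p k) (p (k + 1))) :=
  isQuenchedLaw_law hω x n p

omit [NeZero d] in
lemma measurableSet_start (x : Site d) : MeasurableSet {X : Path d | X 0 = x} :=
  measurableSet_eq_fun (measurable_pi_apply 0) measurable_const

lemma eq_law {ω : Env d} (hω : Good ω) {x : Site d} {Q : Measure (Path d)}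
    (hQ : IsQuenchedLaw ω x Q) : Q = law ω x :=
  (ext_cyl fun n p => (isQuenchedLaw_law hω x n p).trans (hQ n p).symm).symm

omit [NeZero d] in
lemma cyl_succ (n : ℕ) (p : Path d) :
    cyl (n + 1) p = {X | X 0 = p 0} ∩ theta ⁻¹' cyl n (theta p) := by
  ext X
  constructor
  · intro h
    exact ⟨h 0 (Nat.zero_le _), fun k hk => h (k + 1) (Nat.succ_le_succ hk)⟩
  · rintro ⟨h0, h⟩ k hk
    cases k with
    | zero => exact h0
    | succ k => exact h k (Nat.le_of_succ_le_succ hk)

lemma law_start (ω : Env d) (x : Site d) : law ω x {X | X 0 = x}ᶜ = 0 := by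
  rw [law, Measure.map_apply (measurable_walk x) (measurableSet_start x).compl]
  have h : walk x ⁻¹' {X : Path d | X 0 = x}ᶜ = ∅ := by
    ext ξ
    simp [walk]
  rw [h, measure_empty]

lemma law_inter_start (ω : Env d) (x : Site d) (s : Set (Path d)) :
    law ω x ({X | X 0 = x} ∩ s) = law ω x s := by
  refine le_antisymm (measure_mono Set.inter_subset_right) ?_
  calc law ω x s ≤ law ω x (({X | X 0 = x} ∩ s) ∪ {X | X 0 = x}ᶜ) := by
        refine measure_mono fun X hX => ?_
        by_cases h : X 0 = x
        · exact Or.inl ⟨h, hX⟩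
        · exact Or.inr h
    _ ≤ _ := (measure_union_le _ _).trans (by rw [law_start, add_zero])

/-- First step identity. -/
lemma map_theta {ω : Env d} (hω : Good ω) (x : Site d) :
    (law ω x).map theta = ∑ e, ENNReal.ofReal (ω x e) • law ω (x + move e) := by
  refine ext_cyl fun n q => ?_
  rw [Measure.map_apply measurable_theta (measurableSet_cyl n q)]
  let p : Path d := fun k => Nat.casesOn k x q
  have h1 : law ω x (theta ⁻¹' cyl n q) = law ω x (cyl (n + 1) p) := by
    rw [cyl_succ, ← law_inter_start ω x (theta ⁻¹' cyl n q)]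
    rfl
  have hpos : ∀ e, 0 ≤ ω x e := fun e => ((hω x).1 e).le
  rw [h1, law_cyl_jump hω x (n + 1) p, if_pos (show p 0 = x from rfl), one_mul,
    Finset.prod_range_succ']
  simp only [Measure.coe_finsetSum, Finset.sum_apply, Measure.smul_apply, smul_eq_mul]
  simp only [law_cyl_jump hω _ n q]
  show (∏ k ∈ Finset.range n, ENNReal.ofReal (jump ω (q k) (q (k + 1)))) *
    ENNReal.ofReal (jump ω x (q 0)) = _
  rw [jump, ENNReal.ofReal_sum_of_nonneg fun e _ => by
    split_ifs
    · exact hpos e
    · exact le_rfl, Finset.mul_sum]
  refine Finset.sum_congr rfl fun e _ => ?_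
  by_cases he : x + move e = q 0
  · rw [if_pos he, if_pos he.symm, one_mul, mul_comm]
  · rw [if_neg he, if_neg (Ne.symm he), ENNReal.ofReal_zero, mul_zero, zero_mul, mul_zero]

lemma law_theta {ω : Env d} (hω : Good ω) (x : Site d) {B : Set (Path d)}
    (hB : MeasurableSet B) :
    law ω x (theta ⁻¹' B) = ∑ e, ENNReal.ofReal (ω x e) * law ω (x + move e) B := by
  rw [← Measure.map_apply measurable_theta hB, map_theta hω x]
  simp [Finset.sum_apply]

/-- Markov property at time `n` for a shift invariant event. -/
lemma law_cyl_inter {ω : Env d} (hω : Good ω) {A : Set (Path d)} (hA : MeasurableSet A)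
    (hinv : theta ⁻¹' A = A) (n : ℕ) :
    ∀ (x : Site d) (p : Path d),
      law ω x (cyl n p ∩ A) = law ω x (cyl n p) * law ω (p n) A := by
  induction n with
  | zero =>
    intro x p
    by_cases hx : p 0 = x
    · have h : cyl 0 p = {X | X 0 = x} := by
        ext X
        simp [cyl, hx]
      rw [h, law_inter_start, hx]
      rw [(prob_compl_eq_zero_iff (measurableSet_start x)).mp
        (law_start ω x), one_mul]
    · have h : law ω x (cyl 0 p) = 0 := by rw [law_cyl, if_neg hx, zero_mul]
      rw [h, zero_mul]
      exact measure_mono_null Set.inter_subset_left h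
  | succ n ih =>
    intro x p
    by_cases hx : p 0 = x
    · rw [cyl_succ, Set.inter_assoc, hx, law_inter_start, law_inter_start]
      conv_lhs => rw [← hinv, ← Set.preimage_inter]
      rw [law_theta hω x ((measurableSet_cyl n _).inter hA),
        law_theta hω x (measurableSet_cyl n _), Finset.sum_mul]
      refine Finset.sum_congr rfl fun e _ => ?_
      rw [ih (x + move e) (theta p), mul_assoc]
      rfl
    · have h : law ω x (cyl (n + 1) p) = 0 := by rw [law_cyl, if_neg hx, zero_mul]
      rw [h, zero_mul]
      exact measure_mono_null Set.inter_subset_left h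

/-- A shift invariant event of constant probability has probability zero or one. -/
lemma zero_one_of_const {ω : Env d} (hω : Good ω) {A : Set (Path d)} (hA : MeasurableSet A)
    (hinv : theta ⁻¹' A = A) {c : ENNReal} (hc : ∀ y, law ω y A = c) : c = 0 ∨ c = 1 := by
  have hctop : c ≠ ⊤ := hc 0 ▸ measure_ne_top _ _
  have h : (law ω 0).restrict A = c • law ω 0 := by
    refine ext_cyl fun n p => ?_
    rw [Measure.restrict_apply (measurableSet_cyl n p), law_cyl_inter hω hA hinv n, hc,
      Measure.smul_apply, smul_eq_mul, mul_comm]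
  have h2 := congrArg (fun m : Measure (Path d) => m A) h
  simp only [Measure.restrict_apply hA, Set.inter_self, Measure.smul_apply, smul_eq_mul, hc] at h2
  by_cases hz : c = 0
  · exact Or.inl hz
  · exact Or.inr ((ENNReal.mul_right_inj hz hctop).mp (by rw [mul_one]; exact h2.symm))

end Vale.Agent.P147
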