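import Vale.Agent.P147.ZeroOne

/-!
P147: the walk which avoids a finite set only sees the rows off that set, and these are
independent of the rows on the set.
-/

open MeasureTheory Filter ProbabilityTheory

namespace Vale.Agent.P147

variable {d : ℕ}

/-- Paths which never visit `S`. -/
def avoid (S : Finset (Site d)) : Set (Path d) := stayFrom {x | x ∉ S} 0

lemma measurableSet_avoid (S : Finset (Site d)) : MeasurableSet (avoid S) :=
  measurableSet_stayFrom _ _

lemma walk_congr {S : Finset (Site d)} {z : Site d} {ξ ξ' : Idx d → Step d}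
    (h : ∀ i : Idx d, i.2 ∉ S → ξ i = ξ' i) (hav : walk z ξ ∈ avoid S) :
    walk z ξ' = walk z ξ := by
  funext k
  induction k with
  | zero => rfl
  | succ k ih =>
    show walk z ξ' k + move (ξ' (k, walk z ξ' k)) = walk z ξ k + move (ξ (k, walk z ξ k))
    rw [ih, h (k, walk z ξ k) (hav k (Nat.zero_le k))]

variable [NeZero d]

/-- The law on the event of avoiding `S` does not depend on the rows in `S`. -/
lemma law_avoid_congr {S : Finset (Site d)} {z : Site d} {ω ω' : Env d}
    (h : ∀ x, x ∉ S → ω x = ω' x) {B : Set (Path d)} (hB : MeasurableSet B) :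
    law ω z (B ∩ avoid S) = law ω' z (B ∩ avoid S) := by
  classical
  let c : Step d := ((0 : Fin d), true)
  let g : Idx d → Step d → Step d := fun i => if i.2 ∈ S then fun _ => c else id
  have hg : ∀ i, Measurable (g i) := fun i => measurable_of_countable _
  set G : (Idx d → Step d) → Idx d → Step d := fun ξ i => g i (ξ i) with hG
  have hGm : Measurable G := measurable_pi_lambda _ fun i => (hg i).comp (measurable_pi_apply i)
  have hE : walk z ⁻¹' (B ∩ avoid S) = G ⁻¹' (walk z ⁻¹' (B ∩ avoid S)) := by
    ext ξ
    have heq : ∀ i : Idx d, i.2 ∉ S → ξ i = G ξ i := fun i hi => by simp [hG, g, hi]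
    simp only [Set.mem_preimage]
    constructor
    · intro hξ
      rwa [walk_congr heq hξ.2]
    · intro hξ
      rwa [walk_congr (fun i hi => (heq i hi).symm) hξ.2]
  have hWm : MeasurableSet (walk z ⁻¹' (B ∩ avoid S)) :=
    measurable_walk z (hB.inter (measurableSet_avoid S))
  have key : ∀ η : Env d, law η z (B ∩ avoid S) =
      Measure.infinitePi (fun i : Idx d => (rowMeasure (η i.2)).map (g i))
        (walk z ⁻¹' (B ∩ avoid S)) := by
    intro η
    rw [law, Measure.map_apply (measurable_walk z) (hB.inter (measurableSet_avoid S)),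
      ← Measure.infinitePi_map_pi (fun i : Idx d => rowMeasure (η i.2)) hg,
      Measure.map_apply hGm hWm]
    exact congrArg _ hE
  rw [key, key]
  congr 2
  funext i
  by_cases hi : i.2 ∈ S
  · simp only [g, hi, if_true, Measure.map_const, measure_univ, one_smul]
  · rw [h _ hi]

omit [NeZero d] in
/-- Functions of the rows in `S` and of the rows off `S` are independent. -/
lemma lintegral_mul_split (μ : Measure (Step d → ℝ)) [IsProbabilityMeasure μ]
    (S : Finset (Site d)) {f g : Env d → ENNReal} (hf : Measurable f) (hg : Measurable g)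
    (hfS : ∀ ω ω', (∀ x ∈ S, ω x = ω' x) → f ω = f ω')
    (hgS : ∀ ω ω', (∀ x, x ∉ S → ω x = ω' x) → g ω = g ω') :
    ∫⁻ ω, f ω * g ω ∂iidLaw μ = (∫⁻ ω, f ω ∂iidLaw μ) * ∫⁻ ω, g ω ∂iidLaw μ := by
  classical
  let m : Site d → MeasurableSpace (Env d) := fun x =>
    MeasurableSpace.comap (fun ω : Env d => ω x) inferInstance
  have hle : ∀ x, m x ≤ (inferInstance : MeasurableSpace (Env d)) := fun x =>
    Measurable.comap_le (measurable_pi_apply x)
  have hi : iIndep m (iidLaw μ) :=
    iIndepFun_infinitePi (P := fun _ : Site d => μ) (X := fun _ p => p) fun _ => measurable_id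
  have hind := indep_iSup_of_disjoint hle hi
    (disjoint_compl_right : Disjoint (S : Set (Site d)) (S : Set (Site d))ᶜ)
  have hmeas : ∀ (T : Set (Site d)) (F : Env d → ENNReal), Measurable F →
      (∀ ω ω', (∀ x ∈ T, ω x = ω' x) → F ω = F ω') →
      Measurable[⨆ x ∈ T, m x] F := by
    intro T F hF hFT
    have e : F = F ∘ fun ω x => if x ∈ T then ω x else 0 := by
      funext ω
      exact hFT _ _ fun x hx => by simp [hx]
    rw [e]
    refine hF.comp (@measurable_pi_lambda (Env d) (Site d) _ (⨆ x ∈ T, m x) _ _ fun x => ?_)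
    by_cases hx : x ∈ T
    · simp only [hx, if_true]
      exact (comap_measurable _).mono (le_iSup₂_of_le x hx le_rfl) le_rfl
    · simp only [hx, if_false]
      exact measurable_const
  exact lintegral_mul_eq_lintegral_mul_lintegral_of_independent_measurableSpace
    (iSup₂_le fun x _ => hle x) (iSup₂_le fun x _ => hle x) hind
    (hmeas _ f hf fun ω ω' h => hfS ω ω' fun x hx => h x hx)
    (hmeas _ g hg fun ω ω' h => hgS ω ω' fun x hx => h x hx)

end Vale.Agent.P147
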