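import Mathlib

/-!
P147: random walk in random environment on `ℤ^d` with nearest neighbour steps.

`Step d` is the set of coordinate unit steps (an axis and a sign).  An environment is a
family of rows `Step d → ℝ`.  `IsQuenchedLaw ω x Q` says that the path measure `Q` has
the finite dimensional distributions of the Markov chain started at `x` with the rows
of `ω` as transition probabilities.
-/

open MeasureTheory Filter

namespace Vale.Agent.P147

/-- Sites of `ℤ^d`. -/
abbrev Site (d : ℕ) := Fin d → ℤ

/-- The `2d` coordinate unit steps: an axis and a sign. -/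
abbrev Step (d : ℕ) := Fin d × Bool

/-- The vector of a step: plus or minus a coordinate unit vector. -/
def move {d : ℕ} (e : Step d) : Site d := Pi.single e.1 (if e.2 then 1 else -1)

/-- An environment: one transition vector at each site. -/
abbrev Env (d : ℕ) := Site d → Step d → ℝ

/-- Paths of the walk. -/
abbrev Path (d : ℕ) := ℕ → Site d

/-- The probability to go from `a` to `b` in one step. -/
def jump {d : ℕ} (ω : Env d) (a b : Site d) : ℝ :=
  ∑ e : Step d, if a + move e = b then ω a e else 0

/-- `Q` is the quenched law of the walk in `ω` started at `x`. -/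
def IsQuenchedLaw {d : ℕ} (ω : Env d) (x : Site d) (Q : Measure (Path d)) : Prop :=
  ∀ (n : ℕ) (p : Path d), Q {X | ∀ k ≤ n, X k = p k}
    = (if p 0 = x then 1 else 0) *
        ∏ k ∈ Finset.range n, ENNReal.ofReal (jump ω (p k) (p (k + 1)))

/-- Escape in direction `ℓ`: `X_n · ℓ → +∞`. -/
def escape {d : ℕ} (ℓ : Fin d → ℝ) : Set (Path d) :=
  {X | Tendsto (fun n => ∑ i, ℓ i * (X n i : ℝ)) atTop atTop}

end Vale.Agent.P147
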