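import Vale.Agent.P147.Anisotropic

/-!
P147: quenched facts for a projection with anisotropy above two: decay of the potential along
the walk, the bound on the summed squared gradient of a harmonic function, and the effect of
new rows on the probability of an invariant event.
-/

open MeasureTheory Filter
open scoped RealInnerProductSpace Topology ENNReal

namespace Vale.Agent.P147

variable {d : ℕ} {E : Type*} [NormedAddCommGroup E] [InnerProductSpace ℝ E]

/-- Good rows, uniformly elliptic, driftless and not too anisotropic in the projection. -/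
structure Nice (a : Fin d → E) (γ κ : ℝ) (ω : Env d) : Prop where
  good : Good ω
  floor : ∀ x e, κ ≤ ω x e
  mean : ∀ x, ∑ e, ω x e • emb a (move e) = 0
  aniso : ∀ x (u : E), γ * ∑ e, ω x e * ⟪u, emb a (move e)⟫ ^ 2 ≤
    ‖u‖ ^ 2 * ∑ e, ω x e * ‖emb a (move e)‖ ^ 2

omit [InnerProductSpace ℝ E] in
lemma T_mono {ω : Env d} (hω : Good ω) {u v : Site d → ℝ} (h : ∀ x, u x ≤ v x) (x : Site d) :
    T ω u x ≤ T ω v x :=
  Finset.sum_le_sum fun e _ => mul_le_mul_of_nonneg_left (h _) ((hω x).1 e).le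

lemma T_affine {ω : Env d} (hω : Good ω) (r b : ℝ) (v : Site d → ℝ) (x : Site d) :
    T ω (fun y => r * v y + b) x = r * T ω v x + b := by
  simp only [T, mul_add, Finset.sum_add_distrib, ← Finset.sum_mul, (hω x).2, one_mul,
    Finset.mul_sum, mul_left_comm]

lemma iterate_T_nonneg {ω : Env d} (hω : Good ω) {f : Site d → ℝ} (hf : ∀ x, 0 ≤ f x) :
    ∀ (W : ℕ) x, 0 ≤ (T ω)^[W] f x := by
  intro W
  induction W with
  | zero => exact hf
  | succ W ih =>
    intro x
    rw [Function.iterate_succ_apply']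
    exact Finset.sum_nonneg fun e _ => mul_nonneg ((hω x).1 e).le (ih _)

/-- The squared gradient of the chance of `A`, weighted by the row. -/
noncomputable def grad [NeZero d] (ω : Env d) (A : Set (Path d)) (y : Site d) : ℝ :=
  ∑ e, ω y e * (pr ω (y + move e) A - pr ω y A) ^ 2

variable [NeZero d]

lemma pr_harmonic {ω : Env d} (hω : Good ω) {A : Set (Path d)} (hA : MeasurableSet A)
    (hinv : theta ⁻¹' A = A) (x : Site d) : T ω (fun y => pr ω y A) x = pr ω x A := by
  rw [← pr_theta hω hA x, hinv]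

lemma grad_nonneg {ω : Env d} (hω : Good ω) (A : Set (Path d)) (y : Site d) :
    0 ≤ grad ω A y :=
  Finset.sum_nonneg fun e _ => mul_nonneg ((hω y).1 e).le (sq_nonneg _)

lemma grad_le_one {ω : Env d} (hω : Good ω) (A : Set (Path d)) (y : Site d) :
    grad ω A y ≤ 1 := by
  refine le_trans (Finset.sum_le_sum fun e _ => mul_le_of_le_one_right ((hω y).1 e).le ?_)
    (hω y).2.le
  rw [sq_le_one_iff_abs_le_one, abs_le]
  constructor <;>
    linarith [pr_nonneg ω (y + move e) A, pr_le_one ω (y + move e) A, pr_nonneg ω y A,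
      pr_le_one ω y A]

/-- Visits after `W` steps. -/
lemma visits_shift {ω : Env d} (hω : Good ω) {g f : Site d → ℝ} (hg : ∀ x, 0 ≤ g x)
    (hf : ∀ x, 0 ≤ f x) (hpay : ∀ x, g x + T ω f x ≤ f x) (W M : ℕ) :
    ∀ x : Site d, ∫⁻ X, ∑ n ∈ Finset.range M, ENNReal.ofReal (g (X (n + W))) ∂law ω x ≤
      ENNReal.ofReal ((T ω)^[W] f x) := by
  induction W with
  | zero =>
    induction M with
    | zero => intro x; simp
    | succ M ih =>
      intro x
      set F : Path d → ℝ≥0∞ := fun X =>
        ∑ n ∈ Finset.range M, ENNReal.ofReal (g (X (n + 0))) with hF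
      have hFm : Measurable F := Finset.measurable_sum _ fun n _ => measurable_lin g (n + 0)
      calc ∫⁻ X, ∑ n ∈ Finset.range (M + 1), ENNReal.ofReal (g (X (n + 0))) ∂law ω x
          = ∫⁻ X, (F (theta X) + ENNReal.ofReal (g x)) ∂law ω x := by
            refine lintegral_congr_ae ((ae_start ω x).mono fun X hX => ?_)
            simp only [hF]
            rw [Finset.sum_range_succ', Nat.add_zero, hX]
            simp [theta]
        _ = ∑ e, ENNReal.ofReal (ω x e) * ∫⁻ X, F X ∂law ω (x + move e) +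
              ENNReal.ofReal (g x) := by
            rw [lintegral_add_right _ measurable_const, lintegral_const, measure_univ, mul_one,
              lintegral_theta hω x hFm]
        _ ≤ ∑ e, ENNReal.ofReal (ω x e) * ENNReal.ofReal (f (x + move e)) +
              ENNReal.ofReal (g x) := by
            gcongr with e
            exact ih _
        _ ≤ ENNReal.ofReal ((T ω)^[0] f x) := by
            have hnn : ∀ e, 0 ≤ ω x e * f (x + move e) := fun e =>
              mul_nonneg ((hω x).1 e).le (hf _)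
            simp only [← ENNReal.ofReal_mul ((hω x).1 _).le]
            rw [← ENNReal.ofReal_sum_of_nonneg fun e _ => hnn e,
              ← ENNReal.ofReal_add (Finset.sum_nonneg fun e _ => hnn e) (hg x)]
            refine ENNReal.ofReal_le_ofReal (le_trans (le_of_eq ?_) (hpay x))
            rw [add_comm]
            rfl
  | succ W ih =>
    intro x
    set F : Path d → ℝ≥0∞ := fun X =>
      ∑ n ∈ Finset.range M, ENNReal.ofReal (g (X (n + W))) with hF
    have hFm : Measurable F := Finset.measurable_sum _ fun n _ => measurable_lin g (n + W)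
    calc ∫⁻ X, ∑ n ∈ Finset.range M, ENNReal.ofReal (g (X (n + (W + 1)))) ∂law ω x
        = ∫⁻ X, F (theta X) ∂law ω x := rfl
      _ ≤ ∑ e, ENNReal.ofReal (ω x e) * ENNReal.ofReal ((T ω)^[W] f (x + move e)) := by
          rw [lintegral_theta hω x hFm]
          gcongr with e
          exact ih _
      _ = ENNReal.ofReal ((T ω)^[W + 1] f x) := by
          rw [Function.iterate_succ_apply', T, ENNReal.ofReal_sum_of_nonneg fun e _ =>
            mul_nonneg ((hω x).1 e).le (iterate_T_nonneg hω hf _ _)]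
          simp only [← ENNReal.ofReal_mul ((hω x).1 _).le]

/-- The bounded martingale `pr ω X_n A` has summable squared increments. -/
lemma grad_sum_le {ω : Env d} (hω : Good ω) {A : Set (Path d)} (hA : MeasurableSet A)
    (hinv : theta ⁻¹' A = A) (M : ℕ) (x : Site d) :
    ∫⁻ X, ∑ n ∈ Finset.range M, ENNReal.ofReal (grad ω A (X n)) ∂law ω x ≤ 1 := by
  set h := fun y => pr ω y A with hh
  have hpay : ∀ y, grad ω A y + T ω (fun z => 1 - h z ^ 2) y ≤ 1 - h y ^ 2 := by
    intro y
    have hm : ∑ e, ω y e * h (y + move e) = h y := pr_harmonic hω hA hinv y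
    refine le_of_eq ?_
    calc grad ω A y + T ω (fun z => 1 - h z ^ 2) y
        = ∑ e, ω y e * (1 + h y ^ 2 - 2 * h y * h (y + move e)) := by
          simp only [grad, T, ← Finset.sum_add_distrib]
          exact Finset.sum_congr rfl fun e _ => by simp only [hh]; ring
      _ = (1 + h y ^ 2) * ∑ e, ω y e - 2 * h y * ∑ e, ω y e * h (y + move e) := by
          simp only [Finset.mul_sum, ← Finset.sum_sub_distrib]
          exact Finset.sum_congr rfl fun e _ => by ring
      _ = 1 - h y ^ 2 := by rw [hm, (hω y).2]; ring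
  have hsq : ∀ y, h y ^ 2 ≤ 1 := fun y => by
    nlinarith [pr_nonneg ω y A, pr_le_one ω y A]
  have hv := visits_shift hω (g := grad ω A) (f := fun y => 1 - h y ^ 2) (grad_nonneg hω A)
    (fun y => sub_nonneg.mpr (hsq y)) hpay 0 M x
  refine le_trans hv ?_
  rw [← ENNReal.ofReal_one]
  exact ENNReal.ofReal_le_ofReal (sub_le_self _ (sq_nonneg _))

lemma ae_range (ω : Env d) (x : Site d) :
    ∀ᵐ X ∂law ω x, ∀ (k : ℕ) (i : Fin d), |X k i - x i| ≤ (k : ℤ) := by
  have hmeas : MeasurableSet {X : Path d | ∀ (k : ℕ) (i : Fin d), |X k i - x i| ≤ (k : ℤ)} := by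
    have e : {X : Path d | ∀ (k : ℕ) (i : Fin d), |X k i - x i| ≤ (k : ℤ)} =
        ⋂ k : ℕ, (fun X : Path d => X k) ⁻¹' {y | ∀ i : Fin d, |y i - x i| ≤ (k : ℤ)} := by
      ext X
      simp
    rw [e]
    exact MeasurableSet.iInter fun k => measurable_pi_apply k (Set.to_countable _).measurableSet
  rw [law, ae_map_iff (measurable_walk x).aemeasurable hmeas]
  refine .of_forall fun ξ k => ?_
  induction k with
  | zero => intro i; simp [walk]
  | succ k ih =>
    intro i
    have hm : |move (ξ (k, walk x ξ k)) i| ≤ 1 := by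
      simp only [move, Pi.single_apply]
      split_ifs <;> simp
    have e : walk x ξ (k + 1) i - x i =
        (walk x ξ k i - x i) + move (ξ (k, walk x ξ k)) i := by
      simp only [walk, Pi.add_apply]; ring
    rw [e]
    push_cast
    exact (abs_add_le _ _).trans (add_le_add (ih i) hm)

/-- Meeting `y` is counted by the visits. -/
lemma hit_grad_le {ω : Env d} (hω : Good ω) {A : Set (Path d)} (hA : MeasurableSet A)
    (hinv : theta ⁻¹' A = A) (S : Finset (Site d)) (x : Site d) :
    ∑ y ∈ S, pr ω x (avoid {y})ᶜ * grad ω A y ≤ 1 := by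
  have hpt : ∀ X : Path d, ∑ y ∈ S, (avoid {y})ᶜ.indicator
      (fun _ => ENNReal.ofReal (grad ω A y)) X ≤ ∑' k, ENNReal.ofReal (grad ω A (X k)) := by
    intro X
    have hy : ∀ y ∈ S, (avoid {y})ᶜ.indicator (fun _ => ENNReal.ofReal (grad ω A y)) X ≤
        ∑' k, if X k = y then ENNReal.ofReal (grad ω A y) else 0 := by
      intro y _
      by_cases h : X ∈ avoid {y}
      · rw [Set.indicator_of_notMem (by simpa using h)]; exact zero_le
      · rw [Set.indicator_of_mem (by simpa using h)]
        simp only [avoid, stayFrom, Set.mem_ofPred_eq, Finset.mem_singleton, not_forall,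
          not_not, exists_prop] at h
        obtain ⟨k, -, hk⟩ := h
        exact le_trans (le_of_eq (by rw [if_pos hk])) (ENNReal.le_tsum k)
    refine (Finset.sum_le_sum hy).trans ?_
    rw [← Summable.tsum_finsetSum fun y _ => ENNReal.summable]
    refine ENNReal.tsum_le_tsum fun k => ?_
    rw [Finset.sum_ite_eq]
    split_ifs
    · exact le_rfl
    · exact zero_le
  have h := lintegral_mono (μ := law ω x) hpt
  rw [lintegral_finsetSum _ fun y _ =>
    measurable_const.indicator (measurableSet_avoid _).compl] at h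
  simp only [lintegral_indicator_const (measurableSet_avoid _).compl] at h
  have hb : ∫⁻ X, ∑' k, ENNReal.ofReal (grad ω A (X k)) ∂law ω x ≤ 1 := by
    rw [lintegral_tsum fun k => (measurable_lin (grad ω A) k).aemeasurable]
    refine ENNReal.tsum_le_of_sum_range_le fun M => ?_
    rw [← lintegral_finsetSum _ fun k _ => measurable_lin (grad ω A) k]
    exact grad_sum_le hω hA hinv M x
  have h2 := ENNReal.toReal_mono ENNReal.one_ne_top (h.trans hb)
  rw [ENNReal.toReal_sum fun y _ => ENNReal.mul_ne_top ENNReal.ofReal_ne_top (measure_ne_top _ _)]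
    at h2
  refine le_trans (le_of_eq (Finset.sum_congr rfl fun y _ => ?_)) h2
  rw [ENNReal.toReal_mul, ENNReal.toReal_ofReal (grad_nonneg hω A y), mul_comm]
  rfl

/-- Meeting `y` does not depend on the row at `y`. -/
lemma pr_hit_congr {ω ω' : Env d} {y : Site d} (h : ∀ x, x ≠ y → ω x = ω' x) (x : Site d) :
    pr ω x (avoid {y})ᶜ = pr ω' x (avoid {y})ᶜ := by
  have e := law_avoid_congr (S := {y}) (z := x) (fun z hz => h z (by simpa using hz))
    (MeasurableSet.univ (α := Path d))
  simp only [Set.univ_inter] at e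
  simp only [pr, probReal_compl_eq_one_sub (measurableSet_avoid _)]
  simp only [measureReal_def, e]

/-- The potential `φ`, the payment `ψ` and the constants linking them. -/
structure Lyap (a : Fin d → E) (γ κ t c θ : ℝ) (φ ψ : E → ℝ) : Prop where
  pos : 0 < t
  cpos : 0 < c
  cle : c ≤ 1
  θlt : θ < 1
  nonneg : ∀ y, 0 ≤ φ y
  le_one : ∀ y, φ y ≤ 1
  zero : φ 0 = 1
  pays_nonneg : ∀ y, 0 ≤ ψ y
  step : ∀ ω, Nice a γ κ ω → ∀ x y, ψ y + ∑ e, ω x e * φ (y + emb a (move e)) ≤ φ y
  interp : ∀ l : ℝ, 0 < l → ∀ y, c * (l * φ y - l ^ (t + 1)) ≤ ψ y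

variable {a : Fin d → E} {γ κ t c θ : ℝ} {φ ψ : E → ℝ}

lemma Lyap.pay (L : Lyap a γ κ t c θ φ ψ) {ω : Env d} (hω : Nice a γ κ ω) (w : E) (x : Site d) :
    ψ (emb a x + w) + T ω (fun y => φ (emb a y + w)) x ≤ φ (emb a x + w) := by
  refine le_trans (le_of_eq ?_) (L.step ω hω x (emb a x + w))
  congr 1
  exact Finset.sum_congr rfl fun e _ => by dsimp only; rw [emb_add, add_right_comm]

/-- Decay of the potential along the walk. -/
lemma Lyap.decay (L : Lyap a γ κ t c θ φ ψ) {ω : Env d} (hω : Nice a γ κ ω) (w : E) {l : ℝ}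
    (hl0 : 0 < l) (hl1 : l ≤ 1) (W : ℕ) (x : Site d) :
    (T ω)^[W] (fun y => φ (emb a y + w)) x ≤ (1 - c * l) ^ W + l ^ t := by
  have hr : 0 ≤ 1 - c * l := sub_nonneg.mpr (mul_le_one₀ L.cle hl0.le hl1)
  have hr1 : 1 - c * l ≤ 1 := sub_le_self _ (mul_nonneg L.cpos.le hl0.le)
  set f := fun y => φ (emb a y + w) with hf
  have hstep : ∀ x, T ω f x ≤ (1 - c * l) * f x + c * l ^ (t + 1) := by
    intro x
    have h1 := L.pay hω w x
    have h2 := L.interp l hl0 (emb a x + w)
    simp only [hf] at h1 ⊢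
    linarith
  have hmain : ∀ (W : ℕ) x, (T ω)^[W] f x ≤
      (1 - c * l) ^ W * f x + l ^ t * (1 - (1 - c * l) ^ W) := by
    intro W
    induction W with
    | zero => intro x; simp
    | succ W ih =>
      intro x
      rw [Function.iterate_succ_apply']
      refine (T_mono hω.good ih x).trans ?_
      rw [T_affine hω.good]
      refine le_trans (add_le_add (mul_le_mul_of_nonneg_left (hstep x) (pow_nonneg hr _)) le_rfl)
        (le_of_eq ?_)
      rw [Real.rpow_add hl0, Real.rpow_one, pow_succ]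
      ring
  refine (hmain W x).trans (add_le_add (mul_le_of_le_one_right (pow_nonneg hr _) (L.le_one _)) ?_)
  exact mul_le_of_le_one_right (Real.rpow_nonneg hl0.le _) (sub_le_self _ (pow_nonneg hr _))

/-- The chance to meet a site after `W` steps. -/
lemma Lyap.hit_late (L : Lyap a γ κ t c θ φ ψ) {ω : Env d} (hω : Nice a γ κ ω) (y : Site d)
    (W : ℕ) : ∀ x, pr ω x (stayFrom {z | z ∉ ({y} : Finset (Site d))} W)ᶜ ≤
      (T ω)^[W] (fun z => φ (emb a z + -emb a y)) x := by
  induction W with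
  | zero =>
    intro x
    have h : 1 - φ (emb a x + -emb a y) ≤ pr ω x (avoid {y}) := by
      refine le_stay hω.good _ (v := fun z => 1 - φ (emb a z + -emb a y))
        (fun z => sub_le_self _ (L.nonneg _)) (fun z hz => ?_) (fun z => ?_) x
      · simp only [Set.mem_ofPred_eq, Finset.mem_singleton, not_not] at hz
        simp [hz, L.zero]
      · simp only [T, mul_sub, mul_one, Finset.sum_sub_distrib, (hω.good z).2]
        refine sub_le_sub_left ?_ 1
        have h1 := L.pay hω (-emb a y) z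
        have h2 := L.pays_nonneg (emb a z + -emb a y)
        simp only [T] at h1
        linarith
    show pr ω x (avoid {y})ᶜ ≤ φ (emb a x + -emb a y)
    rw [pr, probReal_compl_eq_one_sub (measurableSet_avoid _)]
    rw [pr] at h
    linarith
  | succ W ih =>
    intro x
    rw [← theta_stayFrom, ← Set.preimage_compl,
      pr_theta hω.good (measurableSet_stayFrom _ _).compl, Function.iterate_succ_apply']
    exact T_mono hω.good ih x

lemma Lyap.hit_le (L : Lyap a γ κ t c θ φ ψ) {ω : Env d} (hω : Nice a γ κ ω) (y x : Site d) :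
    pr ω x (avoid {y})ᶜ ≤ φ (emb a x + -emb a y) :=
  L.hit_late hω y 0 x

/-- A far site is rarely met. -/
lemma Lyap.hit_far (L : Lyap a γ κ t c θ φ ψ) {ω : Env d} (hω : Nice a γ κ ω) {W : ℕ}
    {x y : Site d} (hy : ∃ i, (W : ℤ) < |y i - x i|) {l : ℝ} (hl0 : 0 < l) (hl1 : l ≤ 1) :
    pr ω x (avoid {y})ᶜ ≤ (1 - c * l) ^ W + l ^ t := by
  refine le_trans ?_ ((L.hit_late hω y W x).trans (L.decay hω _ hl0 hl1 W x))
  refine ENNReal.toReal_mono (measure_ne_top _ _) (measure_mono_ae ?_)
  filter_upwards [ae_range ω x] with X hX hmem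
  replace hmem : X ∉ avoid {y} := hmem
  simp only [avoid, stayFrom, Set.mem_ofPred_eq, not_forall, exists_prop] at hmem
  show X ∈ (stayFrom {z | z ∉ ({y} : Finset (Site d))} W)ᶜ
  simp only [stayFrom, Set.mem_compl_iff, Set.mem_ofPred_eq, not_forall, exists_prop]
  obtain ⟨k, -, hk⟩ := hmem
  refine ⟨k, ?_, hk⟩
  simp only [Finset.mem_singleton, not_not] at hk
  obtain ⟨i, hi⟩ := hy
  have := hX k i
  rw [hk] at this
  omega

/-- A finite set is left for good. -/
lemma Lyap.leave (L : Lyap a γ κ t c θ φ ψ) {ω : Env d} (hω : Nice a γ κ ω) (U : Finset (Site d))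
    (x : Site d) :
    Tendsto (fun n : ℕ => pr ω x (stayFrom {z | z ∉ U} n)ᶜ) atTop (𝓝 0) := by
  refine tendsto_order.mpr ⟨fun r hr => .of_forall fun n => hr.trans_le (pr_nonneg _ _ _),
    fun r hr => ?_⟩
  have hlim : Tendsto (fun l : ℝ => (U.card : ℝ) * l ^ t) (𝓝[>] 0) (𝓝 0) := by
    have := (Real.continuousAt_rpow_const 0 t (Or.inr L.pos.le)).tendsto.const_mul (U.card : ℝ)
    rw [Real.zero_rpow L.pos.ne', mul_zero] at this
    exact this.mono_left nhdsWithin_le_nhds
  obtain ⟨l, hl, hl0, hl1⟩ := ((hlim.eventually (gt_mem_nhds (half_pos hr))).and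
    (Ioc_mem_nhdsGT one_pos)).exists
  have hq : |1 - c * l| < 1 := by
    have h1 : 0 < c * l := mul_pos L.cpos hl0
    have h2 : c * l ≤ 1 := mul_le_one₀ L.cle hl0.le hl1
    rw [abs_lt]
    constructor <;> linarith
  have hgeo := (tendsto_pow_atTop_nhds_zero_of_abs_lt_one hq).const_mul (U.card : ℝ)
  rw [mul_zero] at hgeo
  filter_upwards [hgeo.eventually (gt_mem_nhds (half_pos hr))] with n hn
  calc pr ω x (stayFrom {z | z ∉ U} n)ᶜ
      ≤ (law ω x).real (⋃ s ∈ U, (stayFrom {z | z ∉ ({s} : Finset (Site d))} n)ᶜ) := by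
        refine measureReal_mono (fun X hX => ?_) (measure_ne_top _ _)
        simp only [stayFrom, Set.mem_compl_iff, Set.mem_ofPred_eq, not_forall, not_not,
          exists_prop] at hX
        obtain ⟨k, hk, hkU⟩ := hX
        simp only [Set.mem_iUnion, stayFrom, Set.mem_compl_iff, Set.mem_ofPred_eq, not_forall,
          exists_prop, Finset.mem_singleton, not_not]
        exact ⟨X k, hkU, k, hk, rfl⟩
    _ ≤ ∑ s ∈ U, pr ω x (stayFrom {z | z ∉ ({s} : Finset (Site d))} n)ᶜ :=
        measureReal_biUnion_finset_le _ _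
    _ ≤ ∑ _s ∈ U, ((1 - c * l) ^ n + l ^ t) :=
        Finset.sum_le_sum fun s _ => (L.hit_late hω s n x).trans (L.decay hω _ hl0 hl1 n x)
    _ = (U.card : ℝ) * (1 - c * l) ^ n + (U.card : ℝ) * l ^ t := by
        rw [Finset.sum_const, nsmul_eq_mul]; ring
    _ < r := by linarith

/-- New rows on a finite set change the chance of an invariant event by at most the gradient
there times the chance to get there. -/
lemma change_le {ω ω' : Env d} (hω : Good ω) (hω' : Good ω') {U : Finset (Site d)}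
    (heq : ∀ x, x ∉ U → ω x = ω' x) {A : Set (Path d)} (hA : MeasurableSet A)
    (hinv : theta ⁻¹' A = A) {ρ : ℝ} (hρ : 0 < ρ)
    (hret : ∀ y ∈ U, T ω' (fun z => pr ω' z (avoid {y})ᶜ) y ≤ 1 - ρ)
    (hleave : ∀ x, Tendsto (fun n : ℕ => pr ω' x (stayFrom {z | z ∉ U} n)ᶜ) atTop (𝓝 0))
    (x : Site d) :
    pr ω' x A ≤ pr ω x A + ∑ y ∈ U,
      |T ω' (fun z => pr ω z A) y - pr ω y A| * pr ω' x (avoid {y})ᶜ / ρ := by
  classical
  set h := fun z => pr ω z A
  set δ := fun y => |T ω' h y - h y|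
  set b := fun y z => pr ω' z (avoid {y})ᶜ
  set u := fun z => h z + ∑ y ∈ U, δ y * b y z / ρ with hu
  have hb : ∀ y z, T ω' (b y) z ≤ b y z := by
    intro y z
    have e : ∀ v, b y v = 1 - pr ω' v (avoid {y}) := fun v =>
      probReal_compl_eq_one_sub (measurableSet_avoid _)
    simp only [T, e, mul_sub, mul_one, Finset.sum_sub_distrib, (hω' z).2]
    exact sub_le_sub_left (stay_sub hω' _ z) 1
  have hbU : ∀ y ∈ U, T ω' (b y) y ≤ b y y - ρ := by
    intro y hy
    have e : b y y = 1 := by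
      have h0 : pr ω' y (avoid {y}) = 0 := by
        have e0 : avoid {y} = {X : Path d | X 0 ∈ {z | z ∉ ({y} : Finset (Site d))}} ∩ avoid {y} :=
          (Set.inter_eq_right.mpr fun X (hX : X ∈ avoid {y}) =>
            (show ∀ k, 0 ≤ k → X k ∈ {z | z ∉ ({y} : Finset (Site d))} from hX) 0 le_rfl).symm
        rw [e0, pr_first_not_mem _ _ _ (by simp)]
      simp only [b, pr] at h0 ⊢
      rw [probReal_compl_eq_one_sub (measurableSet_avoid _), h0, sub_zero]
    rw [e]
    exact hret y hy
  have hTu : ∀ z, T ω' u z ≤ u z := by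
    intro z
    have hsum : T ω' u z = T ω' h z + ∑ y ∈ U, δ y * T ω' (b y) z / ρ := by
      simp only [hu, T, mul_add, Finset.sum_add_distrib, Finset.mul_sum, Finset.sum_div]
      rw [Finset.sum_comm]
      congr 1
      exact Finset.sum_congr rfl fun y _ => Finset.sum_congr rfl fun e _ => by ring
    rw [hsum]
    by_cases hz : z ∈ U
    · rw [← Finset.sum_erase_add _ _ hz, hu]
      simp only
      rw [← Finset.sum_erase_add (f := fun y => δ y * b y z / ρ) _ hz]
      have h1 : ∑ y ∈ U.erase z, δ y * T ω' (b y) z / ρ ≤ ∑ y ∈ U.erase z, δ y * b y z / ρ :=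
        Finset.sum_le_sum fun y _ => div_le_div_of_nonneg_right
          (mul_le_mul_of_nonneg_left (hb y z) (abs_nonneg _)) hρ.le
      have h2 : δ z * T ω' (b z) z / ρ ≤ δ z * b z z / ρ - δ z := by
        rw [le_sub_iff_add_le, div_add' _ _ _ hρ.ne', div_le_div_iff_of_pos_right hρ, ← mul_add]
        exact mul_le_mul_of_nonneg_left (by linarith [hbU z hz]) (abs_nonneg _)
      linarith [le_abs_self (T ω' h z - h z)]
    · have he : T ω' h z = h z := by
        refine Eq.trans ?_ (pr_harmonic hω hA hinv z)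
        simp only [T, heq z hz]
        rfl
      rw [he, hu]
      exact add_le_add le_rfl (Finset.sum_le_sum fun y _ => div_le_div_of_nonneg_right
          (mul_le_mul_of_nonneg_left (hb y z) (abs_nonneg _)) hρ.le)
  have hkey : ∀ (n : ℕ) z, pr ω' z (A ∩ stayFrom {v | v ∉ U} n) ≤ u z := by
    intro n
    induction n with
    | zero =>
      intro z
      have e : pr ω' z (A ∩ stayFrom {v | v ∉ U} 0) = pr ω z (A ∩ avoid U) := by
        simp only [pr, measureReal_def]
        exact congrArg ENNReal.toReal (law_avoid_congr (fun v hv => (heq v hv).symm) hA)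
      rw [e]
      refine le_trans (measureReal_mono Set.inter_subset_left) ?_
      exact le_add_of_nonneg_right (Finset.sum_nonneg fun y _ =>
        div_nonneg (mul_nonneg (abs_nonneg _) (pr_nonneg _ _ _)) hρ.le)
    | succ n ih =>
      intro z
      conv_lhs => rw [← hinv, ← theta_stayFrom, ← Set.preimage_inter]
      rw [pr_theta hω' (hA.inter (measurableSet_stayFrom _ _))]
      exact (T_mono hω' ih z).trans (hTu z)
  have hlim : Tendsto (fun n : ℕ => u x + pr ω' x (stayFrom {z | z ∉ U} n)ᶜ) atTop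
      (𝓝 (u x)) := by simpa using (hleave x).const_add (u x)
  refine ge_of_tendsto' hlim fun n => ?_
  calc pr ω' x A
      ≤ (law ω' x).real ((A ∩ stayFrom {z | z ∉ U} n) ∪ (stayFrom {z | z ∉ U} n)ᶜ) :=
        measureReal_mono fun X hX => by
          by_cases h : X ∈ stayFrom {z | z ∉ U} n
          · exact Or.inl ⟨hX, h⟩
          · exact Or.inr h
    _ ≤ _ := (measureReal_union_le _ _).trans (add_le_add (hkey n x) le_rfl)

/-- Two sided form, with the gradient. -/
lemma Lyap.abs_change (L : Lyap a γ κ t c θ φ ψ) (hκ : 0 < κ) {e₀ : Step d}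
    (hθ : φ (emb a (move e₀)) ≤ θ) {ω ω' : Env d} (hω : Nice a γ κ ω) (hω' : Nice a γ κ ω')
    {U : Finset (Site d)} (heq : ∀ x, x ∉ U → ω x = ω' x) {A : Set (Path d)}
    (hA : MeasurableSet A) (hinv : theta ⁻¹' A = A) (x : Site d) :
    |pr ω' x A - pr ω x A| ≤
      ∑ y ∈ U, Real.sqrt (grad ω A y / κ) * pr ω' x (avoid {y})ᶜ / (κ * (1 - θ)) := by
  set ρ := κ * (1 - θ)
  have hρ : 0 < ρ := mul_pos hκ (sub_pos.mpr L.θlt)
  have hret : ∀ y ∈ U, T ω' (fun z => pr ω' z (avoid {y})ᶜ) y ≤ 1 - ρ := by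
    intro y _
    have h1 : ∀ e, ω' y e * pr ω' (y + move e) (avoid {y})ᶜ ≤
        ω' y e - if e = e₀ then ρ else 0 := by
      intro e
      have hp := ((hω'.good y).1 e).le
      split_ifs with he
      · subst he
        have h2 : pr ω' (y + move e) (avoid {y})ᶜ ≤ θ := by
          refine (L.hit_le hω' y _).trans (le_trans (le_of_eq (congrArg φ ?_)) hθ)
          rw [emb_add]; abel
        have h3 := mul_le_mul_of_nonneg_left h2 hp
        have h4 := mul_le_mul_of_nonneg_right (hω'.floor y e) (sub_nonneg.mpr L.θlt.le)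
        simp only [ρ]
        nlinarith
      · rw [sub_zero]
        exact mul_le_of_le_one_right hp (pr_le_one _ _ _)
    refine (Finset.sum_le_sum fun e _ => h1 e).trans (le_of_eq ?_)
    rw [Finset.sum_sub_distrib, (hω'.good y).2, Finset.sum_ite_eq' Finset.univ e₀,
      if_pos (Finset.mem_univ _)]
  have hd : ∀ y, |T ω' (fun z => pr ω z A) y - pr ω y A| ≤ Real.sqrt (grad ω A y / κ) := by
    intro y
    refine Real.le_sqrt_of_sq_le ?_
    rw [sq_abs]
    set v := fun e => pr ω (y + move e) A - pr ω y A with hv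
    have e1 : T ω' (fun z => pr ω z A) y - pr ω y A = ∑ e, ω' y e * v e := by
      simp only [T, hv, mul_sub, Finset.sum_sub_distrib, ← Finset.sum_mul, (hω'.good y).2,
        one_mul]
    have hcs : (∑ e, ω' y e * v e) ^ 2 ≤ ∑ e, ω' y e * v e ^ 2 := by
      have h0 : 0 ≤ ∑ e, ω' y e * (v e - ∑ e, ω' y e * v e) ^ 2 :=
        Finset.sum_nonneg fun e _ => mul_nonneg ((hω'.good y).1 e).le (sq_nonneg _)
      set m := ∑ e, ω' y e * v e
      have e2 : ∑ e, ω' y e * (v e - m) ^ 2 =
          ∑ e, ω' y e * v e ^ 2 - 2 * m * ∑ e, ω' y e * v e + m ^ 2 * ∑ e, ω' y e := by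
        simp only [Finset.mul_sum, ← Finset.sum_sub_distrib, ← Finset.sum_add_distrib]
        exact Finset.sum_congr rfl fun e _ => by ring
      rw [e2, (hω'.good y).2] at h0
      nlinarith
    rw [e1, le_div_iff₀ hκ]
    refine (mul_le_mul_of_nonneg_right hcs hκ.le).trans ?_
    rw [Finset.sum_mul]
    refine Finset.sum_le_sum fun e _ => ?_
    have h1 : ω' y e ≤ 1 := (Finset.single_le_sum (fun i _ => ((hω'.good y).1 i).le)
      (Finset.mem_univ e)).trans (hω'.good y).2.le
    calc ω' y e * v e ^ 2 * κ ≤ 1 * v e ^ 2 * ω y e :=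
          mul_le_mul (mul_le_mul_of_nonneg_right h1 (sq_nonneg _)) (hω.floor y e) hκ.le
            (mul_nonneg zero_le_one (sq_nonneg _))
      _ = _ := by simp only [hv]; ring
  have hbound : ∀ y ∈ U, |T ω' (fun z => pr ω z A) y - pr ω y A| * pr ω' x (avoid {y})ᶜ / ρ ≤
      Real.sqrt (grad ω A y / κ) * pr ω' x (avoid {y})ᶜ / ρ := fun y _ =>
    div_le_div_of_nonneg_right (mul_le_mul_of_nonneg_right (hd y) (pr_nonneg _ _ _)) hρ.le
  have h1 := change_le hω.good hω'.good heq hA hinv hρ hret (L.leave hω' U) x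
  have h2 := change_le hω.good hω'.good heq hA.compl (by rw [Set.preimage_compl, hinv]) hρ hret
    (L.leave hω' U) x
  have hc : ∀ (η : Env d) z, pr η z Aᶜ = 1 - pr η z A := fun η z =>
    probReal_compl_eq_one_sub hA
  have hT : ∀ y, |T ω' (fun z => pr ω z Aᶜ) y - pr ω y Aᶜ| =
      |T ω' (fun z => pr ω z A) y - pr ω y A| := fun y => by
    simp only [T, hc, mul_sub, mul_one, Finset.sum_sub_distrib, (hω'.good y).2]
    rw [← abs_neg]
    congr 1
    ring
  simp_rw [hT] at h2
  simp only [hc] at h2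
  have h3 := Finset.sum_le_sum hbound
  rw [abs_le]
  constructor <;> linarith

/-- The potential exists. -/
lemma exists_lyap (a : Fin d → E) {γ κ : ℝ} (hγ : 2 < γ) (hκ : 0 < κ) {e₀ : Step d}
    (he₀ : emb a (move e₀) ≠ 0) :
    ∃ t c θ φ ψ, Lyap a γ κ t c θ φ ψ ∧ φ (emb a (move e₀)) ≤ θ ∧
      ∃ b > (0 : ℝ), ∀ (y : E) (s : ℝ), 1 ≤ s → ‖y‖ ^ 2 ≤ s →
        b * s ^ (-(t + 1)) ≤ ψ y := by
  set t := (γ - 2) / 4 with htdef
  have ht : 0 < t := by rw [htdef]; linarith
  set σ := κ * ‖emb a (move e₀)‖ ^ 2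
  obtain ⟨R₀, hR₀, hstep⟩ := pot_step (fun e : Step d => emb a (move e)) (t := t) ht
    (show 2 * (t + 1) < γ by rw [htdef]; linarith)
    (show 0 < σ from mul_pos hκ (pow_pos (norm_pos_iff.mpr he₀) 2))
  obtain ⟨c₀, hc₀, hstep⟩ := hstep R₀ le_rfl
  set R := R₀
  set c := min (c₀ / R) 1
  have hc : 0 < c := lt_min (div_pos hc₀ hR₀) one_pos
  set z : E → ℝ := fun y => R / (R + ‖y‖ ^ 2) with hz
  have hzpos : ∀ y, 0 < z y := fun y => div_pos hR₀ (pot_base_pos hR₀ y)
  have hzle : ∀ y, z y ≤ 1 := fun y =>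
    (div_le_one (pot_base_pos hR₀ y)).mpr (le_add_of_nonneg_right (sq_nonneg _))
  have hpot : ∀ (s : ℝ) (y : E), z y ^ s = R ^ s * pot s R y := fun s y => by
    rw [hz, Real.div_rpow hR₀.le (pot_base_pos hR₀ y).le, pot,
      Real.rpow_neg (pot_base_pos hR₀ y).le, div_eq_mul_inv]
  have hθ : z (emb a (move e₀)) ^ t < 1 := by
    refine Real.rpow_lt_one (hzpos _).le ?_ ht
    rw [hz, div_lt_one (pot_base_pos hR₀ _)]
    exact lt_add_of_pos_right _ (pow_pos (norm_pos_iff.mpr he₀) 2)
  refine ⟨t, c, z (emb a (move e₀)) ^ t, fun y => z y ^ t, fun y => c * z y ^ (t + 1),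
    ⟨ht, hc, min_le_right _ _, hθ, fun y => Real.rpow_nonneg (hzpos y).le _,
      fun y => Real.rpow_le_one (hzpos y).le (hzle y) ht.le, ?_,
      fun y => mul_nonneg hc.le (Real.rpow_nonneg (hzpos y).le _), fun ω hω x y => ?_,
      fun l hl y => ?_⟩, le_rfl, c * (R / (R + 1)) ^ (t + 1), by positivity,
    fun y s hs hy => ?_⟩
  · simp [hz, hR₀.ne']
  · have h := hstep (ω x) (fun e => ((hω.good x).1 e).le) (hω.good x).2 (hω.mean x) (hω.aniso x)
      ((mul_le_mul_of_nonneg_right (hω.floor x e₀) (sq_nonneg _)).trans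
        (Finset.single_le_sum (f := fun e => ω x e * ‖emb a (move e)‖ ^ 2)
          (fun e _ => mul_nonneg ((hω.good x).1 e).le (sq_nonneg _)) (Finset.mem_univ e₀))) y
    have hR : 0 < R ^ t := Real.rpow_pos_of_pos hR₀ _
    have h' := mul_le_mul_of_nonneg_left h hR.le
    have e1 : ∑ e, ω x e * z (y + emb a (move e)) ^ t =
        R ^ t * ∑ e, ω x e * pot t R (y + emb a (move e)) := by
      rw [Finset.mul_sum]
      exact Finset.sum_congr rfl fun e _ => by rw [hpot]; ring
    have e2 : c * z y ^ (t + 1) ≤ R ^ t * (c₀ * pot (t + 1) R y) := by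
      refine (mul_le_mul_of_nonneg_right (min_le_left _ _)
        (Real.rpow_nonneg (hzpos y).le _)).trans (le_of_eq ?_)
      rw [hpot, Real.rpow_add hR₀, Real.rpow_one]
      field_simp
    rw [e1, hpot t y]
    nlinarith
  · refine mul_le_mul_of_nonneg_left ?_ hc.le
    rw [Real.rpow_add (hzpos y), Real.rpow_one, Real.rpow_add hl, Real.rpow_one]
    have hzt : 0 ≤ z y ^ t := Real.rpow_nonneg (hzpos y).le _
    rcases le_total l (z y) with h | h
    · nlinarith [mul_le_mul_of_nonneg_left h hzt, Real.rpow_pos_of_pos hl t]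
    · nlinarith [mul_le_mul_of_nonneg_left (Real.rpow_le_rpow (hzpos y).le h ht.le) hl.le,
        mul_nonneg hzt (hzpos y).le]
  · have hs0 : 0 < s := zero_lt_one.trans_le hs
    have hlow : R / (R + 1) * s⁻¹ ≤ z y := by
      rw [hz, ← div_eq_mul_inv, div_div]
      refine div_le_div_of_nonneg_left hR₀.le (pot_base_pos hR₀ y) ?_
      nlinarith
    refine le_trans (le_of_eq ?_) (mul_le_mul_of_nonneg_left
      (Real.rpow_le_rpow (by positivity) hlow (by linarith : (0 : ℝ) ≤ t + 1)) hc.le)
    rw [Real.mul_rpow (by positivity) (by positivity), Real.inv_rpow hs0.le,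
      Real.rpow_neg hs0.le]
    ring

end Vale.Agent.P147
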