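import Vale.Agent.P147.Chain

/-!
P147: if only one axis is free, the probability to stay eventually in a set which is
upward closed along that axis is monotone along the axis.
-/

open MeasureTheory Filter
open scoped Topology

namespace Vale.Agent.P147

/-- One dimensional maximum principle with killing. -/
lemma line_max {g a b t : ℕ → ℝ} {W : ℝ} (hg : ∀ k, g k ≤ 1) (ha : ∀ k, 0 ≤ a k)
    (hb : ∀ k, 0 ≤ b k) (ht : ∀ k, 0 < t k) (hsum : ∀ k, a k + b k + t k = 1)
    (hsub : ∀ k, g (k + 1) ≤ a (k + 1) * g k + b (k + 1) * g (k + 2) + t (k + 1) * W)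
    {τ : ℝ} (hτ : 0 < τ) (hthick : ∀ N, ∃ k ≥ N, τ ≤ t k) :
    ∀ k, g k ≤ max (g 0) W := by
  by_contra hcon
  push Not at hcon
  obtain ⟨k, hk⟩ := hcon
  obtain ⟨k0, hk0mem, hk0⟩ :=
    (Finset.range (k + 1)).exists_max_image g ⟨0, Finset.mem_range.mpr (Nat.succ_pos k)⟩
  have hk0g : max (g 0) W < g k0 :=
    hk.trans_le (hk0 k (Finset.mem_range.mpr (Nat.lt_succ_self k)))
  have hk0W : W < g k0 := (le_max_right _ _).trans_lt hk0g
  have hk0pos : k0 ≠ 0 := by
    intro h
    rw [h] at hk0g
    exact absurd ((le_max_left _ _).trans_lt hk0g) (lt_irrefl _)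
  obtain ⟨i, rfl⟩ := Nat.exists_eq_succ_of_ne_zero hk0pos
  have step : ∀ r, g r ≤ g (r + 1) → W < g (r + 1) → g (r + 1) < g (r + 2) := by
    intro r h1 h2
    by_contra h3
    push Not at h3
    have e1 := mul_le_mul_of_nonneg_left h1 (ha (r + 1))
    have e2 := mul_le_mul_of_nonneg_left h3 (hb (r + 1))
    have e3 := mul_lt_mul_of_pos_left h2 (ht (r + 1))
    have e4 : (a (r + 1) + b (r + 1) + t (r + 1)) * g (r + 1) = g (r + 1) := by
      rw [hsum, one_mul]
    nlinarith [hsub r]
  have hi : g i ≤ g (i + 1) :=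
    hk0 i (Finset.mem_range.mpr (by
      have := Finset.mem_range.mp hk0mem
      omega))
  have up : ∀ r, g (i + 1 + r) < g (i + 2 + r) ∧ g (i + 1) ≤ g (i + 1 + r) := by
    intro r
    induction r with
    | zero => exact ⟨step i hi hk0W, le_rfl⟩
    | succ r ih =>
      have e : i + 2 + r = i + 1 + (r + 1) := by omega
      have h1 : g (i + 1) ≤ g (i + 1 + (r + 1)) := e ▸ ih.2.trans ih.1.le
      refine ⟨?_, h1⟩
      have h2 := step (i + 1 + r) (le_of_lt (by rw [show i + 1 + r + 1 = i + 2 + r by omega]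
                                                exact ih.1))
        (lt_of_lt_of_le hk0W (by rw [show i + 1 + r + 1 = i + 1 + (r + 1) by omega]; exact h1))
      rw [show i + 2 + (r + 1) = i + 1 + r + 2 by omega,
        show i + 1 + (r + 1) = i + 1 + r + 1 by omega]
      exact h2
  set f : ℕ → ℝ := fun r => g (i + 1 + r) with hf
  have hmono : Monotone f := monotone_nat_of_le_succ fun r => by
    simp only [hf]
    rw [show i + 1 + (r + 1) = i + 2 + r by omega]
    exact (up r).1.le
  have hbdd : BddAbove (Set.range f) := ⟨1, by rintro _ ⟨r, rfl⟩; exact hg _⟩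
  have hgap : 0 < τ * (g (i + 1) - W) := mul_pos hτ (sub_pos.mpr hk0W)
  obtain ⟨r0, hr0⟩ := exists_lt_of_lt_ciSup
    (show (⨆ r, f r) - τ * (g (i + 1) - W) < ⨆ r, f r by linarith)
  obtain ⟨n, hn, htn⟩ := hthick (i + 2 + r0)
  obtain ⟨r, rfl⟩ : ∃ r, n = i + 1 + r + 1 := ⟨n - (i + 2), by omega⟩
  have hs := hsub (i + 1 + r)
  have hA : g (i + 1 + r) ≤ ⨆ r, f r := le_ciSup hbdd r
  have hB : g (i + 1 + r + 2) ≤ ⨆ r, f r := by
    rw [show i + 1 + r + 2 = i + 1 + (r + 2) by omega]
    exact le_ciSup hbdd (r + 2)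
  have hC : f r0 ≤ g (i + 1 + r + 1) := by
    rw [show i + 1 + r + 1 = i + 1 + (r + 1) by omega]
    exact hmono (show r0 ≤ r + 1 by omega)
  have hD : g (i + 1) ≤ ⨆ r, f r := le_ciSup hbdd 0
  set s := ⨆ r, f r
  have h1 := mul_le_mul_of_nonneg_left hA (ha (i + 1 + r + 1))
  have h2 := mul_le_mul_of_nonneg_left hB (hb (i + 1 + r + 1))
  have h3 : τ * (g (i + 1) - W) ≤ t (i + 1 + r + 1) * (s - W) :=
    mul_le_mul htn (by linarith) (by linarith) (ht _).le
  have h4 : (a (i + 1 + r + 1) + b (i + 1 + r + 1) + t (i + 1 + r + 1)) * s = s := by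
    rw [hsum, one_mul]
  nlinarith

variable {d : ℕ}

/-- The axis `j` carries mass `1 - rest`. -/
def rest (j : Fin d) (p : Step d → ℝ) : ℝ := 1 - p (j, true) - p (j, false)

/-- The steps off the axis `j`. -/
def others (j : Fin d) : Finset (Step d) := Finset.univ.filter fun e => e.1 ≠ j

/-- The steps off the axis have fixed ratios. -/
def Ratio (ω : Env d) (j : Fin d) (q : Step d → ℝ) : Prop :=
  ∀ a e, e.1 ≠ j → ω a e = q e * rest j (ω a)

/-- The averaging operator of the walk. -/
def T (ω : Env d) (v : Site d → ℝ) (x : Site d) : ℝ := ∑ e, ω x e * v (x + move e)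

/-- The average over the steps off the axis. -/
def W (j : Fin d) (q : Step d → ℝ) (v : Site d → ℝ) (x : Site d) : ℝ :=
  ∑ e ∈ others j, q e * v (x + move e)

/-- On every line the mass off the axis does not degenerate. -/
def Thick (ω : Env d) (j : Fin d) (m : Site d) : Prop :=
  ∀ x, ∃ τ > (0 : ℝ), ∀ N : ℕ, ∃ k ≥ N, τ ≤ rest j (ω (x - k • m))

/-- Running supremum along `m`. -/
noncomputable def running (m : Site d) (v : Site d → ℝ) (x : Site d) : ℝ :=
  ⨆ k : ℕ, v (x - k • m)

lemma move_flip (j : Fin d) (b : Bool) : move (j, !b) = -move (j, b) := by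
  rw [move, move, ← Pi.single_neg]
  cases b <;> simp

lemma sum_step_split (j : Fin d) (b : Bool) (F : Step d → ℝ) :
    ∑ e, F e = F (j, b) + F (j, !b) + ∑ e ∈ others j, F e := by
  rw [← Finset.sum_filter_add_sum_filter_not Finset.univ (fun e : Step d => e.1 = j)]
  congr 1
  have h : (Finset.univ.filter fun e : Step d => e.1 = j) = {(j, b), (j, !b)} := by
    ext ⟨i, c⟩
    cases b <;> cases c <;> simp
  rw [h, Finset.sum_pair]
  cases b <;> simp

lemma rest_eq (j : Fin d) (b : Bool) (p : Step d → ℝ) :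
    rest j p = 1 - p (j, b) - p (j, !b) := by
  cases b <;> simp [rest] <;> ring

lemma rest_eq_sum {p : Step d → ℝ} (hp : GoodRow p) (j : Fin d) :
    rest j p = ∑ e ∈ others j, p e := by
  have h := sum_step_split j true p
  rw [hp.2] at h
  simp only [rest, Bool.not_true] at h ⊢
  linarith

lemma rest_pos {p : Step d → ℝ} (hp : GoodRow p) (hd : 2 ≤ d) (j : Fin d) : 0 < rest j p := by
  rw [rest_eq_sum hp]
  have : Nontrivial (Fin d) := Fin.nontrivial_iff_two_le.mpr hd
  obtain ⟨i, hi⟩ := exists_ne j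
  exact Finset.sum_pos (fun e _ => hp.1 e) ⟨(i, true), by simp [others, hi]⟩

lemma q_nonneg {ω : Env d} (hω : Good ω) (hd : 2 ≤ d) {j : Fin d} {q : Step d → ℝ}
    (hq : Ratio ω j q) {e : Step d} (he : e ∈ others j) : 0 ≤ q e := by
  have he' : e.1 ≠ j := (Finset.mem_filter.mp he).2
  have h := (hω 0).1 e
  rw [hq 0 e he'] at h
  exact (pos_of_mul_pos_left h (rest_pos (hω 0) hd j).le).le

lemma T_split {ω : Env d} {j : Fin d} {q : Step d → ℝ} (hq : Ratio ω j q) (b : Bool)
    (v : Site d → ℝ) (x : Site d) :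
    T ω v x = ω x (j, b) * v (x + move (j, b)) + ω x (j, !b) * v (x - move (j, b))
      + rest j (ω x) * W j q v x := by
  rw [T, sum_step_split j b, move_flip, ← sub_eq_add_neg, W, Finset.mul_sum]
  congr 1
  refine Finset.sum_congr rfl fun e he => ?_
  rw [hq x e (Finset.mem_filter.mp he).2]
  ring

lemma bdd_running {v : Site d → ℝ} (hv : ∀ x, v x ≤ 1) (m x : Site d) :
    BddAbove (Set.range fun k : ℕ => v (x - k • m)) :=
  ⟨1, by rintro _ ⟨k, rfl⟩; exact hv _⟩

lemma le_running {v : Site d → ℝ} (hv : ∀ x, v x ≤ 1) (m x : Site d) (k : ℕ) :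
    v (x - k • m) ≤ running m v x :=
  le_ciSup (bdd_running hv m x) k

lemma self_le_running {v : Site d → ℝ} (hv : ∀ x, v x ≤ 1) (m x : Site d) :
    v x ≤ running m v x := by
  simpa using le_running hv m x 0

lemma running_le_next {v : Site d → ℝ} (hv : ∀ x, v x ≤ 1) (m x : Site d) :
    running m v (x - m) ≤ running m v x :=
  ciSup_le fun k => by
    rw [sub_sub, ← succ_nsmul']
    exact le_running hv m x (k + 1)

lemma running_le_max {v : Site d → ℝ} (hv : ∀ x, v x ≤ 1) (m x : Site d) :
    running m v x ≤ max (v x) (running m v (x - m)) :=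
  ciSup_le fun k => by
    cases k with
    | zero => simp
    | succ k =>
      rw [succ_nsmul', ← sub_sub]
      exact le_max_of_le_right (le_running hv m (x - m) k)

lemma W_running_le {ω : Env d} (hω : Good ω) (hd : 2 ≤ d) {j : Fin d} {q : Step d → ℝ}
    (hq : Ratio ω j q) {v : Site d → ℝ} (hv : ∀ x, v x ≤ 1) (m x : Site d) (k : ℕ) :
    W j q v (x - k • m) ≤ W j q (running m v) x :=
  Finset.sum_le_sum fun e he => by
    refine mul_le_mul_of_nonneg_left ?_ (q_nonneg hω hd hq he)
    rw [sub_add_eq_add_sub]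
    exact le_running hv m (x + move e) k

/-- The running supremum of a subharmonic function is subharmonic. -/
lemma running_sub {ω : Env d} (hω : Good ω) (hd : 2 ≤ d) {j : Fin d} {q : Step d → ℝ}
    (hq : Ratio ω j q) (b : Bool) (hT : Thick ω j (move (j, b))) {v : Site d → ℝ}
    (hv : ∀ x, v x ≤ 1) (hsub : ∀ x, v x ≤ T ω v x) (x : Site d) :
    running (move (j, b)) v x ≤ T ω (running (move (j, b)) v) x := by
  have hpos : ∀ a e, 0 ≤ ω a e := fun a e => ((hω a).1 e).le
  by_cases hcase : running (move (j, b)) v x ≤ v x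
  · refine hcase.trans ((hsub x).trans ?_)
    exact Finset.sum_le_sum fun e _ =>
      mul_le_mul_of_nonneg_left (self_le_running hv _ _) (hpos x e)
  push Not at hcase
  set m := move (j, b) with hm
  set V := running m v with hV
  obtain ⟨τ, hτ, hthick⟩ := hT x
  have hmain : ∀ k : ℕ, v (x - k • m) ≤ max (v x) (W j q V x) := by
    have h := line_max (g := fun k : ℕ => v (x - k • m))
      (a := fun k => ω (x - k • m) (j, b)) (b := fun k => ω (x - k • m) (j, !b))
      (t := fun k => rest j (ω (x - k • m))) (W := W j q V x) (fun k => hv _)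
      (fun k => hpos _ _) (fun k => hpos _ _) (fun k => rest_pos (hω _) hd j)
      (fun k => by rw [rest_eq j b]; ring) (fun k => ?_) hτ hthick
    · simpa using h
    · refine (hsub _).trans ?_
      rw [T_split hq b, ← hm]
      have e1 : x - (k + 1) • m + m = x - k • m := by rw [succ_nsmul]; abel
      have e2 : x - (k + 1) • m - m = x - (k + 2) • m := by
        rw [show k + 2 = k + 1 + 1 from rfl, succ_nsmul m (k + 1)]; abel
      rw [e1, e2]
      exact add_le_add le_rfl (mul_le_mul_of_nonneg_left (W_running_le hω hd hq hv m x _)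
        (rest_pos (hω _) hd j).le)
  have hVW : V x ≤ W j q V x := by
    have h1 : V x ≤ max (v x) (W j q V x) := ciSup_le hmain
    rcases le_max_iff.mp h1 with h | h
    · exact absurd h (not_le.mpr hcase)
    · exact h
  have hm1 : V x ≤ V (x - m) := by
    rcases le_max_iff.mp (running_le_max hv m x) with h | h
    · exact absurd h (not_le.mpr hcase)
    · exact h
  have hp1 : V x ≤ V (x + m) := by
    have h := running_le_next hv m (x + m)
    rwa [add_sub_cancel_right] at h
  rw [T_split hq b, ← hm]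
  have h3 := mul_le_mul_of_nonneg_left hp1 (hpos x (j, b))
  have h4 := mul_le_mul_of_nonneg_left hm1 (hpos x (j, !b))
  have h5 := mul_le_mul_of_nonneg_left hVW (rest_pos (hω x) hd j).le
  have h6 : (ω x (j, b) + ω x (j, !b) + rest j (ω x)) * V x = V x := by
    rw [rest_eq j b]; ring
  nlinarith

/-- Paths staying in `D` from time `n` on. -/
def stayFrom (D : Set (Site d)) (n : ℕ) : Set (Path d) := {X | ∀ k, n ≤ k → X k ∈ D}

/-- Paths staying in `D` before time `n`. -/
def stayTo (D : Set (Site d)) (n : ℕ) : Set (Path d) := {X | ∀ k, k < n → X k ∈ D}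

/-- Paths which eventually stay in `D`. -/
def settle (D : Set (Site d)) : Set (Path d) := ⋃ n, stayFrom D n

lemma measurableSet_stayFrom (D : Set (Site d)) (n : ℕ) : MeasurableSet (stayFrom D n) := by
  simp only [stayFrom, Set.setOf_forall]
  exact MeasurableSet.iInter fun k => MeasurableSet.iInter fun _ =>
    measurable_pi_apply k MeasurableSet.of_discrete

lemma measurableSet_stayTo (D : Set (Site d)) (n : ℕ) : MeasurableSet (stayTo D n) := by
  simp only [stayTo, Set.setOf_forall]
  exact MeasurableSet.iInter fun k => MeasurableSet.iInter fun _ =>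
    measurable_pi_apply k MeasurableSet.of_discrete

lemma measurableSet_settle (D : Set (Site d)) : MeasurableSet (settle D) :=
  MeasurableSet.iUnion fun n => measurableSet_stayFrom D n

lemma theta_stayFrom (D : Set (Site d)) (n : ℕ) :
    theta ⁻¹' stayFrom D n = stayFrom D (n + 1) := by
  ext X
  constructor
  · intro h k hk
    obtain ⟨i, rfl⟩ : ∃ i, k = i + 1 := ⟨k - 1, by omega⟩
    exact h i (by omega)
  · intro h k hk
    exact h (k + 1) (Nat.succ_le_succ hk)

lemma stayFrom_mono (D : Set (Site d)) : Monotone (stayFrom D) :=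
  fun _ _ hnm _ hX k hk => hX k (hnm.trans hk)

lemma theta_settle (D : Set (Site d)) : theta ⁻¹' settle D = settle D := by
  rw [settle, Set.preimage_iUnion]
  simp only [theta_stayFrom]
  exact Set.Subset.antisymm (Set.iUnion_subset fun n => Set.subset_iUnion (stayFrom D) (n + 1))
    (Set.iUnion_mono fun n => stayFrom_mono D (Nat.le_succ n))

variable [NeZero d]

/-- Real probability under the quenched law. -/
noncomputable def pr (ω : Env d) (x : Site d) (s : Set (Path d)) : ℝ := (law ω x).real s

lemma pr_nonneg (ω : Env d) (x : Site d) (s : Set (Path d)) : 0 ≤ pr ω x s := measureReal_nonneg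

lemma pr_le_one (ω : Env d) (x : Site d) (s : Set (Path d)) : pr ω x s ≤ 1 := measureReal_le_one

lemma pr_theta {ω : Env d} (hω : Good ω) {B : Set (Path d)} (hB : MeasurableSet B)
    (x : Site d) : pr ω x (theta ⁻¹' B) = T ω (fun y => pr ω y B) x := by
  unfold pr T
  rw [measureReal_def, law_theta hω x hB, ENNReal.toReal_sum fun e _ =>
    ENNReal.mul_ne_top ENNReal.ofReal_ne_top (measure_ne_top _ _)]
  refine Finset.sum_congr rfl fun e _ => ?_
  rw [ENNReal.toReal_mul, ENNReal.toReal_ofReal ((hω x).1 e).le]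
  rfl

lemma pr_first_mem (ω : Env d) (D : Set (Site d)) (s : Set (Path d)) {x : Site d} (hx : x ∈ D) :
    pr ω x ({X | X 0 ∈ D} ∩ s) = pr ω x s := by
  unfold pr
  rw [measureReal_def, measureReal_def, ← law_inter_start ω x ({X | X 0 ∈ D} ∩ s),
    ← law_inter_start ω x s]
  congr 2
  ext X
  simp only [Set.mem_inter_iff, Set.mem_ofPred_eq]
  exact ⟨fun h => ⟨h.1, h.2.2⟩, fun h => ⟨h.1, by rw [h.1]; exact hx, h.2⟩⟩

lemma pr_first_not_mem (ω : Env d) (D : Set (Site d)) (s : Set (Path d)) {x : Site d}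
    (hx : x ∉ D) : pr ω x ({X | X 0 ∈ D} ∩ s) = 0 := by
  unfold pr
  rw [measureReal_def]
  have h : law ω x ({X | X 0 ∈ D} ∩ s) = 0 :=
    measure_mono_null (fun X hX (h0 : X 0 = x) => hx (h0 ▸ hX.1)) (law_start ω x)
  rw [h, ENNReal.toReal_zero]

lemma stayFrom_zero (D : Set (Site d)) :
    stayFrom D 0 = {X | X 0 ∈ D} ∩ theta ⁻¹' stayFrom D 0 := by
  rw [theta_stayFrom]
  ext X
  constructor
  · exact fun h => ⟨h 0 le_rfl, fun k _ => h k (Nat.zero_le k)⟩
  · rintro ⟨h0, h⟩ k _
    rcases Nat.eq_zero_or_pos k with rfl | hk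
    · exact h0
    · exact h k hk

lemma stayTo_succ (D : Set (Site d)) (n : ℕ) :
    stayTo D (n + 1) = {X | X 0 ∈ D} ∩ theta ⁻¹' stayTo D n := by
  ext X
  constructor
  · exact fun h => ⟨h 0 (Nat.succ_pos n), fun k hk => h (k + 1) (Nat.succ_lt_succ hk)⟩
  · rintro ⟨h0, h⟩ k hk
    cases k with
    | zero => exact h0
    | succ k => exact h k (Nat.lt_of_succ_lt_succ hk)

/-- The stay probability is subharmonic. -/
lemma stay_sub {ω : Env d} (hω : Good ω) (D : Set (Site d)) (x : Site d) :
    pr ω x (stayFrom D 0) ≤ T ω (fun y => pr ω y (stayFrom D 0)) x := by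
  rw [← pr_theta hω (measurableSet_stayFrom D 0) x]
  by_cases hx : x ∈ D
  · conv_lhs => rw [stayFrom_zero D, pr_first_mem ω D _ hx]
  · conv_lhs => rw [stayFrom_zero D, pr_first_not_mem ω D _ hx]
    exact pr_nonneg _ _ _

lemma le_stay {ω : Env d} (hω : Good ω) (D : Set (Site d)) {v : Site d → ℝ}
    (hv : ∀ x, v x ≤ 1) (hoff : ∀ x, x ∉ D → v x ≤ 0) (hsub : ∀ x, v x ≤ T ω v x) (x : Site d) :
    v x ≤ pr ω x (stayFrom D 0) := by
  have hn : ∀ n y, v y ≤ pr ω y (stayTo D n) := by
    intro n
    induction n with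
    | zero =>
      intro y
      have h : stayTo D 0 = Set.univ := by ext X; simp [stayTo]
      rw [h, pr, probReal_univ]
      exact hv y
    | succ n ih =>
      intro y
      rw [stayTo_succ]
      by_cases hy : y ∈ D
      · rw [pr_first_mem ω D _ hy, pr_theta hω (measurableSet_stayTo D n)]
        exact (hsub y).trans (Finset.sum_le_sum fun e _ =>
          mul_le_mul_of_nonneg_left (ih _) ((hω y).1 e).le)
      · rw [pr_first_not_mem ω D _ hy]
        exact hoff y hy
  have hlim : Tendsto (fun n => pr ω x (stayTo D n)) atTop (𝓝 (pr ω x (stayFrom D 0))) := by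
    have h : stayFrom D 0 = ⋂ n, stayTo D n := by
      ext X
      simp only [stayFrom, stayTo, Set.mem_iInter, Set.mem_ofPred_eq, Nat.zero_le, forall_const]
      exact ⟨fun h _ k _ => h k, fun h k => h (k + 1) k (Nat.lt_succ_self k)⟩
    rw [h]
    refine (ENNReal.tendsto_toReal (measure_ne_top _ _)).comp
      (tendsto_measure_iInter_atTop (fun n => (measurableSet_stayTo D n).nullMeasurableSet) ?_
        ⟨0, measure_ne_top _ _⟩)
    exact fun a c hac X hX k hk => hX k (lt_of_lt_of_le hk hac)
  exact ge_of_tendsto' hlim fun n => hn n x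

lemma settle_le {ω : Env d} (hω : Good ω) (D : Set (Site d)) {w : Site d → ℝ}
    (hsup : ∀ x, T ω w x ≤ w x) (hw : ∀ x, pr ω x (stayFrom D 0) ≤ w x) (x : Site d) :
    pr ω x (settle D) ≤ w x := by
  have hn : ∀ n y, pr ω y (stayFrom D n) ≤ w y := by
    intro n
    induction n with
    | zero => exact hw
    | succ n ih =>
      intro y
      rw [← theta_stayFrom, pr_theta hω (measurableSet_stayFrom D n)]
      exact (Finset.sum_le_sum fun e _ =>
        mul_le_mul_of_nonneg_left (ih _) ((hω y).1 e).le).trans (hsup y)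
  exact le_of_tendsto' ((ENNReal.tendsto_toReal (measure_ne_top _ _)).comp
    (tendsto_measure_iUnion_atTop (μ := law ω x) (stayFrom_mono D))) fun n => hn n x

/-- Monotonicity of the probability to settle in an upward closed set. -/
lemma settle_mono {ω : Env d} (hω : Good ω) (hd : 2 ≤ d) {j : Fin d} {q : Step d → ℝ}
    (hq : Ratio ω j q) (hT : ∀ b, Thick ω j (move (j, b))) (b : Bool) {D : Set (Site d)}
    (hD : ∀ x, x ∈ D → x + move (j, b) ∈ D) (x : Site d) :
    pr ω x (settle D) ≤ pr ω (x + move (j, b)) (settle D) := by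
  set m := move (j, b) with hm
  set u : Site d → ℝ := fun y => pr ω y (stayFrom D 0) with hu
  have hu1 : ∀ y, u y ≤ 1 := fun y => pr_le_one _ _ _
  have hDk : ∀ y (k : ℕ), y - k • m ∈ D → y ∈ D := by
    intro y k
    induction k generalizing y with
    | zero => simp
    | succ k ih =>
      intro h
      refine ih y ?_
      have h2 := hD _ h
      rwa [succ_nsmul, ← sub_sub, sub_add_cancel] at h2
  have humono : ∀ y, u y ≤ u (y + m) := by
    intro y
    have h1 : running m u (y + m) ≤ u (y + m) :=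
      le_stay hω D (fun z => ciSup_le fun k => hu1 _)
        (fun z hz => ciSup_le fun k => by
          simp only [hu]
          rw [stayFrom_zero D, pr_first_not_mem ω D _ fun h => hz (hDk z k h)])
        (running_sub hω hd hq b (hT b) hu1 (stay_sub hω D)) (y + m)
    have h2 := le_running hu1 m (y + m) 1
    rw [one_nsmul, add_sub_cancel_right] at h2
    exact h2.trans h1
  set m' := move (j, !b) with hm'
  set v : Site d → ℝ := fun y => -pr ω y (settle D) with hvdef
  have hm'' : m' = -m := by rw [hm', hm, move_flip]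
  have hv1 : ∀ y, v y ≤ 1 := fun y => by
    simp only [hvdef]
    linarith [pr_nonneg ω y (settle D)]
  have hharm : ∀ y, T ω v y = v y := fun y => by
    simp only [hvdef]
    conv_rhs => rw [← theta_settle D, pr_theta hω (measurableSet_settle D)]
    simp [T]
  have hvsub : ∀ y, v y ≤ T ω v y := fun y => (hharm y).ge
  have huk : ∀ y (k : ℕ), u y ≤ u (y - k • m') := by
    intro y k
    induction k with
    | zero => simp
    | succ k ih =>
      refine ih.trans ?_
      rw [succ_nsmul, ← sub_sub, hm'', sub_neg_eq_add]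
      exact humono _
  have hw : ∀ y, u y ≤ -running m' v y := by
    intro y
    rw [le_neg]
    refine ciSup_le fun k => ?_
    simp only [hvdef, neg_le_neg_iff]
    refine (huk y k).trans (measureReal_mono ?_)
    exact Set.subset_iUnion (stayFrom D) 0
  have hsup : ∀ y, T ω (fun z => -running m' v z) y ≤ -running m' v y := by
    intro y
    have h := running_sub hω hd hq (!b) (hT _) hv1 hvsub y
    rw [← hm'] at h
    simp only [T, mul_neg, Finset.sum_neg_distrib] at h ⊢
    linarith
  have h1 := settle_le hω D hsup hw x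
  have h2 := le_running hv1 m' x 1
  rw [one_nsmul, hm'', sub_neg_eq_add] at h2
  simp only [hvdef] at h2
  rw [← hm''] at h2
  linarith

end Vale.Agent.P147
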