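import Mathlib

/-!
P147: `(R + ‖y‖²)^(-t)` as a Lyapunov function for centred steps whose covariance is not too
anisotropic.
-/

open scoped RealInnerProductSpace

namespace Vale.Agent.P147

set_option linter.unusedSectionVars false

variable {E : Type*} [NormedAddCommGroup E] [InnerProductSpace ℝ E]

/-- The potential `(R + ‖y‖²)^(-t)`. -/
noncomputable def pot (t R : ℝ) (y : E) : ℝ := (R + ‖y‖ ^ 2) ^ (-t)

lemma pot_base_pos {R : ℝ} (hR : 0 < R) (y : E) : 0 < R + ‖y‖ ^ 2 := by positivity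

lemma pot_pos {t R : ℝ} (hR : 0 < R) (y : E) : 0 < pot t R y :=
  Real.rpow_pos_of_pos (pot_base_pos hR y) _

lemma rpow_one_add_le {t : ℝ} (ht : 0 < t) {η : ℝ} (hη : 0 < η) :
    ∃ ε > (0 : ℝ), ε ≤ 1 / 2 ∧ ∀ x : ℝ, |x| ≤ ε →
      (1 + x) ^ (-t) ≤ 1 - t * x + (t * (t + 1) / 2 + η) * x ^ 2 := by
  set K : ℝ := 2 * t + 4 * t ^ 2 + 8 * t ^ 3 with hK
  have hKpos : 0 < K := by positivity
  refine ⟨min (1 / 2) (min (1 / (2 * t)) (η / K)), by positivity, min_le_left _ _,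
    fun x hx => ?_⟩
  have hx2 : |x| ≤ 1 / 2 := hx.trans (min_le_left _ _)
  have hxt : |x| ≤ 1 / (2 * t) := hx.trans ((min_le_right _ _).trans (min_le_left _ _))
  have hxη : |x| ≤ η / K := hx.trans ((min_le_right _ _).trans (min_le_right _ _))
  have h1 : 0 < 1 + x := by linarith [neg_abs_le x]
  set L := Real.log (1 + x)
  have hL2 : |L - x + x ^ 2 / 2| ≤ 2 * |x| ^ 3 := by
    have h := Real.abs_log_sub_add_sum_range_le
      (show |-x| < 1 by rw [abs_neg]; linarith) 2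
    have e : (∑ i ∈ Finset.range 2, (-x) ^ (i + 1) / ((i : ℝ) + 1)) + Real.log (1 - -x) =
        L - x + x ^ 2 / 2 := by
      simp only [Finset.sum_range_succ, Finset.sum_range_zero, sub_neg_eq_add, L]
      ring
    rw [e, abs_neg] at h
    refine h.trans ?_
    rw [div_le_iff₀ (by linarith)]
    calc |x| ^ (2 + 1) = 2 * |x| ^ 3 * (1 / 2) := by ring
      _ ≤ 2 * |x| ^ 3 * (1 - |x|) := mul_le_mul_of_nonneg_left (by linarith) (by positivity)
  have hL1 : |L - x| ≤ 2 * x ^ 2 := by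
    have h3 : |x| ^ 3 ≤ 1 / 2 * x ^ 2 := by
      rw [pow_succ, sq_abs, mul_comm]
      exact mul_le_mul_of_nonneg_right hx2 (sq_nonneg x)
    calc |L - x| = |(L - x + x ^ 2 / 2) + -(x ^ 2 / 2)| := by ring_nf
      _ ≤ |L - x + x ^ 2 / 2| + |-(x ^ 2 / 2)| := abs_add_le _ _
      _ ≤ 2 * |x| ^ 3 + x ^ 2 / 2 := add_le_add hL2 (by rw [abs_neg, abs_of_nonneg (by positivity)])
      _ ≤ 2 * x ^ 2 := by nlinarith [sq_nonneg x]
  have hL : |L| ≤ 2 * |x| := by
    calc |L| = |(L - x) + x| := by ring_nf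
      _ ≤ |L - x| + |x| := abs_add_le _ _
      _ ≤ 2 * x ^ 2 + |x| := add_le_add hL1 le_rfl
      _ ≤ 2 * |x| := by rw [← sq_abs]; nlinarith [abs_nonneg x]
  set w := -t * L with hw
  have hw2 : |w| ≤ 2 * t * |x| := by
    rw [hw, abs_mul, abs_neg, abs_of_pos ht]
    nlinarith
  have hw1 : |w| ≤ 1 := by
    refine hw2.trans ?_
    rw [le_div_iff₀ (by positivity)] at hxt
    linarith
  have hexp : Real.exp w ≤ 1 + w + w ^ 2 / 2 + |w| ^ 3 := by
    have h := Real.exp_bound hw1 (n := 3) (by norm_num)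
    simp only [Finset.sum_range_succ, Finset.sum_range_zero] at h
    norm_num at h
    have h2 := (abs_le.mp h).2
    nlinarith [pow_nonneg (abs_nonneg w) 3]
  have hwlin : w ≤ -t * x + t * x ^ 2 / 2 + 2 * t * |x| ^ 3 := by
    nlinarith [mul_le_mul_of_nonneg_left (abs_le.mp hL2).1 ht.le]
  have hwsq : w ^ 2 ≤ t ^ 2 * x ^ 2 + 8 * t ^ 2 * |x| ^ 3 := by
    have h4 : |L ^ 2 - x ^ 2| ≤ 8 * |x| ^ 3 := by
      rw [show L ^ 2 - x ^ 2 = (L - x) * (L + x) by ring, abs_mul]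
      refine (mul_le_mul hL1 ((abs_add_le _ _).trans (add_le_add hL le_rfl)) (abs_nonneg _)
        (by positivity)).trans ?_
      rw [← sq_abs x]
      nlinarith [pow_nonneg (abs_nonneg x) 3]
    have h5 := mul_le_mul_of_nonneg_left (abs_le.mp h4).2 (sq_nonneg t)
    rw [hw]
    nlinarith
  have hw3 : |w| ^ 3 ≤ 8 * t ^ 3 * |x| ^ 3 := by
    refine (pow_le_pow_left₀ (abs_nonneg w) hw2 3).trans (le_of_eq ?_)
    ring
  have hKx : K * |x| ^ 3 ≤ η * x ^ 2 := by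
    rw [le_div_iff₀ hKpos] at hxη
    calc K * |x| ^ 3 = (|x| * K) * x ^ 2 := by rw [pow_succ, sq_abs]; ring
      _ ≤ η * x ^ 2 := mul_le_mul_of_nonneg_right hxη (sq_nonneg x)
  rw [Real.rpow_def_of_pos h1, show Real.log (1 + x) * -t = w by rw [hw]; ring]
  rw [hK] at hKx
  nlinarith

/-- The admissible constants for the exponent `t`. -/
lemma exists_slack {t γ : ℝ} (hγ : 2 * (t + 1) < γ) (ht : 0 < t) :
    ∃ η > (0 : ℝ), (t * (t + 1) / 2 + η) * (1 + η) * 4 / γ < t := by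
  have hc : Continuous fun η : ℝ => (t * (t + 1) / 2 + η) * (1 + η) * 4 / γ := by fun_prop
  have h0 : (t * (t + 1) / 2 + 0) * (1 + 0) * 4 / γ < t := by
    rw [div_lt_iff₀ (by linarith)]
    nlinarith
  obtain ⟨δ, hδ, hball⟩ := Metric.eventually_nhds_iff.mp
    ((hc.tendsto 0).eventually_lt_const h0)
  exact ⟨δ / 2, by positivity, hball (by
    rw [Real.dist_eq, sub_zero, abs_of_pos (by positivity)]; linarith)⟩

variable {ι : Type*} [Fintype ι]

/-- The relative increment is small. -/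
lemma increment_small {V ε R Y z : ℝ} (hV : 1 ≤ V) (hε : 0 < ε) (hR : 1 ≤ R)
    (hRV : (2 * V ^ 2 / ε) ^ 2 ≤ R) (hY : 0 ≤ Y) (hz : |z| ≤ 2 * Y * V + V ^ 2) :
    |z / (R + Y ^ 2)| ≤ ε := by
  set r := Real.sqrt R
  have hR0 : 0 < R := zero_lt_one.trans_le hR
  have hr : r * r = R := Real.mul_self_sqrt hR0.le
  have hr1 : 1 ≤ r := by simpa [r] using Real.sqrt_le_sqrt hR
  have hrV : 2 * V ^ 2 ≤ ε * r := by
    have h := Real.sqrt_le_sqrt hRV
    rw [Real.sqrt_sq (by positivity), div_le_iff₀ hε] at h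
    linarith
  rw [abs_div, abs_of_pos (show 0 < R + Y ^ 2 by positivity), div_le_iff₀ (by positivity)]
  refine hz.trans ?_
  have h1 : 2 * Y * V ≤ ε / 2 * (R + Y ^ 2) := by
    have h2 : 2 * V ≤ ε * r := le_trans (by nlinarith) hrV
    calc 2 * Y * V = Y * (2 * V) := by ring
      _ ≤ Y * (ε * r) := mul_le_mul_of_nonneg_left h2 hY
      _ = ε / 2 * (2 * r * Y) := by ring
      _ ≤ ε / 2 * (R + Y ^ 2) := by
          refine mul_le_mul_of_nonneg_left ?_ (by positivity)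
          nlinarith [sq_nonneg (r - Y)]
  have h3 : V ^ 2 ≤ ε / 2 * (R + Y ^ 2) := by
    calc V ^ 2 ≤ ε / 2 * r := by linarith
      _ ≤ ε / 2 * (R + Y ^ 2) := by
          refine mul_le_mul_of_nonneg_left ?_ (by positivity)
          nlinarith [sq_nonneg Y, mul_le_mul_of_nonneg_left hr1 (zero_le_one.trans hr1)]
  linarith

/-- Splitting the square of the increment. -/
lemma sq_split {η V a n : ℝ} (hη : 0 < η) (hn : 0 ≤ n) (hnV : n ≤ V) :
    (2 * a + n ^ 2) ^ 2 ≤ (1 + η) * 4 * a ^ 2 + (1 + 1 / η) * (V ^ 2 * n ^ 2) := by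
  set b := n ^ 2
  have hbV : b ^ 2 ≤ V ^ 2 * b := by
    rw [sq b]
    exact mul_le_mul_of_nonneg_right (pow_le_pow_left₀ hn hnV 2) (sq_nonneg n)
  have h2 : 0 ≤ (2 * η * a - b) ^ 2 / η := by positivity
  have h3 : (2 * η * a - b) ^ 2 / η = 4 * η * a ^ 2 - 4 * a * b + 1 / η * b ^ 2 := by
    field_simp
    ring
  have h4 := mul_le_mul_of_nonneg_left hbV (show (0 : ℝ) ≤ 1 + 1 / η by positivity)
  nlinarith

/-- One step decrease of the potential, uniformly over the rows. -/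
theorem pot_step (v : ι → E) {t γ σ : ℝ} (ht : 0 < t) (hγ : 2 * (t + 1) < γ) (hσ : 0 < σ) :
    ∃ R₀ > (0 : ℝ), ∀ R ≥ R₀, ∃ c > (0 : ℝ), ∀ p : ι → ℝ, (∀ e, 0 ≤ p e) → ∑ e, p e = 1 →
      ∑ e, p e • v e = 0 →
      (∀ u : E, γ * ∑ e, p e * ⟪u, v e⟫ ^ 2 ≤ ‖u‖ ^ 2 * ∑ e, p e * ‖v e‖ ^ 2) →
      σ ≤ ∑ e, p e * ‖v e‖ ^ 2 →
      ∀ y : E, ∑ e, p e * pot t R (y + v e) + c * pot (t + 1) R y ≤ pot t R y := by
  obtain ⟨η, hη, hslack⟩ := exists_slack hγ ht
  obtain ⟨ε, hε, hε2, hbd⟩ := rpow_one_add_le ht hη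
  set V : ℝ := 1 + ∑ e, ‖v e‖ with hV
  have hV1 : 1 ≤ V := le_add_of_nonneg_right (Finset.sum_nonneg fun e _ => norm_nonneg _)
  have hvV : ∀ e, ‖v e‖ ≤ V := fun e =>
    (Finset.single_le_sum (fun i _ => norm_nonneg (v i)) (Finset.mem_univ e)).trans
      (le_add_of_nonneg_left zero_le_one)
  set K : ℝ := t * (t + 1) / 2 + η
  have hK : 0 < K := by positivity
  set gap : ℝ := t - K * (1 + η) * 4 / γ
  have hgap : 0 < gap := sub_pos.mpr hslack
  set B : ℝ := K * (1 + 1 / η) * V ^ 2 with hB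
  refine ⟨max 1 (max ((2 * V ^ 2 / ε) ^ 2) (2 * B / gap)), by positivity, fun R hR => ?_⟩
  have hR1 : 1 ≤ R := (le_max_left _ _).trans hR
  have hR2 : (2 * V ^ 2 / ε) ^ 2 ≤ R := ((le_max_left _ _).trans (le_max_right _ _)).trans hR
  have hR3 : 2 * B / gap ≤ R := ((le_max_right _ _).trans (le_max_right _ _)).trans hR
  have hR0 : 0 < R := zero_lt_one.trans_le hR1
  refine ⟨σ * gap / 2, by positivity, fun p hp hp1 hmean haniso htr y => ?_⟩
  set S := ∑ e, p e * ‖v e‖ ^ 2 with hS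
  set u := R + ‖y‖ ^ 2 with hu
  have hu0 : 0 < u := pot_base_pos hR0 y
  have hRu : R ≤ u := le_add_of_nonneg_right (sq_nonneg _)
  set x : ι → ℝ := fun e => (2 * ⟪y, v e⟫ + ‖v e‖ ^ 2) / u with hx
  have hxsmall : ∀ e, |x e| ≤ ε := fun e => by
    refine increment_small hV1 hε hR1 hR2 (norm_nonneg y) ((abs_add_le _ _).trans (add_le_add ?_ ?_))
    · rw [abs_mul, abs_two, mul_assoc]
      exact mul_le_mul_of_nonneg_left ((abs_real_inner_le_norm _ _).trans
        (mul_le_mul_of_nonneg_left (hvV e) (norm_nonneg _))) zero_le_two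
    · rw [abs_of_nonneg (sq_nonneg _)]
      exact pow_le_pow_left₀ (norm_nonneg _) (hvV e) 2
  have hexp : ∀ e, pot t R (y + v e) ≤ u ^ (-t) * (1 - t * x e + K * x e ^ 2) := by
    intro e
    have hbase : R + ‖y + v e‖ ^ 2 = u * (1 + x e) := by
      rw [hx, norm_add_sq_real, hu]
      field_simp
      ring
    have h1x : 0 ≤ 1 + x e := by linarith [neg_abs_le (x e), hxsmall e]
    rw [pot, hbase, Real.mul_rpow hu0.le h1x]
    exact mul_le_mul_of_nonneg_left (hbd _ (hxsmall e)) (Real.rpow_nonneg hu0.le _)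
  have hlin : ∑ e, p e * x e = S / u := by
    have h0 : ∑ e, p e * ⟪y, v e⟫ = 0 := by
      have := congrArg (fun z => ⟪y, z⟫) hmean
      simpa [inner_sum, real_inner_smul_right] using this
    simp only [hx, mul_div_assoc']
    rw [← Finset.sum_div]
    congr 1
    simp only [mul_add, Finset.sum_add_distrib, mul_left_comm (p _) 2]
    rw [← Finset.mul_sum, h0, mul_zero, zero_add]
  have hquad : ∑ e, p e * x e ^ 2 ≤ ((1 + η) * 4 / γ + (1 + 1 / η) * V ^ 2 / R) * S / u := by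
    have hA : ∑ e, p e * ⟪y, v e⟫ ^ 2 ≤ u * S / γ := by
      rw [le_div_iff₀ (by linarith), mul_comm]
      exact (haniso y).trans (mul_le_mul_of_nonneg_right (le_add_of_nonneg_left hR0.le)
        (Finset.sum_nonneg fun e _ => mul_nonneg (hp e) (sq_nonneg _)))
    have hsplit : ∀ e, p e * x e ^ 2 ≤
        (1 + η) * 4 / u ^ 2 * (p e * ⟪y, v e⟫ ^ 2) +
          (1 + 1 / η) * V ^ 2 / u ^ 2 * (p e * ‖v e‖ ^ 2) := by
      intro e
      have h1 := sq_split (a := ⟪y, v e⟫) hη (norm_nonneg (v e)) (hvV e)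
      calc p e * x e ^ 2 = p e / u ^ 2 * (2 * ⟪y, v e⟫ + ‖v e‖ ^ 2) ^ 2 := by simp only [hx]; ring_nf
        _ ≤ p e / u ^ 2 * ((1 + η) * 4 * ⟪y, v e⟫ ^ 2 + (1 + 1 / η) * (V ^ 2 * ‖v e‖ ^ 2)) :=
            mul_le_mul_of_nonneg_left h1 (div_nonneg (hp e) (sq_nonneg u))
        _ = _ := by ring
    refine (Finset.sum_le_sum fun e _ => hsplit e).trans ?_
    rw [Finset.sum_add_distrib, ← Finset.mul_sum, ← Finset.mul_sum, add_mul ((1 + η) * 4 / γ),
      add_div]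
    refine add_le_add ?_ ?_
    · calc (1 + η) * 4 / u ^ 2 * ∑ e, p e * ⟪y, v e⟫ ^ 2
          ≤ (1 + η) * 4 / u ^ 2 * (u * S / γ) := mul_le_mul_of_nonneg_left hA (by positivity)
        _ = (1 + η) * 4 / γ * S / u := by field_simp
    · rw [← hS]
      have hS0 : 0 ≤ S := hσ.le.trans htr
      calc (1 + 1 / η) * V ^ 2 / u ^ 2 * S = (1 + 1 / η) * V ^ 2 / u * S / u := by field_simp
        _ ≤ (1 + 1 / η) * V ^ 2 / R * S / u := by gcongr
  have hsum : ∑ e, p e * pot t R (y + v e) ≤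
      u ^ (-t) * (1 - t * (S / u) + K * (((1 + η) * 4 / γ + (1 + 1 / η) * V ^ 2 / R) * S / u)) := by
    refine (Finset.sum_le_sum fun e _ => mul_le_mul_of_nonneg_left (hexp e) (hp e)).trans ?_
    have e1 : ∑ e, p e * (u ^ (-t) * (1 - t * x e + K * x e ^ 2)) =
        u ^ (-t) * (∑ e, p e - t * ∑ e, p e * x e + K * ∑ e, p e * x e ^ 2) := by
      simp only [Finset.mul_sum, ← Finset.sum_sub_distrib, ← Finset.sum_add_distrib]
      exact Finset.sum_congr rfl fun e _ => by ring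
    rw [e1, hp1, hlin]
    gcongr
  have hpow : pot (t + 1) R y = u ^ (-t) / u := by
    rw [pot, show -(t + 1) = -t - 1 by ring, Real.rpow_sub_one hu0.ne']
  have hBR : B / R ≤ gap / 2 := by
    rw [div_le_iff₀ hgap] at hR3
    rw [div_le_iff₀ hR0]
    linarith
  have hmain : -t * S + K * (((1 + η) * 4 / γ + (1 + 1 / η) * V ^ 2 / R) * S) + σ * gap / 2 ≤ 0 := by
    have e2 : -t * S + K * (((1 + η) * 4 / γ + (1 + 1 / η) * V ^ 2 / R) * S) =
        (B / R - gap) * S := by simp only [gap, hB]; ring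
    rw [e2]
    nlinarith [mul_le_mul_of_nonneg_left htr hgap.le, hσ]
  rw [hpow, show pot t R y = u ^ (-t) from rfl]
  have e3 : u ^ (-t) * (1 - t * (S / u) +
      K * (((1 + η) * 4 / γ + (1 + 1 / η) * V ^ 2 / R) * S / u)) + σ * gap / 2 * (u ^ (-t) / u) =
      u ^ (-t) + u ^ (-t) / u * (-t * S +
        K * (((1 + η) * 4 / γ + (1 + 1 / η) * V ^ 2 / R) * S) + σ * gap / 2) := by ring
  have hmul := mul_le_mul_of_nonneg_left hmain (div_nonneg (Real.rpow_nonneg hu0.le (-t)) hu0.le)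
  linarith

end Vale.Agent.P147
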