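import Mathlib

/-!
P147: averaging over a finite block of coordinates of a countable product of copies of one
probability space, the Efron-Stein inequality, and exponential concentration of a function
whose squared changes, coordinate by coordinate, add up to a small number.
-/

open MeasureTheory Filter ProbabilityTheory
open scoped Topology

namespace Vale.Agent.P147.Resample

variable {ι α : Type*} [MeasurableSpace α] [DecidableEq ι]

/-- The product law. -/
noncomputable abbrev prodLaw (μ : Measure α) : Measure (ι → α) :=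
  Measure.infinitePi fun _ : ι => μ

/-- The coordinates in `S` are averaged out. -/
noncomputable def avg (μ : Measure α) (S : Finset ι) (f : (ι → α) → ℝ) (ω : ι → α) : ℝ :=
  ∫ η, f (S.piecewise η ω) ∂prodLaw μ

/-- The mean squared change when coordinate `i` is drawn anew. -/
noncomputable def change (μ : Measure α) (i : ι) (f : (ι → α) → ℝ) : ℝ :=
  ∫ η, ∫ ω, (f ω - f (({i} : Finset ι).piecewise η ω)) ^ 2 ∂prodLaw μ ∂prodLaw μ

/-- Measurable with bound `B`. -/
def Bdd (B : ℝ) (f : (ι → α) → ℝ) : Prop := Measurable f ∧ ∀ ω, |f ω| ≤ B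

lemma measurable_piecewise (S : Finset ι) :
    Measurable fun p : (ι → α) × (ι → α) => S.piecewise p.1 p.2 := by
  refine measurable_pi_lambda _ fun i => ?_
  by_cases h : i ∈ S
  · simpa [h] using measurable_fst.eval
  · simpa [h] using measurable_snd.eval

lemma piecewise_twice (S T : Finset ι) (η ζ ω : ι → α) :
    S.piecewise η (T.piecewise ζ ω) = (S ∪ T).piecewise (S.piecewise η ζ) ω := by
  funext i
  by_cases hS : i ∈ S <;> by_cases hT : i ∈ T <;> simp [hS, hT]

lemma piecewise_comm {S : Finset ι} {i : ι} (hi : i ∉ S) (η ζ ω : ι → α) :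
    S.piecewise ζ (({i} : Finset ι).piecewise η ω) =
      ({i} : Finset ι).piecewise η (S.piecewise ζ ω) := by
  funext j
  by_cases hj : j = i
  · subst hj; simp [hi]
  · by_cases hS : j ∈ S <;> simp [hS, hj]

variable (μ : Measure α) [IsProbabilityMeasure μ]

lemma measurePreserving_piecewise (S : Finset ι) :
    MeasurePreserving (fun p : (ι → α) × (ι → α) => S.piecewise p.1 p.2)
      ((prodLaw μ).prod (prodLaw μ)) (prodLaw μ) := by
  refine ⟨measurable_piecewise S, Measure.eq_infinitePi _ fun s t ht => ?_⟩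
  rw [Measure.map_apply (measurable_piecewise S) (.pi s.countable_toSet fun i _ => ht i)]
  have h : (fun p : (ι → α) × (ι → α) => S.piecewise p.1 p.2) ⁻¹' Set.pi (s : Set ι) t =
      Set.pi ((s.filter (· ∈ S) : Finset ι) : Set ι) t ×ˢ
        Set.pi ((s.filter (· ∉ S) : Finset ι) : Set ι) t := by
    ext ⟨η, ω⟩
    simp only [Set.mem_preimage, Set.mem_pi, Set.mem_prod, Finset.coe_filter, Set.mem_ofPred_eq,
      Finset.mem_coe, and_imp]
    constructor
    · intro h
      exact ⟨fun i hi hiS => by simpa [hiS] using h i hi,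
        fun i hi hiS => by simpa [hiS] using h i hi⟩
    · intro h i hi
      by_cases hiS : i ∈ S
      · simpa [hiS] using h.1 i hi hiS
      · simpa [hiS] using h.2 i hi hiS
  rw [h, Measure.prod_prod, Measure.infinitePi_pi _ fun i _ => ht i,
    Measure.infinitePi_pi _ fun i _ => ht i, Finset.prod_filter_mul_prod_filter_not]

variable {μ} {f g : (ι → α) → ℝ} {B C : ℝ}

lemma Bdd.integrable (hf : Bdd B f) : Integrable f (prodLaw μ) :=
  .of_bound hf.1.aestronglyMeasurable B (.of_forall hf.2)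

lemma Bdd.sub (hf : Bdd B f) (hg : Bdd C g) : Bdd (B + C) fun ω => f ω - g ω :=
  ⟨hf.1.sub hg.1, fun ω => (abs_sub _ _).trans (add_le_add (hf.2 ω) (hg.2 ω))⟩

lemma Bdd.mul (hf : Bdd B f) (hg : Bdd C g) : Bdd (B * C) fun ω => f ω * g ω :=
  ⟨hf.1.mul hg.1, fun ω => by
    rw [abs_mul]
    exact mul_le_mul (hf.2 ω) (hg.2 ω) (abs_nonneg _) ((abs_nonneg _).trans (hf.2 ω))⟩

lemma Bdd.comp (hf : Bdd B f) {φ : (ι → α) → ι → α} (hφ : Measurable φ) :
    Bdd B fun ω => f (φ ω) :=
  ⟨hf.1.comp hφ, fun ω => hf.2 _⟩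

lemma measurable_slot (S : Finset ι) (ω : ι → α) :
    Measurable fun η : ι → α => S.piecewise η ω :=
  (measurable_piecewise S).comp (measurable_id.prodMk measurable_const)

lemma measurable_base (S : Finset ι) (η : ι → α) :
    Measurable fun ω : ι → α => S.piecewise η ω :=
  (measurable_piecewise S).comp (measurable_const.prodMk measurable_id)

lemma Bdd.avg (hf : Bdd B f) (S : Finset ι) : Bdd B (avg μ S f) := by
  refine ⟨?_, fun ω => ?_⟩
  · have h : Measurable fun p : (ι → α) × (ι → α) => f (S.piecewise p.2 p.1) :=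
      hf.1.comp ((measurable_piecewise S).comp measurable_swap)
    exact (h.stronglyMeasurable.integral_prod_right' (ν := prodLaw μ)).measurable
  · rw [Resample.avg, ← Real.norm_eq_abs]
    refine (norm_integral_le_of_norm_le_const (C := B)
      (.of_forall fun η => hf.2 (S.piecewise η ω))).trans ?_
    simp

lemma integral_piecewise (hf : Bdd B f) (S : Finset ι) :
    ∫ ω, avg μ S f ω ∂prodLaw μ = ∫ ω, f ω ∂prodLaw μ := by
  have h := measurePreserving_piecewise μ S
  calc ∫ ω, avg μ S f ω ∂prodLaw μ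
      = ∫ η, ∫ ω, f (S.piecewise η ω) ∂prodLaw μ ∂prodLaw μ :=
        integral_integral_swap (f := fun ω η => f (S.piecewise η ω))
          (.of_bound ((hf.1.comp ((measurable_piecewise S).comp measurable_swap))
            |>.aestronglyMeasurable) B (.of_forall fun p => hf.2 _))
    _ = ∫ p, f (S.piecewise p.1 p.2) ∂(prodLaw μ).prod (prodLaw μ) :=
        (integral_prod (fun p : (ι → α) × (ι → α) => f (S.piecewise p.1 p.2))
          (.of_bound (hf.1.comp (measurable_piecewise S)).aestronglyMeasurable B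
            (.of_forall fun p => hf.2 _))).symm
    _ = ∫ ω, f ω ∂prodLaw μ := by
        conv_rhs => rw [← h.map_eq]
        rw [integral_map h.measurable.aemeasurable hf.1.aestronglyMeasurable]

lemma avg_avg (hf : Bdd B f) (S T : Finset ι) (ω : ι → α) :
    avg μ T (avg μ S f) ω = avg μ (S ∪ T) f ω := by
  have h := measurePreserving_piecewise μ S
  have hb : Bdd B fun η => f ((S ∪ T).piecewise η ω) := hf.comp (measurable_slot _ ω)
  rw [show avg μ (S ∪ T) f ω = ∫ η, f ((S ∪ T).piecewise η ω) ∂prodLaw μ from rfl,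
    ← integral_piecewise hb S]
  simp only [avg, piecewise_twice]

/-- A function not seeing `S` factors through the average over `S`. -/
lemma integral_mul_avg (hf : Bdd B f) (hg : Bdd C g) (S : Finset ι)
    (hgS : ∀ η ω, g (S.piecewise η ω) = g ω) :
    ∫ ω, g ω * avg μ S f ω ∂prodLaw μ = ∫ ω, g ω * f ω ∂prodLaw μ := by
  rw [← integral_piecewise (hg.mul hf) S]
  refine integral_congr_ae (.of_forall fun ω => ?_)
  simp only [avg, hgS, integral_const_mul]

lemma avg_piecewise (hf : Bdd B f) (S : Finset ι) (η ω : ι → α) :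
    avg μ S f (S.piecewise η ω) = avg μ S f ω := by
  simp [avg, Finset.piecewise_idem_right]

lemma sq_integral_le (hf : Bdd B f) :
    (∫ ω, f ω ∂prodLaw μ) ^ 2 ≤ ∫ ω, f ω ^ 2 ∂prodLaw μ := by
  set c := ∫ ω, f ω ∂prodLaw μ
  have h2 : Integrable (fun ω => f ω ^ 2) (prodLaw μ) := by
    simpa [pow_two] using (hf.mul hf).integrable
  have h0 : 0 ≤ ∫ ω, (f ω - c) ^ 2 ∂prodLaw μ := integral_nonneg fun ω => sq_nonneg _
  have h1 : ∫ ω, (f ω - c) ^ 2 ∂prodLaw μ = (∫ ω, f ω ^ 2 ∂prodLaw μ) - c ^ 2 := by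
    have e : ∀ ω, (f ω - c) ^ 2 = f ω ^ 2 - (2 * c * f ω - c ^ 2) := fun ω => by ring
    simp only [e]
    have i1 : Integrable (fun ω => 2 * c * f ω) (prodLaw μ) := hf.integrable.const_mul _
    have i2 : Integrable (fun ω => 2 * c * f ω - c ^ 2) (prodLaw μ) :=
      i1.sub (integrable_const _)
    rw [integral_sub h2 i2, integral_sub i1 (integrable_const _), integral_const_mul,
      integral_const, probReal_univ, one_smul]
    ring
  linarith

lemma change_avg_le (hf : Bdd B f) {S : Finset ι} {i : ι} (hi : i ∉ S) :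
    change μ i (avg μ S f) ≤ change μ i f := by
  refine integral_mono_of_nonneg (.of_forall fun η => integral_nonneg fun ω => sq_nonneg _) ?_
    (.of_forall fun η => ?_)
  · have h : Measurable fun p : (ι → α) × (ι → α) =>
        (f p.2 - f (({i} : Finset ι).piecewise p.1 p.2)) ^ 2 :=
      ((hf.1.comp measurable_snd).sub (hf.1.comp (measurable_piecewise _))).pow_const 2
    refine Integrable.of_bound (h.stronglyMeasurable.integral_prod_right'
      (ν := prodLaw μ)).aestronglyMeasurable ((B + B) ^ 2) (.of_forall fun η => ?_)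
    refine (norm_integral_le_of_norm_le_const (C := (B + B) ^ 2) (.of_forall fun ω => ?_)).trans
      (by simp)
    rw [Real.norm_eq_abs, abs_pow]
    exact pow_le_pow_left₀ (abs_nonneg _)
      ((abs_sub _ _).trans (add_le_add (hf.2 _) (hf.2 _))) 2
  · set G : (ι → α) → ℝ := fun ω => f ω - f (({i} : Finset ι).piecewise η ω)
    have hG : Bdd (B + B) G := hf.sub (hf.comp (measurable_base _ η))
    have hG2 : Bdd ((B + B) * (B + B)) fun ω => G ω * G ω := hG.mul hG
    have e : ∀ ω, avg μ S f ω - avg μ S f (({i} : Finset ι).piecewise η ω) = avg μ S G ω := by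
      intro ω
      simp only [avg, G, piecewise_comm hi]
      refine Eq.symm ?_
      exact (integral_sub (hf.comp (measurable_slot S ω)).integrable
        ((hf.comp (measurable_base _ η)).comp (measurable_slot S ω)).integrable)
    calc ∫ ω, (avg μ S f ω - avg μ S f (({i} : Finset ι).piecewise η ω)) ^ 2 ∂prodLaw μ
        ≤ ∫ ω, avg μ S (fun ω => G ω * G ω) ω ∂prodLaw μ := by
          refine integral_mono_of_nonneg (.of_forall fun ω => sq_nonneg _)
            (hG2.avg S).integrable (.of_forall fun ω => ?_)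
          dsimp only
          rw [e ω]
          simp only [avg, ← pow_two]
          exact sq_integral_le (hG.comp (measurable_slot S ω))
      _ = ∫ ω, (f ω - f (({i} : Finset ι).piecewise η ω)) ^ 2 ∂prodLaw μ := by
          rw [integral_piecewise hG2]
          simp only [G, pow_two]

/-- One coordinate. -/
lemma sq_le_change_add (hf : Bdd B f) (i : ι) :
    ∫ ω, f ω ^ 2 ∂prodLaw μ ≤
      change μ i f + ∫ ω, avg μ {i} f ω ^ 2 ∂prodLaw μ := by
  have ha := hf.avg (μ := μ) {i}
  have hd : Bdd ((B + B) * (B + B)) fun ω =>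
      (f ω - avg μ {i} f ω) * (f ω - avg μ {i} f ω) := (hf.sub ha).mul (hf.sub ha)
  have horth : ∫ ω, avg μ {i} f ω * f ω ∂prodLaw μ =
      ∫ ω, avg μ {i} f ω ^ 2 ∂prodLaw μ := by
    rw [← integral_mul_avg hf ha {i} fun η ω => avg_piecewise hf _ η ω]
    simp [pow_two]
  have hsplit : ∫ ω, f ω ^ 2 ∂prodLaw μ = ∫ ω, (f ω - avg μ {i} f ω) * (f ω - avg μ {i} f ω)
      ∂prodLaw μ + ∫ ω, avg μ {i} f ω ^ 2 ∂prodLaw μ := by
    have e : ∀ ω, f ω ^ 2 = (f ω - avg μ {i} f ω) * (f ω - avg μ {i} f ω) +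
        (2 * (avg μ {i} f ω * f ω) - avg μ {i} f ω ^ 2) := fun ω => by ring
    have i1 : Integrable (fun ω => avg μ {i} f ω * f ω) (prodLaw μ) := (ha.mul hf).integrable
    have i2 : Integrable (fun ω => avg μ {i} f ω ^ 2) (prodLaw μ) := by
      simpa [pow_two] using (ha.mul ha).integrable
    have i3 : Integrable (fun ω => 2 * (avg μ {i} f ω * f ω) - avg μ {i} f ω ^ 2) (prodLaw μ) :=
      (i1.const_mul 2).sub i2
    rw [integral_congr_ae (.of_forall e), integral_add hd.integrable i3, integral_sub (i1.const_mul 2) i2, integral_const_mul, horth]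
    ring
  rw [hsplit]
  refine add_le_add ?_ le_rfl
  have hswap : Integrable (Function.uncurry fun ω η : ι → α =>
      (f ω - f (({i} : Finset ι).piecewise η ω)) ^ 2) ((prodLaw μ).prod (prodLaw μ)) := by
    refine .of_bound (((hf.1.comp measurable_fst).sub (hf.1.comp
      ((measurable_piecewise _).comp measurable_swap))).pow_const 2).aestronglyMeasurable
      ((B + B) ^ 2) (.of_forall fun p => ?_)
    rw [Function.uncurry, Real.norm_eq_abs, abs_pow]
    exact pow_le_pow_left₀ (abs_nonneg _) ((abs_sub _ _).trans (add_le_add (hf.2 _) (hf.2 _))) 2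
  rw [change, ← integral_integral_swap hswap]
  refine integral_mono_of_nonneg (.of_forall fun ω => mul_self_nonneg _) hswap.integral_prod_left
    (.of_forall fun ω => ?_)
  have hb : Bdd (|f ω| + B) fun η => f ω - f (({i} : Finset ι).piecewise η ω) :=
    (show Bdd |f ω| fun _ : ι → α => f ω from ⟨measurable_const, fun _ => le_rfl⟩).sub
      (hf.comp (measurable_slot _ ω))
  refine le_trans (le_of_eq ?_) (sq_integral_le hb)
  rw [integral_sub (integrable_const _) (hf.comp (measurable_slot _ ω)).integrable, integral_const,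
    probReal_univ, one_smul, pow_two]
  rfl

/-- The Efron-Stein inequality for a finite block. -/
lemma sq_le_changes_add (hf : Bdd B f) (S : Finset ι) :
    ∫ ω, f ω ^ 2 ∂prodLaw μ ≤
      ∑ i ∈ S, change μ i f + ∫ ω, avg μ S f ω ^ 2 ∂prodLaw μ := by
  induction S using Finset.induction_on with
  | empty => simp [avg]
  | insert i S hi ih =>
    refine ih.trans ?_
    rw [Finset.sum_insert hi]
    have h := sq_le_change_add (μ := μ) (hf.avg (μ := μ) S) i
    have e : ∀ ω, avg μ {i} (avg μ S f) ω = avg μ (insert i S) f ω := fun ω => by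
      rw [avg_avg hf, Finset.union_comm, ← Finset.insert_eq]
    simp only [e] at h
    have := change_avg_le (μ := μ) hf hi
    linarith

/-- Averages over large blocks are close to the mean. -/
lemma exists_block (hf : Measurable f) (h0 : ∀ ω, 0 ≤ f ω) (h1 : ∀ ω, f ω ≤ 1) {ε : ℝ}
    (hε : 0 < ε) :
    ∃ S : Finset ι, ∀ T, S ⊆ T →
      ∫ ω, |avg μ T f ω - ∫ η, f η ∂prodLaw μ| ∂prodLaw μ ≤ ε := by
  classical
  obtain ⟨N, hN⟩ := exists_nat_gt (4 / ε)
  have hN0 : (0 : ℝ) < N := (div_pos four_pos hε).trans hN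
  set A : ℕ → Set (ι → α) := fun j => {ω | ((j : ℝ) + 1) / N ≤ f ω}
  have hA : ∀ j, MeasurableSet (A j) := fun j => measurableSet_le measurable_const hf
  have happ : ∀ j, ∃ (I : Finset ι) (Q : Set (I → α)), MeasurableSet Q ∧
      (prodLaw μ) (symmDiff (A j) (cylinder I Q)) < ENNReal.ofReal (ε / 4) := by
    intro j
    obtain ⟨D, hD, hDε⟩ := (Measure.MeasureDense.of_generateFrom_isSetAlgebra_finite (prodLaw μ)
      isSetAlgebra_measurableCylinders generateFrom_measurableCylinders.symm).approx (A j) (hA j)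
      (measure_ne_top _ _) (ε / 4) (by positivity)
    obtain ⟨I, Q, hQ, rfl⟩ := (mem_measurableCylinders D).mp hD
    exact ⟨I, Q, hQ, hDε⟩
  choose I Q hQ hIQ using happ
  set g : (ι → α) → ℝ := fun ω =>
    (∑ j ∈ Finset.range N, (cylinder (I j) (Q j)).indicator 1 ω) / N
  have hcyl : ∀ j, MeasurableSet (cylinder (I j) (Q j)) := fun j =>
    MeasurableSet.cylinder (α := fun _ : ι => α) (I j) (hQ j)
  have hg : Bdd 1 g := by
    refine ⟨(Finset.measurable_sum _ fun j _ => measurable_one.indicator (hcyl j)).div_const _,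
      fun ω => ?_⟩
    rw [abs_div, Nat.abs_cast, div_le_one hN0]
    refine (Finset.abs_sum_le_sum_abs _ _).trans ((Finset.sum_le_sum fun j _ => ?_).trans_eq
      (by simp : ∑ j ∈ Finset.range N, (1 : ℝ) = N))
    by_cases h : ω ∈ cylinder (I j) (Q j) <;> simp [h]
  have hfb : Bdd 1 f := ⟨hf, fun ω => abs_le.mpr ⟨by linarith [h0 ω], h1 ω⟩⟩
  have hdiff : ∫ ω, |f ω - g ω| ∂prodLaw μ ≤ ε / 2 := by
    set J : (ι → α) → ℝ := fun ω => 1 / N + (∑ j ∈ Finset.range N,
      (symmDiff (A j) (cylinder (I j) (Q j))).indicator (fun _ => (1 : ℝ)) ω) / N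
    have hJ : ∀ ω, |f ω - g ω| ≤ J ω := by
      intro ω
      have hfl : ∑ j ∈ Finset.range N, (A j).indicator (1 : (ι → α) → ℝ) ω =
          (⌊(N : ℝ) * f ω⌋₊ : ℝ) := by
        have hle : ⌊(N : ℝ) * f ω⌋₊ ≤ N :=
          Nat.floor_le_of_le (by nlinarith [h1 ω])
        have e : (Finset.range N).filter (fun j => ω ∈ A j) =
            Finset.range ⌊(N : ℝ) * f ω⌋₊ := by
          ext j
          simp only [A, Finset.mem_filter, Finset.mem_range, Set.mem_ofPred_eq]
          rw [div_le_iff₀ hN0, Nat.lt_iff_add_one_le, Nat.lt_iff_add_one_le,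
            Nat.le_floor_iff (by positivity [h0 ω])]
          push_cast
          constructor
          · intro h; linarith [h.2]
          · intro h
            refine ⟨?_, by linarith⟩
            have : (j : ℝ) + 1 ≤ N := by nlinarith [h1 ω]
            exact_mod_cast this
        simp [Set.indicator_apply, Finset.sum_ite, e]
      have hsum : |∑ j ∈ Finset.range N, (A j).indicator (1 : (ι → α) → ℝ) ω -
          ∑ j ∈ Finset.range N, (cylinder (I j) (Q j)).indicator 1 ω| ≤
          ∑ j ∈ Finset.range N,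
            (symmDiff (A j) (cylinder (I j) (Q j))).indicator (fun _ => (1 : ℝ)) ω := by
        rw [← Finset.sum_sub_distrib]
        refine (Finset.abs_sum_le_sum_abs _ _).trans (Finset.sum_le_sum fun j _ => ?_)
        by_cases ha : ω ∈ A j <;> by_cases hb : ω ∈ cylinder (I j) (Q j) <;>
          simp [Set.mem_symmDiff, ha, hb]
      rw [hfl] at hsum
      have hlo := Nat.floor_le (a := (N : ℝ) * f ω) (by positivity [h0 ω])
      have hhi := Nat.lt_floor_add_one ((N : ℝ) * f ω)
      obtain ⟨hs1, hs2⟩ := abs_le.mp hsum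
      simp only [g, J, ← add_div]
      rw [abs_le]
      constructor
      · rw [le_sub_iff_add_le, ← neg_div, ← add_div, div_le_iff₀ hN0]
        linarith
      · rw [sub_le_iff_le_add, ← add_div, le_div_iff₀ hN0]
        linarith
    have hJi : Integrable J (prodLaw μ) := (integrable_const _).add ((integrable_finsetSum _
      fun j _ => (integrable_const (1 : ℝ)).indicator ((hA j).symmDiff (hcyl j))).div_const _)
    refine (integral_mono_of_nonneg (.of_forall fun ω => abs_nonneg _) hJi
      (.of_forall hJ)).trans ?_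
    simp only [J]
    rw [integral_add (integrable_const _) ((integrable_finsetSum _
      fun j _ => (integrable_const (1 : ℝ)).indicator ((hA j).symmDiff (hcyl j))).div_const _),
      integral_div, integral_div, integral_finsetSum _ fun j _ =>
        (integrable_const (1 : ℝ)).indicator ((hA j).symmDiff (hcyl j))]
    simp only [Pi.one_apply, integral_const, probReal_univ, smul_eq_mul, one_mul,
      mul_one, integral_indicator_const _ ((hA _).symmDiff (hcyl _))]
    have hb : ∀ j ∈ Finset.range N,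
        (prodLaw μ).real (symmDiff (A j) (cylinder (I j) (Q j))) ≤ ε / 4 := fun j _ =>
      ENNReal.toReal_le_of_le_ofReal (by positivity) (hIQ j).le
    have := Finset.sum_le_sum hb
    simp only [Finset.sum_const, Finset.card_range, nsmul_eq_mul] at this
    rw [← add_div, div_le_iff₀ hN0]
    rw [div_lt_iff₀ hε] at hN
    nlinarith
  refine ⟨(Finset.range N).biUnion I, fun T hT => ?_⟩
  have hconst : ∀ ω, avg μ T g ω = ∫ η, g η ∂prodLaw μ := by
    intro ω
    refine integral_congr_ae (.of_forall fun η => ?_)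
    simp only [g]
    congr 1
    refine Finset.sum_congr rfl fun j hj => ?_
    have hj' : ∀ x : I j, T.piecewise η ω x = η x := fun x =>
      Finset.piecewise_eq_of_mem _ _ _ (hT (Finset.mem_biUnion.mpr ⟨j, hj, x.2⟩))
    have e : T.piecewise η ω ∈ cylinder (I j) (Q j) ↔ η ∈ cylinder (I j) (Q j) := by
      have e' : (I j).restrict (T.piecewise η ω) = (I j).restrict η := funext hj'
      simp only [mem_cylinder, e']
    by_cases h : η ∈ cylinder (I j) (Q j) <;> simp [h, e]
  have hD : Bdd 2 fun ω => |f ω - g ω| := ⟨continuous_abs.measurable.comp (hf.sub hg.1),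
    fun ω => by rw [abs_abs]; exact (abs_sub _ _).trans (by linarith [hfb.2 ω, hg.2 ω])⟩
  have hmean : |(∫ η, f η ∂prodLaw μ) - ∫ η, g η ∂prodLaw μ| ≤ ε / 2 := by
    rw [← integral_sub hfb.integrable hg.integrable]
    exact abs_integral_le_integral_abs.trans hdiff
  have hpt : ∀ ω, |avg μ T f ω - ∫ η, f η ∂prodLaw μ| ≤
      avg μ T (fun ω => |f ω - g ω|) ω + ε / 2 := by
    intro ω
    rw [show avg μ T f ω - ∫ η, f η ∂prodLaw μ = (avg μ T f ω - avg μ T g ω) -
      ((∫ η, f η ∂prodLaw μ) - ∫ η, g η ∂prodLaw μ) by rw [hconst]; ring]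
    refine (abs_sub _ _).trans (add_le_add ?_ hmean)
    rw [avg, avg, ← integral_sub (hfb.comp (measurable_slot T ω)).integrable
      (hg.comp (measurable_slot T ω)).integrable]
    exact abs_integral_le_integral_abs
  refine (integral_mono_of_nonneg (.of_forall fun ω => abs_nonneg _)
    ((hD.avg T).integrable.add (integrable_const _)) (.of_forall hpt)).trans ?_
  rw [integral_add' (hD.avg T).integrable (integrable_const _), integral_piecewise hD,
    integral_const, probReal_univ, one_smul]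
  linarith

/-- The Efron-Stein inequality. -/
lemma sq_le_changes (hf : Measurable f) (h0 : ∀ ω, 0 ≤ f ω) (hB : ∀ ω, f ω ≤ B) (hB0 : 0 < B)
    {K : ℝ} (hK : ∀ S : Finset ι, ∑ i ∈ S, change μ i f ≤ K) :
    ∫ ω, f ω ^ 2 ∂prodLaw μ ≤ K + (∫ ω, f ω ∂prodLaw μ) ^ 2 := by
  refine le_of_forall_pos_le_add fun η hη => ?_
  obtain ⟨S, hS⟩ := exists_block (μ := μ) (f := fun ω => f ω / B) (hf.div_const _)
    (fun ω => div_nonneg (h0 ω) hB0.le) (fun ω => (div_le_one hB0).mpr (hB ω))
    (show 0 < η / (2 * B ^ 2) by positivity)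
  have hfb : Bdd B f := ⟨hf, fun ω => abs_le.mpr ⟨by linarith [h0 ω], hB ω⟩⟩
  have hS' := hS S (Finset.Subset.refl _)
  have hlin : ∀ ω, avg μ S (fun ω => f ω / B) ω = avg μ S f ω / B := fun ω => integral_div _ _
  simp only [hlin, integral_div, div_sub_div_same, abs_div, abs_of_pos hB0] at hS'
  rw [div_le_iff₀ hB0] at hS'
  set m := ∫ ω, f ω ∂prodLaw μ
  have hm : |m| ≤ B := by
    rw [← Real.norm_eq_abs]
    exact (norm_integral_le_of_norm_le_const (C := B) (.of_forall hfb.2)).trans (by simp)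
  have hpt : ∀ ω, avg μ S f ω ^ 2 ≤ m ^ 2 + 2 * B * |avg μ S f ω - m| := by
    intro ω
    have h2 := (hfb.avg (μ := μ) S).2 ω
    obtain ⟨a1, a2⟩ := abs_le.mp h2
    obtain ⟨b1, b2⟩ := abs_le.mp hm
    have hsum : |avg μ S f ω + m| ≤ 2 * B := abs_le.mpr ⟨by linarith, by linarith⟩
    have := mul_le_mul_of_nonneg_left hsum (abs_nonneg (avg μ S f ω - m))
    rw [← abs_mul] at this
    nlinarith [le_abs_self ((avg μ S f ω - m) * (avg μ S f ω + m))]
  have hd : Bdd (2 * B) fun ω => |avg μ S f ω - m| :=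
    ⟨continuous_abs.measurable.comp ((hfb.avg S).1.sub_const _), fun ω => by
      rw [abs_abs]; exact (abs_sub _ _).trans (by linarith [(hfb.avg (μ := μ) S).2 ω])⟩
  have hint : ∫ ω, avg μ S f ω ^ 2 ∂prodLaw μ ≤ m ^ 2 + η := by
    refine (integral_mono_of_nonneg (.of_forall fun ω => sq_nonneg _)
      ((integrable_const _).add (hd.integrable.const_mul _)) (.of_forall hpt)).trans ?_
    rw [integral_add' (integrable_const _) (hd.integrable.const_mul _), integral_const_mul,
      integral_const, probReal_univ, one_smul]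
    have := mul_le_mul_of_nonneg_left hS' (show (0 : ℝ) ≤ 2 * B by linarith)
    have e : 2 * B * (η / (2 * B ^ 2) * B) = η := by field_simp
    linarith
  linarith [sq_le_changes_add (μ := μ) hfb S, hK S]

variable {Z : (ι → α) → ℝ} {ε l : ℝ}

/-- One halving step for the exponential moment. -/
lemma exp_moment_step (hZ : Measurable Z) (h1 : ∀ ω, |Z ω| ≤ 1) (hε : 0 ≤ ε)
    (hV : ∀ S : Finset ι, ∀ᵐ p ∂(prodLaw μ).prod (prodLaw μ),
      ∑ i ∈ S, (Z p.2 - Z (({i} : Finset ι).piecewise p.1 p.2)) ^ 2 ≤ ε)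
    (hl : l ^ 2 * ε ≤ 1 / 4) :
    ∫ ω, Real.exp (l * Z ω) ∂prodLaw μ ≤
      Real.exp (2 * (l ^ 2 * ε)) * (∫ ω, Real.exp (l / 2 * Z ω) ∂prodLaw μ) ^ 2 := by
  set s := l / 2 with hs
  set f : (ι → α) → ℝ := fun ω => Real.exp (s * Z ω) with hf
  set B := Real.exp |s|
  have hfm : Measurable f := (hZ.const_mul s).exp
  have hfB : ∀ ω, f ω ≤ B := fun ω => Real.exp_le_exp.mpr ((le_abs_self _).trans (by
    rw [abs_mul]; exact mul_le_of_le_one_right (abs_nonneg _) (h1 ω)))
  have hfb : Bdd B f := ⟨hfm, fun ω => by rw [abs_of_pos (Real.exp_pos _)]; exact hfB ω⟩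
  set M := ∫ ω, f ω ^ 2 ∂prodLaw μ with hM
  have hf2 : Integrable (fun ω => f ω ^ 2) (prodLaw μ) := by
    simpa [pow_two] using (hfb.mul hfb).integrable
  have hK : ∀ S : Finset ι, ∑ i ∈ S, change μ i f ≤ l ^ 2 * ε * M := by
    intro S
    set G : ι → (ι → α) × (ι → α) → ℝ := fun i p =>
      (f p.2 - f (({i} : Finset ι).piecewise p.1 p.2)) ^ 2
    have hGi : ∀ i, Integrable (G i) ((prodLaw μ).prod (prodLaw μ)) := fun i => by
      refine .of_bound (((hfm.comp measurable_snd).sub (hfm.comp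
        (measurable_piecewise _))).pow_const 2).aestronglyMeasurable
        ((B + B) ^ 2) (.of_forall fun p => ?_)
      rw [Real.norm_eq_abs, abs_pow]
      exact pow_le_pow_left₀ (abs_nonneg _) ((abs_sub _ _).trans (add_le_add (hfb.2 _) (hfb.2 _))) 2
    have hch : ∀ i, change μ i f = ∫ p, G i p ∂(prodLaw μ).prod (prodLaw μ) := fun i =>
      (integral_prod _ (hGi i)).symm
    simp only [hch]
    rw [← integral_finsetSum _ fun i _ => hGi i, hM, ← integral_const_mul]
    refine le_trans (integral_mono_ae (integrable_finsetSum _ fun i _ => hGi i)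
      ((hf2.comp_snd (prodLaw μ)).const_mul (l ^ 2 * ε))
      ((hV S).mono fun p hp => ?_)) (le_of_eq ?_)
    · have hone : ∀ i ∈ S, G i p ≤ 4 * s ^ 2 * f p.2 ^ 2 *
          (Z p.2 - Z (({i} : Finset ι).piecewise p.1 p.2)) ^ 2 := by
        intro i hi
        set z := Z (({i} : Finset ι).piecewise p.1 p.2)
        have hd : (Z p.2 - z) ^ 2 ≤ ε := (Finset.single_le_sum
          (f := fun i => (Z p.2 - Z (({i} : Finset ι).piecewise p.1 p.2)) ^ 2)
          (fun i _ => sq_nonneg _) hi).trans hp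
        have hx : |s * (z - Z p.2)| ≤ 1 := by
          rw [← sq_le_one_iff_abs_le_one]
          have h4 : s ^ 2 * ε ≤ 1 := by rw [hs]; nlinarith
          calc (s * (z - Z p.2)) ^ 2 = s ^ 2 * (Z p.2 - z) ^ 2 := by ring
            _ ≤ s ^ 2 * ε := mul_le_mul_of_nonneg_left hd (sq_nonneg _)
            _ ≤ 1 := h4
        have he := Real.abs_exp_sub_one_le hx
        have hsplit : f (({i} : Finset ι).piecewise p.1 p.2) =
            f p.2 * Real.exp (s * (z - Z p.2)) := by
          simp only [hf, ← Real.exp_add]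
          ring_nf
          rfl
        have := pow_le_pow_left₀ (abs_nonneg _) he 2
        simp only [sq_abs, mul_pow] at this
        simp only [G]
        rw [hsplit]
        calc (f p.2 - f p.2 * Real.exp (s * (z - Z p.2))) ^ 2
            = f p.2 ^ 2 * (Real.exp (s * (z - Z p.2)) - 1) ^ 2 := by ring
          _ ≤ f p.2 ^ 2 * (2 ^ 2 * (s ^ 2 * (z - Z p.2) ^ 2)) :=
              mul_le_mul_of_nonneg_left this (sq_nonneg _)
          _ = _ := by ring
      refine (Finset.sum_le_sum hone).trans ?_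
      rw [← Finset.mul_sum]
      refine (mul_le_mul_of_nonneg_left hp (by positivity)).trans (le_of_eq ?_)
      rw [hs]; ring
    · rw [integral_const_mul, integral_const_mul,
        integral_fun_snd (fun ω => f ω ^ 2), probReal_univ, one_smul]
  have h := sq_le_changes hfm (fun ω => (Real.exp_pos _).le) hfB (Real.exp_pos _) hK
  have e1 : ∀ ω, Real.exp (l * Z ω) = f ω ^ 2 := fun ω => by
    rw [hf, ← Real.exp_nat_mul, hs]; congr 1; push_cast; ring
  simp only [e1]
  rw [← hM] at h ⊢
  set x := l ^ 2 * ε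
  have hx0 : 0 ≤ x := mul_nonneg (sq_nonneg _) hε
  have h2 : (1 : ℝ) ≤ Real.exp (2 * x) * (1 - x) := by
    nlinarith [Real.add_one_le_exp (2 * x), hx0, hl]
  have hM0 : 0 ≤ M := integral_nonneg fun ω => sq_nonneg _
  calc M ≤ Real.exp (2 * x) * (1 - x) * M := le_mul_of_one_le_left hM0 h2
    _ = Real.exp (2 * x) * (M - x * M) := by ring
    _ ≤ _ := mul_le_mul_of_nonneg_left (by linarith) (Real.exp_pos _).le

/-- The exponential moment of a centred function with small squared changes. -/
lemma exp_moment_le (hZ : Measurable Z) (h1 : ∀ ω, |Z ω| ≤ 1)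
    (h0 : ∫ ω, Z ω ∂prodLaw μ = 0) (hε : 0 ≤ ε)
    (hV : ∀ S : Finset ι, ∀ᵐ p ∂(prodLaw μ).prod (prodLaw μ),
      ∑ i ∈ S, (Z p.2 - Z (({i} : Finset ι).piecewise p.1 p.2)) ^ 2 ≤ ε)
    (hl : l ^ 2 * ε ≤ 1 / 4) :
    ∫ ω, Real.exp (l * Z ω) ∂prodLaw μ ≤ Real.exp 2 := by
  set M : ℝ → ℝ := fun a => ∫ ω, Real.exp (a * Z ω) ∂prodLaw μ with hMdef
  have hM0 : ∀ a, 0 ≤ M a := fun a => integral_nonneg fun ω => (Real.exp_pos _).le
  have hrec : ∀ (j : ℕ) (a : ℝ), a ^ 2 * ε ≤ 1 / 4 →
      M a ≤ Real.exp (4 * (a ^ 2 * ε)) * M (a / 2 ^ j) ^ 2 ^ j := by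
    intro j
    induction j with
    | zero =>
      intro a _
      simp only [pow_zero, div_one, pow_one]
      exact le_mul_of_one_le_left (hM0 a) (Real.one_le_exp (by positivity))
    | succ j ih =>
      intro a ha
      have ha2 : (a / 2) ^ 2 * ε ≤ 1 / 4 := by nlinarith
      refine (exp_moment_step hZ h1 hε hV ha).trans ((mul_le_mul_of_nonneg_left
        (pow_le_pow_left₀ (hM0 _) (ih _ ha2) 2) (Real.exp_pos _).le).trans (le_of_eq ?_))
      have e1 : Real.exp (4 * (a ^ 2 * ε)) =
          Real.exp (2 * (a ^ 2 * ε)) * Real.exp (4 * ((a / 2) ^ 2 * ε)) ^ 2 := by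
        rw [← Real.exp_nat_mul, ← Real.exp_add]
        congr 1
        push_cast
        ring
      rw [e1, mul_pow, ← pow_mul, ← pow_succ, div_div, ← pow_succ', ← mul_assoc]
  have hsmall : ∀ a : ℝ, |a| ≤ 1 → M a ≤ Real.exp (a ^ 2) := by
    intro a ha
    have hpt : ∀ ω, Real.exp (a * Z ω) ≤ 1 + a * Z ω + a ^ 2 := by
      intro ω
      have hx : |a * Z ω| ≤ 1 := by
        rw [abs_mul]; exact mul_le_one₀ ha (abs_nonneg _) (h1 ω)
      have hz : (a * Z ω) ^ 2 ≤ a ^ 2 := by
        rw [mul_pow]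
        exact mul_le_of_le_one_right (sq_nonneg _) ((sq_le_one_iff_abs_le_one _).mpr (h1 ω))
      have := (abs_le.mp (Real.abs_exp_sub_one_sub_id_le hx)).2
      linarith
    have hZb : Bdd 1 Z := ⟨hZ, h1⟩
    refine (integral_mono_of_nonneg (.of_forall fun ω => (Real.exp_pos _).le)
      (((integrable_const (1 : ℝ)).add (hZb.integrable.const_mul a)).add (integrable_const _))
      (.of_forall hpt)).trans (le_trans (le_of_eq ?_) (Real.add_one_le_exp _))
    rw [integral_add' ((integrable_const (1 : ℝ)).add (hZb.integrable.const_mul a))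
      (integrable_const _), integral_add' (integrable_const (1 : ℝ)) (hZb.integrable.const_mul a),
      integral_const_mul, h0]
    simp [add_comm]
  obtain ⟨j, hj⟩ := pow_unbounded_of_one_lt (l ^ 2 * 4 + |l| + 1) one_lt_two
  have hpos : (0 : ℝ) < 2 ^ j := by positivity
  have hlj : |l / 2 ^ j| ≤ 1 := by
    rw [abs_div, abs_of_pos hpos, div_le_one hpos]; nlinarith [sq_nonneg l]
  refine ((hrec j l hl).trans (mul_le_mul_of_nonneg_left
    (pow_le_pow_left₀ (hM0 _) (hsmall _ hlj) _) (Real.exp_pos _).le)).trans ?_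
  rw [← Real.exp_nat_mul, ← Real.exp_add]
  refine Real.exp_le_exp.mpr ?_
  have hq : (((2 ^ j : ℕ) : ℝ)) * (l / 2 ^ j) ^ 2 = l ^ 2 / 2 ^ j := by
    push_cast; field_simp
  rw [hq]
  have : l ^ 2 / 2 ^ j ≤ 0 + 1 / 4 := by
    rw [div_le_iff₀ hpos]; nlinarith [abs_nonneg l]
  nlinarith

/-- Concentration. -/
theorem concentration (hZ : Measurable Z) (h1 : ∀ ω, |Z ω| ≤ 1)
    (h0 : ∫ ω, Z ω ∂prodLaw μ = 0) (hε : 0 ≤ ε)
    (hV : ∀ S : Finset ι, ∀ᵐ p ∂(prodLaw μ).prod (prodLaw μ),
      ∑ i ∈ S, (Z p.2 - Z (({i} : Finset ι).piecewise p.1 p.2)) ^ 2 ≤ ε)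
    (hl0 : 0 < l) (hl : l ^ 2 * ε ≤ 1 / 4) (δ : ℝ) :
    (prodLaw μ).real {ω | δ < Z ω} ≤ Real.exp (2 - l * δ) := by
  have h := exp_moment_le hZ h1 h0 hε hV hl
  have hint : Integrable (fun ω => Real.exp (l * Z ω)) (prodLaw μ) := by
    refine .of_bound (hZ.const_mul l).exp.aestronglyMeasurable (Real.exp |l|)
      (.of_forall fun ω => ?_)
    rw [Real.norm_eq_abs, abs_of_pos (Real.exp_pos _)]
    exact Real.exp_le_exp.mpr ((le_abs_self _).trans (by
      rw [abs_mul]; exact mul_le_of_le_one_right (abs_nonneg _) (h1 ω)))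
  have hm := mul_meas_ge_le_integral_of_nonneg (μ := prodLaw μ)
    (.of_forall fun ω => (Real.exp_pos (l * Z ω)).le) hint (Real.exp (l * δ))
  have hmono : (prodLaw μ).real {ω | δ < Z ω} ≤
      (prodLaw μ).real {ω | Real.exp (l * δ) ≤ Real.exp (l * Z ω)} :=
    measureReal_mono fun ω hω => Real.exp_le_exp.mpr (mul_le_mul_of_nonneg_left (le_of_lt hω) hl0.le)
  rw [Real.exp_sub, le_div_iff₀ (Real.exp_pos _)]
  calc (prodLaw μ).real {ω | δ < Z ω} * Real.exp (l * δ)
      ≤ Real.exp (l * δ) * (prodLaw μ).real {ω | Real.exp (l * δ) ≤ Real.exp (l * Z ω)} := by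
        rw [mul_comm]; exact mul_le_mul_of_nonneg_left hmono (Real.exp_pos _).le
    _ ≤ _ := hm.trans h

end Vale.Agent.P147.Resample
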