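import Vale.Agent.P147.Gradient
import Vale.Agent.P147.Resample

/-!
P147: the directional zero-one law when a driftless projection of the walk has anisotropy
above two. The chance of escape averaged over the rows in a large box round the start is nearly
constant with probability exponentially close to one; along the walk the recent past changes
the chance by at most the recent gradient, and the older past is outside the box.
-/

open MeasureTheory Filter ProbabilityTheory
open scoped RealInnerProductSpace Topology ENNReal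

namespace Vale.Agent.P147.Transient

open Resample

variable {d : ℕ} {E : Type*} [NormedAddCommGroup E] [InnerProductSpace ℝ E]

/-- The box of radius `N` round `z`. -/
noncomputable def box (z : Site d) (N : ℕ) : Finset (Site d) :=
  Fintype.piFinset fun i => Finset.Icc (z i - N) (z i + N)

lemma mem_box {z y : Site d} {N : ℕ} : y ∈ box z N ↔ ∀ i, |y i - z i| ≤ (N : ℤ) := by
  simp only [box, Fintype.mem_piFinset, Finset.mem_Icc, abs_le]
  exact forall_congr' fun i => ⟨fun h => ⟨by omega, by omega⟩, fun h => ⟨by omega, by omega⟩⟩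

lemma card_box (z : Site d) (N : ℕ) : (box z N).card = (2 * N + 1) ^ d := by
  simp only [box, Fintype.card_piFinset, Int.card_Icc]
  have e : ∀ i, (z i + (N : ℤ) + 1 - (z i - N)).toNat = 2 * N + 1 := fun i => by omega
  simp only [e, Finset.prod_const, Finset.card_univ, Fintype.card_fin]

lemma norm_emb_sub_le (a : Fin d → E) {y z : Site d} {N : ℕ} (h : y ∈ box z N) :
    ‖emb a z - emb a y‖ ≤ (N : ℝ) * ∑ i, ‖a i‖ := by
  simp only [emb, ← Finset.sum_sub_distrib, ← sub_smul, Finset.mul_sum]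
  refine (norm_sum_le _ _).trans (Finset.sum_le_sum fun i _ => ?_)
  rw [norm_smul, Real.norm_eq_abs]
  refine mul_le_mul_of_nonneg_right ?_ (norm_nonneg _)
  rw [abs_sub_comm]
  exact_mod_cast (mem_box.mp h) i

variable [NeZero d] {a : Fin d → E} {γ κ t c θ : ℝ} {φ ψ : E → ℝ}
variable (μ : Measure (Step d → ℝ))

/-- Rows satisfying the hypotheses of the theorem. -/
def NiceRow (a : Fin d → E) (γ κ : ℝ) (p : Step d → ℝ) : Prop :=
  GoodRow p ∧ (∀ e, κ ≤ p e) ∧ (∑ e, p e • emb a (move e) = 0) ∧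
    ∀ u : E, γ * ∑ e, p e * ⟪u, emb a (move e)⟫ ^ 2 ≤
      ‖u‖ ^ 2 * ∑ e, p e * ‖emb a (move e)‖ ^ 2

omit [NeZero d] in
lemma ae_nice [IsProbabilityMeasure μ] (h : ∀ᵐ p ∂μ, NiceRow a γ κ p) :
    ∀ᵐ ω ∂iidLaw μ, Nice a γ κ ω :=
  (ae_forall_site μ h).mono fun _ω hω =>
    ⟨fun x => (hω x).1, fun x => (hω x).2.1, fun x => (hω x).2.2.1, fun x => (hω x).2.2.2⟩

omit [NeZero d] in
lemma nice_piecewise {η ω : Env d} (hη : Nice a γ κ η) (hω : Nice a γ κ ω)
    (S : Finset (Site d)) : Nice a γ κ (S.piecewise η ω) := by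
  refine ⟨fun x => ?_, fun x => ?_, fun x => ?_, fun x => ?_⟩ <;> by_cases hx : x ∈ S <;>
    simp only [hx, Finset.piecewise_eq_of_mem, not_false_eq_true, Finset.piecewise_eq_of_notMem]
  exacts [hη.good x, hω.good x, hη.floor x, hω.floor x, hη.mean x, hω.mean x, hη.aniso x,
    hω.aniso x]

lemma bdd_pr {A : Set (Path d)} (hA : MeasurableSet A) (x : Site d) :
    Bdd 1 fun ω : Env d => pr ω x A :=
  ⟨(measurable_law x hA).ennreal_toReal, fun ω => by
    rw [abs_of_nonneg (pr_nonneg _ _ _)]; exact pr_le_one _ _ _⟩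

lemma measurable_grad {A : Set (Path d)} (hA : MeasurableSet A) (y : Site d) :
    Measurable fun ω : Env d => grad ω A y :=
  Finset.measurable_sum _ fun e _ =>
    (show Measurable fun ω : Env d => ω y e from
      (measurable_pi_apply e).comp (measurable_pi_apply y)).mul
      (((bdd_pr hA (y + move e)).1.sub (bdd_pr hA y).1).pow_const 2)

/-- The chance of `A` from `z`, averaged over the rows in the box round `z`. -/
noncomputable def blur (A : Set (Path d)) (N : ℕ) (z : Site d) : Env d → ℝ :=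
  avg μ (box z N) fun η => pr η z A

variable {μ}

/-- The averaged chance concentrates. -/
lemma blur_concentration [IsProbabilityMeasure μ] (hμ : ∀ᵐ p ∂μ, NiceRow a γ κ p)
    (L : Lyap a γ κ t c θ φ ψ) (hκ : 0 < κ) {e₀ : Step d} (hθ : φ (emb a (move e₀)) ≤ θ)
    {A : Set (Path d)} (hA : MeasurableSet A) (hinv : theta ⁻¹' A = A) (z : Site d) {p : ℝ}
    (hp : ∫ η, pr η z A ∂iidLaw μ = p) (N : ℕ) {s l : ℝ} (hs0 : 0 < s) (hs1 : s ≤ 1)
    (hl0 : 0 < l)
    (hl : l ^ 2 * (((1 - c * s) ^ N + s ^ t) / (κ * (κ * (1 - θ)) ^ 2)) ≤ 1 / 4) (δ : ℝ) :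
    (iidLaw μ).real {ω | δ < blur μ A N z ω - p} ≤ Real.exp (2 - l * δ) := by
  set ρ := κ * (1 - θ) with hρdef
  have hρ : 0 < ρ := mul_pos hκ (sub_pos.mpr L.θlt)
  set hit := (1 - c * s) ^ N + s ^ t with hhit
  have hhit0 : 0 ≤ hit := add_nonneg
    (pow_nonneg (sub_nonneg.mpr (mul_le_one₀ L.cle hs0.le hs1)) _) (Real.rpow_nonneg hs0.le _)
  set D := box z N
  set h : Env d → ℝ := fun η => pr η z A
  have hb : Bdd 1 h := bdd_pr hA z
  have hpb : 0 ≤ p ∧ p ≤ 1 := by
    constructor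
    · rw [← hp]; exact integral_nonneg fun _ => pr_nonneg _ _ _
    · rw [← hp]
      refine (integral_mono hb.integrable (integrable_const 1) fun _ => pr_le_one _ _ _).trans ?_
      simp
  have hblur0 : ∀ ω, 0 ≤ blur μ A N z ω := fun ω => integral_nonneg fun _ => pr_nonneg _ _ _
  have hblur1 : ∀ ω, blur μ A N z ω ≤ 1 := fun ω =>
    (abs_le.mp ((hb.avg (μ := μ) D).2 ω)).2
  have hnice := ae_nice μ hμ
  refine concentration (Z := fun ω => blur μ A N z ω - p) ((hb.avg D).1.sub_const p)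
    (fun ω => abs_le.mpr ⟨by linarith [hblur0 ω], by linarith [hblur1 ω]⟩) ?_
    (div_nonneg hhit0 (by positivity)) (fun S => ?_) hl0 hl δ
  · have i0 : Integrable (fun ω => blur μ A N z ω) (prodLaw μ) := (hb.avg D).integrable
    rw [integral_sub i0 (integrable_const p), integral_const, probReal_univ, one_smul]
    rw [show ∫ ω, blur μ A N z ω ∂iidLaw μ = p from (integral_piecewise hb D).trans hp]
    ring
  filter_upwards [Measure.quasiMeasurePreserving_fst.ae hnice,
    Measure.quasiMeasurePreserving_snd.ae hnice] with pq hη hω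
  obtain ⟨η, ω⟩ := pq
  simp only at hη hω ⊢
  set G : Site d → Env d → ℝ := fun i ζ =>
    h (D.piecewise ζ ω) - h (D.piecewise ζ (({i} : Finset (Site d)).piecewise η ω))
  have hG : ∀ i, Bdd 2 (G i) := fun i => by
    have := (hb.comp (measurable_slot D ω)).sub
      (hb.comp (measurable_slot D (({i} : Finset (Site d)).piecewise η ω)))
    norm_num at this
    exact this
  have hG2 : ∀ i, Bdd (2 * 2) fun ζ => G i ζ * G i ζ := fun i => (hG i).mul (hG i)
  have e : ∀ i, blur μ A N z ω - p - (blur μ A N z (({i} : Finset (Site d)).piecewise η ω) - p) =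
      ∫ ζ, G i ζ ∂iidLaw μ := fun i => by
    rw [sub_sub_sub_cancel_right]
    exact (integral_sub (hb.comp (measurable_slot D _)).integrable
      (hb.comp (measurable_slot D _)).integrable).symm
  simp only [e]
  refine (Finset.sum_le_sum fun i _ => sq_integral_le (hG i)).trans ?_
  simp only [pow_two] at hG2 ⊢
  rw [← integral_finsetSum _ fun i _ => (hG2 i).integrable]
  refine (integral_mono_ae (integrable_finsetSum _ fun i _ => (hG2 i).integrable)
    (integrable_const (hit / (κ * (ρ * ρ)))) ?_).trans (le_of_eq (by simp))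
  filter_upwards [hnice] with ζ hζ
  set ξ := D.piecewise ζ ω with hξ
  have hξn : Nice a γ κ ξ := nice_piecewise hζ hω D
  have hone : ∀ i ∈ S, G i ζ * G i ζ ≤
      hit * (pr ξ z (avoid {i})ᶜ * grad ξ A i) / (κ * (ρ * ρ)) := by
    intro i _
    have hV := grad_nonneg hξn.good A i
    have hP := pr_nonneg ξ z (avoid {i})ᶜ
    by_cases hi : i ∈ D
    · have e0 : D.piecewise ζ (({i} : Finset (Site d)).piecewise η ω) = ξ := by
        funext j
        by_cases hj : j ∈ D
        · simp [hξ, hj]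
        · have : j ≠ i := fun h => hj (h ▸ hi)
          simp [hξ, hj, this]
      simp only [G, e0, ← hξ, sub_self, mul_zero]
      exact div_nonneg (mul_nonneg hhit0 (mul_nonneg hP hV)) (by positivity)
    · simp only [G, piecewise_comm hi, ← hξ]
      set ξ' := ({i} : Finset (Site d)).piecewise η ξ
      have hξ' : Nice a γ κ ξ' := nice_piecewise hη hξn _
      have heq : ∀ x, x ∉ ({i} : Finset (Site d)) → ξ x = ξ' x := fun x hx =>
        (Finset.piecewise_eq_of_notMem _ _ _ hx).symm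
      have hc := L.abs_change hκ hθ hξn hξ' heq hA hinv z
      rw [Finset.sum_singleton, ← pr_hit_congr fun x hx => heq x (by simpa using hx), ← hρdef]
        at hc
      have hfar : pr ξ z (avoid {i})ᶜ ≤ hit := by
        refine L.hit_far hξn ?_ hs0 hs1
        rw [mem_box] at hi
        push Not at hi
        exact hi
      have hsq : (h ξ' - h ξ) * (h ξ' - h ξ) ≤ (Real.sqrt (grad ξ A i / κ) *
          pr ξ z (avoid {i})ᶜ / ρ) * (Real.sqrt (grad ξ A i / κ) * pr ξ z (avoid {i})ᶜ / ρ) := by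
        rw [← abs_mul_abs_self (h ξ' - h ξ)]
        exact mul_self_le_mul_self (abs_nonneg _) hc
      calc (h ξ - h ξ') * (h ξ - h ξ') = (h ξ' - h ξ) * (h ξ' - h ξ) := by ring
        _ ≤ _ := hsq
        _ = (Real.sqrt (grad ξ A i / κ) * Real.sqrt (grad ξ A i / κ)) *
            (pr ξ z (avoid {i})ᶜ * pr ξ z (avoid {i})ᶜ) / (ρ * ρ) := by ring
        _ = pr ξ z (avoid {i})ᶜ * (pr ξ z (avoid {i})ᶜ * grad ξ A i) / (κ * (ρ * ρ)) := by
            rw [Real.mul_self_sqrt (div_nonneg hV hκ.le)]; field_simp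
        _ ≤ _ := by gcongr
  refine (Finset.sum_le_sum hone).trans ?_
  rw [← Finset.sum_div, ← Finset.mul_sum]
  refine div_le_div_of_nonneg_right ?_ (by positivity)
  exact mul_le_of_le_one_right hhit0 (hit_grad_le hξn.good hA hinv S z)

/-- The old part of the past seen from time `m`. -/
noncomputable def old (a : Fin d → E) (ψ : E → ℝ) (W m : ℕ) (X : Path d) : ℝ :=
  ∑ k ∈ (Finset.range m).filter (fun k => k + W ≤ m), ψ (emb a (X m) - emb a (X k))

/-- The gradient met in the last `W` steps before `m`. -/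
noncomputable def recent (κ : ℝ) (A : Set (Path d)) (ω : Env d) (W m : ℕ) (X : Path d) : ℝ :=
  ∑ k ∈ (Finset.range m).filter (fun k => m < k + W), Real.sqrt (grad ω A (X k) / κ)

omit [NeZero d] in
lemma lag_sum_le (F : ℕ → ℕ → ℝ≥0∞) (n W : ℕ) :
    ∑ m ∈ Finset.Ico n (2 * n), ∑ k ∈ (Finset.range m).filter (fun k => k + W ≤ m), F k m ≤
      ∑ k ∈ Finset.range (2 * n), ∑ j ∈ Finset.range (2 * n), F k (j + W + k) := by
  classical
  rw [Finset.sum_sigma', ← Finset.sum_product']
  set S := (Finset.Ico n (2 * n)).sigma fun m => (Finset.range m).filter fun k => k + W ≤ m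
  have hinj : Set.InjOn (fun q : (_ : ℕ) × ℕ => (q.2, q.1 - W - q.2)) (S : Set _) := by
    rintro ⟨m, k⟩ hq ⟨m', k'⟩ hq' h
    simp only [S, Finset.coe_sigma, Set.mem_sigma_iff, Finset.mem_coe, Finset.mem_filter,
      Finset.mem_range] at hq hq'
    simp only [Prod.mk.injEq] at h
    obtain ⟨rfl, h2⟩ := h
    have : m = m' := by omega
    subst this
    rfl
  calc ∑ q ∈ S, F q.2 q.1 = ∑ q ∈ S, F q.2 ((q.1 - W - q.2) + W + q.2) := by
        refine Finset.sum_congr rfl fun q hq => ?_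
        simp only [S, Finset.mem_sigma, Finset.mem_filter, Finset.mem_range] at hq
        congr 1
        omega
    _ = ∑ r ∈ S.image (fun q : (_ : ℕ) × ℕ => (q.2, q.1 - W - q.2)), F r.1 (r.2 + W + r.1) :=
        (Finset.sum_image (f := fun r : ℕ × ℕ => F r.1 (r.2 + W + r.1)) hinj).symm
    _ ≤ _ := by
        refine Finset.sum_le_sum_of_subset fun r hr => ?_
        simp only [S, Finset.mem_image, Finset.mem_sigma, Finset.mem_filter, Finset.mem_range,
          Finset.mem_Ico] at hr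
        obtain ⟨q, hq, rfl⟩ := hr
        simp only [Finset.mem_product, Finset.mem_range]
        omega

omit [NeZero d] in
lemma window_sum_le (G : ℕ → ℝ) (hG : ∀ k, 0 ≤ G k) (n W : ℕ) :
    ∑ m ∈ Finset.Ico n (2 * n), ∑ k ∈ (Finset.range m).filter (fun k => m < k + W), G k ≤
      W * ∑ k ∈ Finset.range (2 * n), G k := by
  calc ∑ m ∈ Finset.Ico n (2 * n), ∑ k ∈ (Finset.range m).filter (fun k => m < k + W), G k
      = ∑ k ∈ Finset.range (2 * n), ∑ m ∈ (Finset.Ico n (2 * n)).filter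
          (fun m => k < m ∧ m < k + W), G k := by
        refine Finset.sum_comm' fun m k => ?_
        simp only [Finset.mem_Ico, Finset.mem_filter, Finset.mem_range]
        constructor <;> intro h <;> refine ⟨⟨?_, ?_⟩, ?_⟩ <;> omega
    _ ≤ ∑ k ∈ Finset.range (2 * n), (W : ℝ) * G k := by
        refine Finset.sum_le_sum fun k _ => ?_
        rw [Finset.sum_const, nsmul_eq_mul]
        refine mul_le_mul_of_nonneg_right (Nat.cast_le.mpr ?_) (hG k)
        refine (Finset.card_le_card (t := Finset.Ico k (k + W)) fun m hm => ?_).trans (by simp)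
        simp only [Finset.mem_filter] at hm
        simp only [Finset.mem_Ico]
        omega
    _ = _ := by rw [Finset.mul_sum]

lemma ψ_le_one (L : Lyap a γ κ t c θ φ ψ) {ω : Env d} (hω : Nice a γ κ ω) (y : E) : ψ y ≤ 1 := by
  have h := L.step ω hω 0 y
  have h2 : 0 ≤ ∑ e, ω 0 e * φ (y + emb a (move e)) :=
    Finset.sum_nonneg fun e _ => mul_nonneg ((hω.good 0).1 e).le (L.nonneg _)
  linarith [L.le_one y]

/-- Expected old and recent past, summed over `m` between `n` and `2n`. -/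
lemma past_sum_le (L : Lyap a γ κ t c θ φ ψ) (hκ : 0 < κ) {ω : Env d} (hω : Nice a γ κ ω)
    {A : Set (Path d)} (hA : MeasurableSet A) (hinv : theta ⁻¹' A = A) (n W : ℕ) {B R η l : ℝ}
    (hB : 0 ≤ B) (hR : 0 ≤ R) (hη : 0 < η) (hl0 : 0 < l) (hl1 : l ≤ 1) :
    ∫⁻ X, ∑ m ∈ Finset.Ico n (2 * n),
        ENNReal.ofReal (B * old a ψ W m X + R * recent κ A ω W m X) ∂law ω 0 ≤
      ENNReal.ofReal (B * ((2 * n : ℕ) * ((1 - c * l) ^ W + l ^ t)) +
        R * (n * W * η + W / (κ * η))) := by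
  set V : Site d → ℝ := grad ω A
  have hold0 : ∀ m X, 0 ≤ old a ψ W m X := fun m X =>
    Finset.sum_nonneg fun k _ => L.pays_nonneg _
  have hrec : ∀ X : Path d, ∑ m ∈ Finset.Ico n (2 * n), recent κ A ω W m X ≤
      n * W * η + W / (κ * η) * ∑ k ∈ Finset.range (2 * n), V (X k) := by
    intro X
    have hone : ∀ k, Real.sqrt (V (X k) / κ) ≤ η + V (X k) / (κ * η) := by
      intro k
      rw [← div_div]
      set v := V (X k) / κ
      have hv : 0 ≤ v := div_nonneg (grad_nonneg hω.good A _) hκ.le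
      refine Real.sqrt_le_iff.mpr ⟨by positivity, ?_⟩
      have e : (η + v / η) ^ 2 = η ^ 2 + 2 * v + (v / η) ^ 2 := by field_simp; ring
      nlinarith [sq_nonneg η, sq_nonneg (v / η)]
    refine (Finset.sum_le_sum fun m _ => Finset.sum_le_sum fun k _ => hone k).trans ?_
    simp only [Finset.sum_add_distrib]
    refine add_le_add ?_ ?_
    · refine (Finset.sum_le_card_nsmul _ _ ((W : ℝ) * η) fun m _ => ?_).trans (le_of_eq ?_)
      · rw [Finset.sum_const, nsmul_eq_mul]
        refine mul_le_mul_of_nonneg_right (Nat.cast_le.mpr ?_) hη.le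
        refine (Finset.card_le_card (t := Finset.Ico (m - W) m) fun k hk => ?_).trans
          (by rw [Nat.card_Ico]; omega)
        simp only [Finset.mem_filter, Finset.mem_range] at hk
        simp only [Finset.mem_Ico]
        omega
      · rw [Nat.card_Ico, nsmul_eq_mul, show 2 * n - n = n by omega]; ring
    · refine (window_sum_le (fun k => V (X k) / (κ * η))
        (fun k => div_nonneg (grad_nonneg hω.good A _) (by positivity)) n W).trans (le_of_eq ?_)
      rw [← Finset.sum_div]; ring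
  have hrec0 : ∀ m X, 0 ≤ recent κ A ω W m X := fun m X =>
    Finset.sum_nonneg fun k _ => Real.sqrt_nonneg _
  set u := (1 - c * l) ^ W + l ^ t with hu
  have hu0 : 0 ≤ u := add_nonneg (pow_nonneg (sub_nonneg.mpr
    (mul_le_one₀ L.cle hl0.le hl1)) _) (Real.rpow_nonneg hl0.le _)
  set P : ℕ → Path d → ℝ≥0∞ := fun k X =>
    ∑ j ∈ Finset.range (2 * n), ENNReal.ofReal (ψ (emb a (X (j + W + k)) - emb a (X k))) with hP
  have hPm : ∀ k, Measurable (P k) := fun k => Finset.measurable_sum _ fun j _ =>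
    measurable_two (fun y y' => ψ (emb a y - emb a y')) (j + W + k) k
  have hlag : ∀ k x, ∫⁻ X, P k X ∂law ω x ≤ ENNReal.ofReal u := by
    intro k
    induction k with
    | zero =>
      intro x
      have hv := visits_shift hω.good (g := fun y => ψ (emb a y + -emb a x))
        (f := fun y => φ (emb a y + -emb a x)) (fun _ => L.pays_nonneg _) (fun _ => L.nonneg _)
        (fun y => L.pay hω _ y) W (2 * n) x
      refine le_trans (le_of_eq (lintegral_congr_ae ((ae_start ω x).mono fun X hX => ?_)))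
        (hv.trans (ENNReal.ofReal_le_ofReal (L.decay hω _ hl0 hl1 W x)))
      simp only [hP, Nat.add_zero, hX, sub_eq_add_neg]
    | succ k ih =>
      intro x
      change ∫⁻ X, P k (theta X) ∂law ω x ≤ _
      rw [lintegral_theta hω.good x (hPm k)]
      refine (Finset.sum_le_sum fun e _ => mul_le_mul' le_rfl (ih _)).trans (le_of_eq ?_)
      rw [← Finset.sum_mul, ← ENNReal.ofReal_sum_of_nonneg fun e _ => ((hω.good x).1 e).le,
        (hω.good x).2, ENNReal.ofReal_one, one_mul]
  set K₀ : ℝ := R * (n * W * η)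
  set K₁ : ℝ := R * (W / (κ * η))
  have hK₀ : 0 ≤ K₀ := by positivity
  have hK₁ : 0 ≤ K₁ := by positivity
  set V' : Path d → ℝ≥0∞ := fun X => ∑ k ∈ Finset.range (2 * n), ENNReal.ofReal (V (X k))
  have hV'm : Measurable V' := Finset.measurable_sum _ fun k _ => measurable_lin V k
  have hpt : ∀ X : Path d, ∑ m ∈ Finset.Ico n (2 * n),
      ENNReal.ofReal (B * old a ψ W m X + R * recent κ A ω W m X) ≤
      ENNReal.ofReal B * ∑ k ∈ Finset.range (2 * n), P k X +
        (ENNReal.ofReal K₀ + ENNReal.ofReal K₁ * V' X) := by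
    intro X
    simp only [ENNReal.ofReal_add (mul_nonneg hB (hold0 _ X)) (mul_nonneg hR (hrec0 _ X)),
      Finset.sum_add_distrib]
    refine add_le_add ?_ ?_
    · simp only [ENNReal.ofReal_mul hB, ← Finset.mul_sum, old, hP,
        ENNReal.ofReal_sum_of_nonneg fun k (_ : k ∈ _) => L.pays_nonneg _]
      exact mul_le_mul' le_rfl (lag_sum_le
        (fun k m => ENNReal.ofReal (ψ (emb a (X m) - emb a (X k)))) n W)
    · rw [← ENNReal.ofReal_sum_of_nonneg fun m _ => mul_nonneg hR (hrec0 m X), ← Finset.mul_sum]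
      rw [show V' X = ENNReal.ofReal (∑ k ∈ Finset.range (2 * n), V (X k)) from
        (ENNReal.ofReal_sum_of_nonneg fun k _ => grad_nonneg hω.good A (X k)).symm]
      rw [← ENNReal.ofReal_mul hK₁, ← ENNReal.ofReal_add hK₀ (mul_nonneg hK₁
        (Finset.sum_nonneg fun k _ => grad_nonneg hω.good A (X k)))]
      refine ENNReal.ofReal_le_ofReal ((mul_le_mul_of_nonneg_left (hrec X) hR).trans (le_of_eq ?_))
      simp only [K₀, K₁, V]; ring
  refine (lintegral_mono hpt).trans ?_
  rw [lintegral_add_left ((Finset.measurable_sum _ fun k _ => hPm k).const_mul _),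
    lintegral_const_mul _ (Finset.measurable_sum _ fun k _ => hPm k),
    lintegral_finsetSum _ fun k _ => hPm k,
    lintegral_add_left measurable_const, lintegral_const, measure_univ, mul_one,
    lintegral_const_mul _ hV'm]
  refine le_trans (add_le_add (mul_le_mul' le_rfl (Finset.sum_le_sum fun k _ => hlag k 0))
    (add_le_add le_rfl (mul_le_mul' le_rfl (grad_sum_le hω.good hA hinv (2 * n) 0)))) ?_
  simp only [Finset.sum_const, Finset.card_range, mul_one, nsmul_eq_mul]
  rw [mul_add R, ENNReal.ofReal_add (mul_nonneg hB (mul_nonneg (Nat.cast_nonneg _) hu0))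
    (add_nonneg hK₀ hK₁), ENNReal.ofReal_add hK₀ hK₁, ENNReal.ofReal_mul hB,
    ENNReal.ofReal_mul (Nat.cast_nonneg _), ENNReal.ofReal_natCast]

/-- The quenched probability, averaged, is the annealed one. -/
lemma integral_pr [IsProbabilityMeasure μ] {s : Set (Path d)} (hs : MeasurableSet s) :
    ∫ ω, pr ω 0 s ∂iidLaw μ = (annealed μ).real s := by
  rw [measureReal_def, annealed_apply μ hs]
  exact integral_toReal (measurable_law 0 hs).aemeasurable
    (.of_forall fun ω => measure_lt_top _ _)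

omit [NeZero d] in
lemma eq_extend_of_mem {m : ℕ} {f : Fin (m + 1) → Site d} {X : Path d}
    (hX : X ∈ cyl m (extend m f)) (i : Fin (m + 1)) : X i = f i := by
  rw [hX i (Nat.lt_succ_iff.mp i.2), extend, dif_pos i.2]

/-- Sums over cylinders are bounded by the integral. -/
lemma sum_cyl_le (ω : Env d) (m : ℕ) (Q : Finset (Fin (m + 1) → Site d)) (G : Path d → ℝ)
    (hG : ∀ X X' : Path d, (∀ k ≤ m, X k = X' k) → G X = G X') (hG0 : ∀ X, 0 ≤ G X) :
    ENNReal.ofReal (∑ q ∈ Q, pr ω 0 (cyl m (extend m q)) * G (extend m q)) ≤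
      ∫⁻ X, ENNReal.ofReal (G X) ∂law ω 0 := by
  rw [ENNReal.ofReal_sum_of_nonneg fun q _ => mul_nonneg (pr_nonneg _ _ _) (hG0 _)]
  have hd : (Q : Set (Fin (m + 1) → Site d)).PairwiseDisjoint fun q => cyl m (extend m q) :=
    fun q _ q' _ hne => Set.disjoint_left.mpr fun X h h' => hne
      (funext fun i => (eq_extend_of_mem h i).symm.trans (eq_extend_of_mem h' i))
  have e : ∀ q ∈ Q, ENNReal.ofReal (pr ω 0 (cyl m (extend m q)) * G (extend m q)) =
      ∫⁻ X in cyl m (extend m q), ENNReal.ofReal (G X) ∂law ω 0 := by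
    intro q _
    rw [setLIntegral_congr_fun (measurableSet_cyl m _)
      (g := fun _ => ENNReal.ofReal (G (extend m q))), setLIntegral_const,
      ENNReal.ofReal_mul (pr_nonneg _ _ _), pr, ofReal_measureReal, mul_comm]
    intro X hX
    show ENNReal.ofReal (G X) = ENNReal.ofReal (G (extend m q))
    rw [hG X _ hX]
  rw [Finset.sum_congr rfl e, ← lintegral_biUnion_finset hd fun q _ => measurableSet_cyl m _]
  exact setLIntegral_le_lintegral _ _

/-- The error at time `m`. -/
noncomputable def err (a : Fin d → E) (ψ : E → ℝ) (κ B R : ℝ) (A : Set (Path d)) (W m : ℕ)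
    (ω : Env d) (X : Path d) : ℝ :=
  B * old a ψ W m X + R * recent κ A ω W m X

lemma err_nonneg (L : Lyap a γ κ t c θ φ ψ) {B R : ℝ} (hB : 0 ≤ B) (hR : 0 ≤ R) (A : Set (Path d))
    (W m : ℕ) (ω : Env d) (X : Path d) : 0 ≤ err a ψ κ B R A W m ω X :=
  add_nonneg (mul_nonneg hB (Finset.sum_nonneg fun _k _ => L.pays_nonneg _))
    (mul_nonneg hR (Finset.sum_nonneg fun _k _ => Real.sqrt_nonneg _))

lemma err_congr (a : Fin d → E) (ψ : E → ℝ) (κ B R : ℝ) (A : Set (Path d)) (W m : ℕ) (ω : Env d)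
    (X X' : Path d) (h : ∀ k ≤ m, X k = X' k) :
    err a ψ κ B R A W m ω X = err a ψ κ B R A W m ω X' := by
  have h1 : old a ψ W m X = old a ψ W m X' := Finset.sum_congr rfl fun k hk => by
    rw [h m le_rfl, h k (Finset.mem_range.mp (Finset.mem_filter.mp hk).1).le]
  have h2 : recent κ A ω W m X = recent κ A ω W m X' := Finset.sum_congr rfl fun k hk => by
    rw [h k (Finset.mem_range.mp (Finset.mem_filter.mp hk).1).le]
  simp only [err, h1, h2]

lemma measurable_err_env {A : Set (Path d)} (hA : MeasurableSet A) (a : Fin d → E) (ψ : E → ℝ)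
    (κ B R : ℝ) (W m : ℕ) (X : Path d) :
    Measurable fun ω : Env d => err a ψ κ B R A W m ω X := by
  simp only [err, recent]
  exact Measurable.add measurable_const (Measurable.const_mul
    (Finset.measurable_sum _ fun k _ => ((measurable_grad hA (X k)).div_const κ).sqrt) R)

lemma measurable_err_path (A : Set (Path d)) (a : Fin d → E) (ψ : E → ℝ) (κ B R : ℝ) (W m : ℕ)
    (ω : Env d) : Measurable fun X : Path d => err a ψ κ B R A W m ω X := by
  have h1 : ∀ k, Measurable fun X : Path d => ψ (emb a (X m) - emb a (X k)) := by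
    intro k
    have g2 : Measurable fun X : Path d => (X m, X k) :=
      Measurable.prodMk (measurable_pi_apply m) (measurable_pi_apply k)
    have g1 : ∀ g : Site d × Site d → ℝ, Measurable fun X : Path d => g (X m, X k) := fun g =>
      Measurable.comp (g := g) (f := fun X : Path d => (X m, X k)) (measurable_of_countable g) g2
    exact g1 fun v => ψ (emb a v.1 - emb a v.2)
  have h2 : ∀ k, Measurable fun X : Path d => Real.sqrt (grad ω A (X k) / κ) := by
    intro k
    generalize hg : (fun v : Site d => Real.sqrt (grad ω A v / κ)) = g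
    have g3 : Measurable g := measurable_of_countable g
    have e : (fun X : Path d => Real.sqrt (grad ω A (X k) / κ)) = g ∘ fun X => X k := by
      subst hg; rfl
    rw [e]
    exact g3.comp (measurable_pi_apply k)
  simp only [err, old, recent]
  exact Measurable.add (Measurable.const_mul (Finset.measurable_sum _ fun k _ => h1 k) B)
    (Measurable.const_mul (Finset.measurable_sum _ fun k _ => h2 k) R)

/-- The paths up to time `m` in `C` staying in the box of radius `M`. -/
noncomputable def pastPaths (C : Set (Path d)) (M m : ℕ) : Finset (Fin (m + 1) → Site d) :=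
  open Classical in
  (Fintype.piFinset fun _ : Fin (m + 1) => box (0 : Site d) M).filter fun q => extend m q ∈ C

/-- Visited rows in the box are replaced at the cost of the error. -/
lemma core [IsProbabilityMeasure μ] (hμ : ∀ᵐ p ∂μ, NiceRow a γ κ p)
    (L : Lyap a γ κ t c θ φ ψ) (hκ : 0 < κ) {e₀ : Step d} (hθ : φ (emb a (move e₀)) ≤ θ)
    {A : Set (Path d)} (hA : MeasurableSet A) (hinv : theta ⁻¹' A = A) (N W m : ℕ) {B : ℝ}
    (hB0 : 0 ≤ B) (hB : ∀ y : E, ‖y‖ ≤ (N : ℝ) * ∑ i, ‖a i‖ → 1 ≤ B * ψ y) (X : Path d) :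
    ∀ᵐ ω ∂iidLaw μ, pr ω (X m) A ≤
      avg μ ((Finset.range m).image X ∩ box (X m) N) (fun η => pr η (X m) A) ω +
        err a ψ κ B (κ * (1 - θ))⁻¹ A W m ω X := by
  set ρ := κ * (1 - θ) with hρdef
  have hρ : 0 < ρ := mul_pos hκ (sub_pos.mpr L.θlt)
  set z := X m
  set U := (Finset.range m).image X ∩ box z N
  have hnice := ae_nice μ hμ
  filter_upwards [hnice] with ω hω
  have hnn : 0 ≤ avg μ U (fun η => pr η z A) ω := integral_nonneg fun _ => pr_nonneg _ _ _
  by_cases hold : ∃ k ∈ (Finset.range m).filter (fun k => k + W ≤ m), X k ∈ box z N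
  · obtain ⟨k, hk, hkD⟩ := hold
    have h1 : 1 ≤ B * old a ψ W m X := (hB _ (norm_emb_sub_le a hkD)).trans
      (mul_le_mul_of_nonneg_left (Finset.single_le_sum
        (f := fun k => ψ (emb a z - emb a (X k))) (fun i _ => L.pays_nonneg _) hk) hB0)
    have h2 : 0 ≤ ρ⁻¹ * recent κ A ω W m X :=
      mul_nonneg (inv_nonneg.mpr hρ.le) (Finset.sum_nonneg fun k _ => Real.sqrt_nonneg _)
    simp only [err]
    linarith [pr_le_one ω z A]
  · push Not at hold
    have hsub : U ⊆ ((Finset.range m).filter fun k => m < k + W).image X := by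
      intro y hy
      simp only [U, Finset.mem_inter, Finset.mem_image] at hy
      obtain ⟨⟨k, hk, rfl⟩, hyD⟩ := hy
      refine Finset.mem_image_of_mem _ (Finset.mem_filter.mpr ⟨hk, ?_⟩)
      by_contra hcon
      exact hold k (Finset.mem_filter.mpr ⟨hk, by omega⟩) hyD
    have hrec : ∑ y ∈ U, Real.sqrt (grad ω A y / κ) ≤ recent κ A ω W m X :=
      (Finset.sum_le_sum_of_subset_of_nonneg hsub fun y _ _ => Real.sqrt_nonneg _).trans
        (Finset.sum_image_le_of_nonneg fun y _ => Real.sqrt_nonneg _)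
    have hbd : Bdd 1 fun ζ : Env d => pr (U.piecewise ζ ω) z A :=
      (bdd_pr hA z).comp (measurable_slot U ω)
    have hpt : ∀ᵐ ζ ∂iidLaw μ,
        pr ω z A ≤ pr (U.piecewise ζ ω) z A + err a ψ κ B ρ⁻¹ A W m ω X := by
      filter_upwards [hnice] with ζ hζ
      have hω' := nice_piecewise hζ hω U
      have hc := L.abs_change hκ hθ hω hω' (U := U)
        (fun x hx => (Finset.piecewise_eq_of_notMem _ _ _ hx).symm) hA hinv z
      rw [← hρdef] at hc
      have hle : ∑ y ∈ U, Real.sqrt (grad ω A y / κ) *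
          pr (U.piecewise ζ ω) z (avoid {y})ᶜ / ρ ≤ ρ⁻¹ * recent κ A ω W m X := by
        rw [← Finset.sum_div, div_eq_inv_mul]
        refine mul_le_mul_of_nonneg_left (le_trans (Finset.sum_le_sum fun y _ => ?_) hrec)
          (inv_nonneg.mpr hρ.le)
        exact mul_le_of_le_one_right (Real.sqrt_nonneg _) (pr_le_one _ _ _)
      have h2 : 0 ≤ B * old a ψ W m X :=
        mul_nonneg hB0 (Finset.sum_nonneg fun k _ => L.pays_nonneg _)
      have := (abs_le.mp (hc.trans hle)).1
      simp only [err]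
      linarith
    have hint : Integrable (fun ζ => pr (U.piecewise ζ ω) z A + err a ψ κ B ρ⁻¹ A W m ω X)
        (iidLaw μ) := hbd.integrable.add (integrable_const _)
    calc pr ω z A = ∫ _ζ, pr ω z A ∂iidLaw μ := by simp
      _ ≤ ∫ ζ, pr (U.piecewise ζ ω) z A + err a ψ κ B ρ⁻¹ A W m ω X ∂iidLaw μ :=
          integral_mono_ae (integrable_const _) hint hpt
      _ = _ := by
          rw [integral_add hbd.integrable (integrable_const _)]
          simp [avg]

/-- Rows of the box which the path has not visited can be averaged out. -/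
lemma swap [IsProbabilityMeasure μ] {A : Set (Path d)} (hA : MeasurableSet A) (N m : ℕ)
    (p : Path d) :
    ∫ ω, pr ω 0 (cyl m p) *
        avg μ ((Finset.range m).image p ∩ box (p m) N) (fun η => pr η (p m) A) ω ∂iidLaw μ =
      ∫ ω, pr ω 0 (cyl m p) * blur μ A N (p m) ω ∂iidLaw μ := by
  set D := box (p m) N
  set U := (Finset.range m).image p ∩ D
  have hw : Bdd 1 fun ω : Env d => pr ω 0 (cyl m p) := bdd_pr (measurableSet_cyl m p) 0
  have hwS : ∀ η ω : Env d, pr ((D \ U).piecewise η ω) 0 (cyl m p) = pr ω 0 (cyl m p) := by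
    intro η ω
    simp only [pr, measureReal_def, law_cyl]
    refine congrArg ENNReal.toReal (congrArg _ (Finset.prod_congr rfl fun k hk => ?_))
    rw [Finset.piecewise_eq_of_notMem _ _ _ (fun hmem => ?_)]
    obtain ⟨h1, h2⟩ := Finset.mem_sdiff.mp hmem
    exact h2 (Finset.mem_inter.mpr ⟨Finset.mem_image_of_mem _ hk, h1⟩)
  rw [← integral_mul_avg ((bdd_pr hA (p m)).avg U) hw _ hwS]
  refine integral_congr_ae (.of_forall fun ω => ?_)
  dsimp only
  rw [avg_avg (bdd_pr hA (p m)), Finset.union_sdiff_of_subset (Finset.inter_subset_right)]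
  rfl

lemma le_sum_past {A C : Set (Path d)} (hA : MeasurableSet A) (hinv : theta ⁻¹' A = A)
    {n m M : ℕ} (hdet : ∀ m ≥ n, ∀ X X' : Path d, (∀ k ≤ m, X k = X' k) → X ∈ C → X' ∈ C)
    (hmn : n ≤ m) (hmM : m ≤ M) {ω : Env d} (hω : Good ω) :
    pr ω 0 (C ∩ A) ≤ ∑ q ∈ pastPaths C M m,
      pr ω 0 (cyl m (extend m q)) * pr ω (extend m q m) A := by
  calc pr ω 0 (C ∩ A)
      ≤ (law ω 0).real (⋃ q ∈ pastPaths C M m, cyl m (extend m q) ∩ A) := by
        refine ENNReal.toReal_mono (measure_ne_top _ _) (measure_mono_ae ?_)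
        filter_upwards [ae_range ω 0] with X hX hmem
        obtain ⟨hXC, hXA⟩ := hmem
        have hq : ∀ k ≤ m, X k = extend m (fun i : Fin (m + 1) => X i) k := fun k hk => by
          rw [extend, dif_pos (Nat.lt_succ_of_le hk)]
        show X ∈ ⋃ q ∈ pastPaths C M m, cyl m (extend m q) ∩ A
        refine Set.mem_biUnion (x := fun i : Fin (m + 1) => X i) ?_ ⟨hq, hXA⟩
        simp only [pastPaths, Finset.coe_filter, Set.mem_ofPred_eq, Fintype.mem_piFinset]
        refine ⟨fun i => mem_box.mpr fun j => (hX i j).trans ?_, hdet m hmn X _ hq hXC⟩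
        have := i.2
        omega
    _ ≤ ∑ q ∈ pastPaths C M m, (law ω 0).real (cyl m (extend m q) ∩ A) :=
        measureReal_biUnion_finset_le _ _
    _ = _ := by
        refine Finset.sum_congr rfl fun q _ => ?_
        rw [measureReal_def, law_cyl_inter hω hA hinv, ENNReal.toReal_mul]
        rfl

lemma sum_weight_le {C : Set (Path d)} {n m M : ℕ}
    (hdet : ∀ m ≥ n, ∀ X X' : Path d, (∀ k ≤ m, X k = X' k) → X ∈ C → X' ∈ C) (hmn : n ≤ m)
    (ω : Env d) : ∑ q ∈ pastPaths C M m, pr ω 0 (cyl m (extend m q)) ≤ pr ω 0 C := by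
  simp only [pr]
  rw [← measureReal_biUnion_finset (fun q _ q' _ hne => Set.disjoint_left.mpr fun X h h' => hne
    (funext fun i => (eq_extend_of_mem h i).symm.trans (eq_extend_of_mem h' i)))
    fun q _ => measurableSet_cyl m _]
  refine measureReal_mono fun X hX => ?_
  simp only [Set.mem_iUnion] at hX
  obtain ⟨q, hq, hXq⟩ := hX
  simp only [pastPaths, Finset.mem_filter] at hq
  exact hdet m hmn (extend m q) X (fun k hk => (hXq k hk).symm) hq.2

/-- Some time between `n` and `2n` has a small expected error. -/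
lemma exists_good_time [IsProbabilityMeasure μ] (hμ : ∀ᵐ p ∂μ, NiceRow a γ κ p)
    (L : Lyap a γ κ t c θ φ ψ) (hκ : 0 < κ) {A : Set (Path d)} (hA : MeasurableSet A)
    (hinv : theta ⁻¹' A = A) (C : Set (Path d)) {n : ℕ} (hn : 0 < n) (W : ℕ) {B R η l : ℝ}
    (hB : 0 ≤ B) (hR : 0 ≤ R) (hη : 0 < η) (hl0 : 0 < l) (hl1 : l ≤ 1) :
    ∃ m ∈ Finset.Ico n (2 * n),
      (∀ q ∈ pastPaths C (2 * n) m, Integrable (fun ω =>
        pr ω 0 (cyl m (extend m q)) * err a ψ κ B R A W m ω (extend m q)) (iidLaw μ)) ∧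
      ∑ q ∈ pastPaths C (2 * n) m, ∫ ω,
        pr ω 0 (cyl m (extend m q)) * err a ψ κ B R A W m ω (extend m q) ∂iidLaw μ ≤
      (B * ((2 * n : ℕ) * ((1 - c * l) ^ W + l ^ t)) + R * (n * W * η + W / (κ * η))) / n := by
  set Q := fun m => pastPaths C (2 * n) m
  set F : (m : ℕ) → (Fin (m + 1) → Site d) → Env d → ℝ := fun m q ω =>
    pr ω 0 (cyl m (extend m q)) * err a ψ κ B R A W m ω (extend m q) with hF
  set K := B * ((2 * n : ℕ) * ((1 - c * l) ^ W + l ^ t)) + R * (n * W * η + W / (κ * η))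
  have hK0 : 0 ≤ K := by
    have h1 : 0 ≤ (1 - c * l) ^ W + l ^ t := add_nonneg (pow_nonneg (sub_nonneg.mpr
      (mul_le_one₀ L.cle hl0.le hl1)) _) (Real.rpow_nonneg hl0.le _)
    positivity
  have hF0 : ∀ m q ω, 0 ≤ F m q ω := fun m q ω =>
    mul_nonneg (pr_nonneg _ _ _) (err_nonneg L hB hR A W m ω _)
  have hFm : ∀ m q, Measurable (F m q) := fun m q =>
    (bdd_pr (measurableSet_cyl m _) 0).1.mul (measurable_err_env hA a ψ κ B R W m _)
  set S : ℕ → Env d → ℝ := fun m ω => ∑ q ∈ Q m, F m q ω with hS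
  have hS0 : ∀ m ω, 0 ≤ S m ω := fun m ω => Finset.sum_nonneg fun q _ => hF0 m q ω
  have htot : ∀ᵐ ω ∂iidLaw μ, ∑ m ∈ Finset.Ico n (2 * n), S m ω ≤ K := by
    filter_upwards [ae_nice μ hμ] with ω hω
    rw [← ENNReal.ofReal_le_ofReal_iff hK0, ENNReal.ofReal_sum_of_nonneg fun m _ => hS0 m ω]
    refine (Finset.sum_le_sum fun m _ => sum_cyl_le ω m (Q m) (err a ψ κ B R A W m ω)
      (err_congr a ψ κ B R A W m ω) (err_nonneg L hB hR A W m ω)).trans ?_
    rw [← lintegral_finsetSum _ fun m _ =>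
      (measurable_err_path A a ψ κ B R W m ω).ennreal_ofReal]
    exact past_sum_le L hκ hω hA hinv n W hB hR hη hl0 hl1
  have hFi : ∀ m ∈ Finset.Ico n (2 * n), ∀ q ∈ Q m, Integrable (F m q) (iidLaw μ) :=
    fun m hm q hq => .of_bound (hFm m q).aestronglyMeasurable K (htot.mono fun ω hω => by
      rw [Real.norm_eq_abs, abs_of_nonneg (hF0 m q ω)]
      exact ((Finset.single_le_sum (fun i _ => hF0 m i ω) hq).trans
        (Finset.single_le_sum (fun i _ => hS0 i ω) hm)).trans hω)
  have hSi : ∀ m ∈ Finset.Ico n (2 * n), Integrable (S m) (iidLaw μ) := fun m hm =>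
    integrable_finsetSum _ (hFi m hm)
  obtain ⟨m, hm, hIm⟩ : ∃ m ∈ Finset.Ico n (2 * n), ∫ ω, S m ω ∂iidLaw μ ≤ K / n := by
    refine Finset.exists_le_of_sum_le (Finset.nonempty_Ico.mpr (by omega)) ?_
    rw [← integral_finsetSum _ hSi, Finset.sum_const, Nat.card_Ico, nsmul_eq_mul,
      show 2 * n - n = n by omega, mul_div_cancel₀ _ (Nat.cast_ne_zero.mpr (by omega))]
    exact (integral_mono_ae (integrable_finsetSum _ hSi) (integrable_const K) htot).trans
      (by simp)
  refine ⟨m, hm, hFi m hm, ?_⟩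
  rw [← integral_finsetSum _ (hFi m hm)]
  exact hIm

/-- A past event and a later escape: the main estimate at finite scale. -/
lemma decouple_scale [IsProbabilityMeasure μ] (hμ : ∀ᵐ p ∂μ, NiceRow a γ κ p)
    (L : Lyap a γ κ t c θ φ ψ) (hκ : 0 < κ) {e₀ : Step d} (hθ : φ (emb a (move e₀)) ≤ θ)
    {A C : Set (Path d)} (hA : MeasurableSet A) (hinv : theta ⁻¹' A = A) (hC : MeasurableSet C)
    {p : ℝ} (hp : ∀ z, ∫ η, pr η z A ∂iidLaw μ = p) (hp0 : 0 ≤ p) {n : ℕ}
    (hdet : ∀ m ≥ n, ∀ X X' : Path d, (∀ k ≤ m, X k = X' k) → X ∈ C → X' ∈ C) (hn : 0 < n)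
    (N W : ℕ) {B η δ s l s' : ℝ} (hB0 : 0 ≤ B)
    (hB : ∀ y : E, ‖y‖ ≤ (N : ℝ) * ∑ i, ‖a i‖ → 1 ≤ B * ψ y) (hη : 0 < η) (hδ : 0 ≤ δ)
    (hs0 : 0 < s) (hs1 : s ≤ 1) (hs0' : 0 < s') (hs1' : s' ≤ 1) (hl0 : 0 < l)
    (hl : l ^ 2 * (((1 - c * s) ^ N + s ^ t) / (κ * (κ * (1 - θ)) ^ 2)) ≤ 1 / 4) :
    (annealed μ).real (C ∩ A) ≤ (p + δ) * (annealed μ).real C +
      (((2 * (2 * n) + 1) ^ d : ℕ) : ℝ) * Real.exp (2 - l * δ) +
      (B * ((2 * n : ℕ) * ((1 - c * s') ^ W + s' ^ t)) +
        (κ * (1 - θ))⁻¹ * (n * W * η + W / (κ * η))) / n := by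
  have hR : 0 ≤ (κ * (1 - θ))⁻¹ := inv_nonneg.mpr (mul_pos hκ (sub_pos.mpr L.θlt)).le
  obtain ⟨m, hm, hFi, hIm⟩ := exists_good_time (C := C) hμ L hκ hA hinv hn W hB0 hR hη hs0' hs1'
  obtain ⟨hmn, hm2⟩ := Finset.mem_Ico.mp hm
  set Q := pastPaths C (2 * n) m
  set Bad : Set (Env d) := ⋃ z ∈ box (0 : Site d) (2 * n), {ω | δ < blur μ A N z ω - p}
  have hBadm : MeasurableSet Bad := Finset.measurableSet_biUnion _ fun z _ =>
    measurableSet_lt measurable_const (((bdd_pr hA z).avg (μ := μ) _).1.sub_const p)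
  have hBad : (iidLaw μ).real Bad ≤
      (((2 * (2 * n) + 1) ^ d : ℕ) : ℝ) * Real.exp (2 - l * δ) := by
    refine (measureReal_biUnion_finset_le _ _).trans ((Finset.sum_le_sum fun z _ =>
      blur_concentration hμ L hκ hθ hA hinv z (hp z) N hs0 hs1 hl0 hl δ).trans (le_of_eq ?_))
    rw [Finset.sum_const, card_box, nsmul_eq_mul]
  set w : (Fin (m + 1) → Site d) → Env d → ℝ := fun q ω => pr ω 0 (cyl m (extend m q))
  have hw : ∀ q, Bdd 1 (w q) := fun q => bdd_pr (measurableSet_cyl m _) 0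
  have hwh : ∀ q, Integrable (fun ω => w q ω * pr ω (extend m q m) A) (iidLaw μ) := fun q =>
    ((hw q).mul (bdd_pr hA _)).integrable
  have hwb : ∀ q, Integrable (fun ω => w q ω * blur μ A N (extend m q m) ω) (iidLaw μ) := fun q =>
    ((hw q).mul ((bdd_pr hA _).avg _)).integrable
  have hlow : (annealed μ).real (C ∩ A) ≤
      ∑ q ∈ Q, ∫ ω, w q ω * pr ω (extend m q m) A ∂iidLaw μ := by
    rw [← integral_pr (hC.inter hA), ← integral_finsetSum _ fun q _ => hwh q]
    exact integral_mono_ae (bdd_pr (hC.inter hA) 0).integrable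
      (integrable_finsetSum _ fun q _ => hwh q)
      ((ae_nice μ hμ).mono fun ω hω => le_sum_past hA hinv hdet hmn hm2.le hω.good)
  have hq : ∀ q ∈ Q, ∫ ω, w q ω * pr ω (extend m q m) A ∂iidLaw μ ≤
      ∫ ω, w q ω * blur μ A N (extend m q m) ω ∂iidLaw μ +
        ∫ ω, w q ω * err a ψ κ B (κ * (1 - θ))⁻¹ A W m ω (extend m q) ∂iidLaw μ := by
    intro q hq
    have hcore := core hμ L hκ hθ hA hinv N W m hB0 hB (extend m q)
    have i2 : Integrable (fun ω => w q ω * avg μ
        ((Finset.range m).image (extend m q) ∩ box (extend m q m) N)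
          (fun η => pr η (extend m q m) A) ω) (iidLaw μ) :=
      ((hw q).mul ((bdd_pr hA _).avg _)).integrable
    rw [← swap hA N m (extend m q), ← integral_add i2 (hFi q hq)]
    refine integral_mono_ae (hwh q) (i2.add (hFi q hq)) (hcore.mono fun ω hω => ?_)
    simp only [w, ← mul_add]
    exact mul_le_mul_of_nonneg_left hω (pr_nonneg _ _ _)
  have hmain : ∀ ω, ∑ q ∈ Q, w q ω * blur μ A N (extend m q m) ω ≤
      (p + δ) * pr ω 0 C + Bad.indicator (fun _ => (1 : ℝ)) ω := by
    intro ω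
    have hblur : ∀ q ∈ Q, blur μ A N (extend m q m) ω ≤
        p + δ + Bad.indicator (fun _ => (1 : ℝ)) ω := by
      intro q hq
      set z := extend m q m
      have hz : z ∈ box (0 : Site d) (2 * n) := by
        simp only [Q, pastPaths, Finset.mem_filter, Fintype.mem_piFinset] at hq
        simp only [z, extend, dif_pos (Nat.lt_succ_self m)]
        exact hq.1 _
      by_cases hω : δ < blur μ A N z ω - p
      · rw [Set.indicator_of_mem (show ω ∈ Bad from Set.mem_biUnion (x := z) hz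
          (show ω ∈ {ω | δ < blur μ A N z ω - p} from hω))]
        have h1 := (abs_le.mp (((bdd_pr hA z).avg (μ := μ) (box z N)).2 ω)).2
        simp only [blur] at h1 ⊢
        linarith
      · have h0 := Set.indicator_nonneg (s := Bad) (fun _ _ => zero_le_one (α := ℝ)) ω
        linarith
    refine (Finset.sum_le_sum fun q hq => mul_le_mul_of_nonneg_left (hblur q hq)
      (pr_nonneg _ _ _)).trans ?_
    have hsum := sum_weight_le (M := 2 * n) hdet hmn ω
    rw [← Finset.sum_mul, mul_add (∑ q ∈ Q, w q ω)]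
    refine add_le_add ?_ ?_
    · rw [mul_comm]
      exact mul_le_mul_of_nonneg_left hsum (by linarith)
    · exact mul_le_of_le_one_left (Set.indicator_nonneg (fun _ _ => zero_le_one) ω)
        (hsum.trans (pr_le_one _ _ _))
  refine hlow.trans ((Finset.sum_le_sum hq).trans ?_)
  rw [Finset.sum_add_distrib, ← integral_finsetSum _ fun q _ => hwb q]
  refine add_le_add ?_ hIm
  have i3 : Integrable (fun ω => (p + δ) * pr ω 0 C) (iidLaw μ) :=
    (bdd_pr hC 0).integrable.const_mul _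
  have i4 : Integrable (Bad.indicator fun _ => (1 : ℝ)) (iidLaw μ) :=
    (integrable_const (1 : ℝ)).indicator hBadm
  refine (integral_mono (integrable_finsetSum _ fun q _ => hwb q) (i3.add i4) hmain).trans ?_
  rw [integral_add' i3 i4, integral_const_mul, integral_pr hC, integral_indicator_const _ hBadm,
    smul_eq_mul, mul_one]
  exact add_le_add le_rfl hBad

/-- A past event and a later escape are asymptotically independent. -/
lemma decouple [IsProbabilityMeasure μ] (hμ : ∀ᵐ p ∂μ, NiceRow a γ κ p) (hγ : 2 < γ)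
    (hκ : 0 < κ) {e₀ : Step d} (he₀ : emb a (move e₀) ≠ 0)
    {A C : Set (Path d)} (hA : MeasurableSet A) (hinv : theta ⁻¹' A = A) (hC : MeasurableSet C)
    {p : ℝ} (hp : ∀ z, ∫ η, pr η z A ∂iidLaw μ = p) (hp0 : 0 ≤ p) {n₀ : ℕ}
    (hdet : ∀ m ≥ n₀, ∀ X X' : Path d, (∀ k ≤ m, X k = X' k) → X ∈ C → X' ∈ C) :
    (annealed μ).real (C ∩ A) ≤ p * (annealed μ).real C := by
  obtain ⟨t, c, θ, φ, ψ, L, hθ, b, hb, hψ⟩ := exists_lyap a hγ hκ he₀
  refine le_of_forall_pos_le_add fun δ hδ => ?_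
  set ρ := κ * (1 - θ) with hρdef
  have hρ : 0 < ρ := mul_pos hκ (sub_pos.mpr L.θlt)
  obtain ⟨J₀, hJ₀⟩ := exists_nat_gt ((4 * (t + 1) + 1) / t)
  set J := J₀ + 1 with hJdef
  have hJ : 4 * (t + 1) + 1 ≤ (J : ℝ) * t := by
    rw [div_lt_iff₀ L.pos] at hJ₀
    rw [hJdef]; push_cast
    nlinarith [L.pos]
  set Lsum := ∑ i, ‖a i‖
  set q₀ : ℝ := Real.sqrt (κ * ρ ^ 2 / 8)
  have hq₀ : 0 < q₀ := Real.sqrt_pos.mpr (by positivity)
  set Ks : ℝ := 1 + Lsum ^ 2
  have hKs : 1 ≤ Ks := le_add_of_nonneg_right (sq_nonneg _)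
  -- the two elementary limits
  have hexp : ∀ᶠ x : ℝ in atTop, Real.exp (-(c * x)) ≤ x ^ (-t) := by
    filter_upwards [(tendsto_rpow_mul_exp_neg_mul_atTop_nhds_zero t c L.cpos).eventually
      (gt_mem_nhds one_pos), eventually_gt_atTop (0 : ℝ)] with x hx hx0
    rw [Real.rpow_neg hx0.le, ← one_div, le_div_iff₀ (Real.rpow_pos_of_pos hx0 _), mul_comm,
      ← neg_mul]
    exact hx.le
  have hcast : Tendsto (fun N : ℕ => (N : ℝ)) atTop atTop := tendsto_natCast_atTop_atTop
  have hbad : Tendsto (fun N : ℕ => (5 : ℝ) ^ d * Real.exp 2 *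
      (((N : ℝ) ^ (t / 2)) ^ ((16 * (J : ℝ) * d) / t) *
        Real.exp (-(q₀ * δ) * (N : ℝ) ^ (t / 2)))) atTop (𝓝 0) := by
    have h := ((tendsto_rpow_mul_exp_neg_mul_atTop_nhds_zero ((16 * (J : ℝ) * d) / t) (q₀ * δ)
      (mul_pos hq₀ hδ)).comp ((tendsto_rpow_atTop (half_pos L.pos)).comp hcast)).const_mul
      ((5 : ℝ) ^ d * Real.exp 2)
    simpa using h
  have herr : Tendsto (fun N : ℕ => (4 * Ks ^ (t + 1) / b + ρ⁻¹ * (1 + 1 / κ)) / (N : ℝ))
      atTop (𝓝 0) := hcast.const_div_atTop _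
  have hlim : Tendsto (fun N : ℕ => (p + δ) * (annealed μ).real C +
      ((5 : ℝ) ^ d * Real.exp 2 *
      (((N : ℝ) ^ (t / 2)) ^ ((16 * (J : ℝ) * d) / t) *
        Real.exp (-(q₀ * δ) * (N : ℝ) ^ (t / 2))) +
      (4 * Ks ^ (t + 1) / b + ρ⁻¹ * (1 + 1 / κ)) / (N : ℝ))) atTop
      (𝓝 ((p + δ) * (annealed μ).real C)) := by
    simpa using (hbad.add herr).const_add ((p + δ) * (annealed μ).real C)
  have hgoal : p * (annealed μ).real C + δ ≥ (p + δ) * (annealed μ).real C := by
    nlinarith [measureReal_le_one (μ := annealed μ) (s := C)]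
  refine le_trans ?_ hgoal
  refine ge_of_tendsto hlim ?_
  filter_upwards [eventually_ge_atTop n₀, eventually_ge_atTop 2,
    hcast.eventually hexp,
    ((tendsto_pow_atTop (α := ℝ) (show J ≠ 0 by omega)).comp hcast).eventually hexp]
    with N hN0 hN2 hexp1 hexpJ
  have hN1 : (1 : ℝ) ≤ N := by exact_mod_cast (by omega : 1 ≤ N)
  have hNpos : (0 : ℝ) < N := zero_lt_one.trans_le hN1
  set x : ℝ := (N : ℝ)
  set n := N ^ (8 * J)
  have hn : N ≤ n := Nat.le_self_pow (by omega) N
  have hpowc : ∀ (l : ℝ) (W : ℕ), 0 < l → l ≤ 1 → (1 - c * l) ^ W ≤ Real.exp (-(c * (l * W))) := by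
    intro l W h0 h1
    rw [show -(c * (l * W)) = (W : ℝ) * (-(c * l)) by ring, Real.exp_nat_mul]
    exact pow_le_pow_left₀ (sub_nonneg.mpr (mul_le_one₀ L.cle h0.le h1))
      (by linarith [Real.add_one_le_exp (-(c * l))]) W
  -- the hitting bound at radius `N^2`
  have hhit : (1 - c * x⁻¹) ^ (N ^ 2) + x⁻¹ ^ t ≤ 2 * x ^ (-t) := by
    have h1 := hpowc x⁻¹ (N ^ 2) (inv_pos.mpr hNpos) (inv_le_one_of_one_le₀ hN1)
    rw [show x⁻¹ * ((N ^ 2 : ℕ) : ℝ) = x by
      push_cast; rw [pow_two, ← mul_assoc, inv_mul_cancel₀ hNpos.ne', one_mul]] at h1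
    rw [Real.inv_rpow hNpos.le, ← Real.rpow_neg hNpos.le]
    linarith
  have hhitJ : (1 - c * (x ^ J)⁻¹) ^ (N ^ (2 * J)) + ((x ^ J)⁻¹) ^ t ≤ 2 * (x ^ J) ^ (-t) := by
    have hpos : 0 < x ^ J := pow_pos hNpos J
    have h1 := hpowc (x ^ J)⁻¹ (N ^ (2 * J)) (inv_pos.mpr hpos)
      (inv_le_one_of_one_le₀ (one_le_pow₀ hN1))
    rw [show (x ^ J)⁻¹ * ((N ^ (2 * J) : ℕ) : ℝ) = x ^ J by
      push_cast; rw [pow_mul', pow_two, ← mul_assoc, inv_mul_cancel₀ hpos.ne', one_mul]] at h1
    rw [Real.inv_rpow hpos.le, ← Real.rpow_neg hpos.le]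
    simp only [Function.comp] at hexpJ
    linarith
  set B := (Ks * x ^ (4 : ℕ)) ^ (t + 1) / b with hBdef
  have hB0 : 0 ≤ B := by positivity
  have hB : ∀ y : E, ‖y‖ ≤ ((N ^ 2 : ℕ) : ℝ) * Lsum → 1 ≤ B * ψ y := by
    intro y hy
    have hx4 : (1 : ℝ) ≤ Ks * x ^ (4 : ℕ) := one_le_mul_of_one_le_of_one_le hKs (one_le_pow₀ hN1)
    have hsq : ‖y‖ ^ 2 ≤ Ks * x ^ (4 : ℕ) := by
      refine (pow_le_pow_left₀ (norm_nonneg _) hy 2).trans ?_
      push_cast
      simp only [Ks]
      nlinarith [pow_nonneg hNpos.le 4]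
    refine le_trans (le_of_eq ?_) (mul_le_mul_of_nonneg_left (hψ y _ hx4 hsq) hB0)
    rw [Real.rpow_neg (by positivity), hBdef]
    field_simp
  set l : ℝ := q₀ * x ^ (t / 2)
  have hl : l ^ 2 * (((1 - c * x⁻¹) ^ (N ^ 2) + x⁻¹ ^ t) / (κ * ρ ^ 2)) ≤ 1 / 4 := by
    refine (mul_le_mul_of_nonneg_left (div_le_div_of_nonneg_right hhit (by positivity))
      (sq_nonneg _)).trans (le_of_eq ?_)
    simp only [l, q₀]
    rw [mul_pow, Real.sq_sqrt (by positivity), ← Real.rpow_natCast (x ^ (t / 2)),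
      ← Real.rpow_mul hNpos.le, Real.rpow_neg hNpos.le]
    have hxt : 0 < x ^ t := Real.rpow_pos_of_pos hNpos _
    rw [show t / 2 * ((2 : ℕ) : ℝ) = t by push_cast; ring]
    field_simp
    ring
  have hscale := decouple_scale hμ L hκ hθ hA hinv hC hp hp0 (n := n)
    (fun m hm => hdet m (by omega)) (by omega) (N ^ 2) (N ^ (2 * J)) (η := (x ^ (4 * J))⁻¹)
    (δ := δ) hB0 hB (by positivity) hδ.le (inv_pos.mpr hNpos) (inv_le_one_of_one_le₀ hN1)
    (inv_pos.mpr (pow_pos hNpos J)) (inv_le_one_of_one_le₀ (one_le_pow₀ hN1))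
    (mul_pos hq₀ (Real.rpow_pos_of_pos hNpos _)) hl
  refine hscale.trans ?_
  rw [add_assoc]
  refine add_le_add le_rfl (add_le_add ?_ ?_)
  · have hcard : (((2 * (2 * n) + 1) ^ d : ℕ) : ℝ) ≤
        (5 : ℝ) ^ d * ((x ^ (t / 2)) ^ ((16 * (J : ℝ) * d) / t)) := by
      have h1 : ((2 * (2 * n) + 1 : ℕ) : ℝ) ≤ 5 * x ^ (8 * J) := by
        have h' : 2 * (2 * n) + 1 ≤ 5 * n := by omega
        calc ((2 * (2 * n) + 1 : ℕ) : ℝ) ≤ ((5 * n : ℕ) : ℝ) := Nat.cast_le.mpr h'
          _ = 5 * x ^ (8 * J) := by simp only [n, x]; push_cast; ring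
      rw [Nat.cast_pow]
      refine (pow_le_pow_left₀ (Nat.cast_nonneg _) h1 d).trans (le_of_eq ?_)
      rw [mul_pow, ← Real.rpow_mul hNpos.le, ← pow_mul, ← Real.rpow_natCast x]
      congr 2
      have ht := L.pos.ne'
      rw [div_mul_div_comm, eq_div_iff (mul_ne_zero two_ne_zero ht)]
      push_cast
      ring
    refine (mul_le_mul_of_nonneg_right hcard (Real.exp_pos _).le).trans (le_of_eq ?_)
    rw [show (2 : ℝ) - l * δ = 2 + -(q₀ * δ) * x ^ (t / 2) by simp only [l]; ring, Real.exp_add]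
    ring
  · have hnx : ((n : ℕ) : ℝ) = x ^ (8 * J) := Nat.cast_pow N _
    have hWx : ((N ^ (2 * J) : ℕ) : ℝ) = x ^ (2 * J) := Nat.cast_pow N _
    push_cast
    have hn0 : (0 : ℝ) < x ^ (8 * J) := pow_pos hNpos _
    simp only [show ((n : ℕ) : ℝ) = x ^ (8 * J) from hnx]
    rw [add_div]
    rw [add_div (4 * Ks ^ (t + 1) / b)]
    refine add_le_add ?_ ?_
    · refine (div_le_div_of_nonneg_right (mul_le_mul_of_nonneg_left (mul_le_mul_of_nonneg_left
        hhitJ (by positivity)) hB0) hn0.le).trans ?_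
      have e1 : B * (2 * x ^ (8 * J) * (2 * (x ^ J) ^ (-t))) / x ^ (8 * J) =
          4 * Ks ^ (t + 1) / b * (x ^ (4 * (t + 1)) * (x ^ J) ^ (-t)) := by
        rw [hBdef, Real.mul_rpow (by linarith) (by positivity), ← Real.rpow_natCast x 4,
          ← Real.rpow_mul hNpos.le]
        push_cast
        field_simp
        ring
      rw [e1, div_eq_mul_inv (4 * Ks ^ (t + 1) / b) x]
      refine mul_le_mul_of_nonneg_left ?_ (by positivity)
      rw [← Real.rpow_natCast x J, ← Real.rpow_mul hNpos.le, ← Real.rpow_add hNpos,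
        ← Real.rpow_neg_one x]
      exact Real.rpow_le_rpow_of_exponent_le hN1 (by linarith)
    · have e2 : ρ⁻¹ * (x ^ (8 * J) * x ^ (2 * J) * (x ^ (4 * J))⁻¹ +
          x ^ (2 * J) / (κ * (x ^ (4 * J))⁻¹)) / x ^ (8 * J) =
          ρ⁻¹ * (1 + 1 / κ) * (x ^ (2 * J))⁻¹ := by
        have a1 : x ^ (4 * J) = x ^ (2 * J) * x ^ (2 * J) := by rw [← pow_add]; ring_nf
        have a2 : x ^ (8 * J) = x ^ (4 * J) * x ^ (4 * J) := by rw [← pow_add]; ring_nf
        have : x ^ (2 * J) ≠ 0 := (pow_pos hNpos _).ne'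
        rw [a2, a1]
        field_simp
      rw [e2, div_eq_mul_inv _ x]
      refine mul_le_mul_of_nonneg_left ?_ (by positivity)
      exact inv_anti₀ hNpos (le_self_pow₀ hN1 (by omega))

/-- The directional zero-one law for walks with a transient driftless projection. -/
theorem zero_one_transient [IsProbabilityMeasure μ] (hμ : ∀ᵐ p ∂μ, NiceRow a γ κ p)
    (hγ : 2 < γ) (hκ : 0 < κ) {e₀ : Step d} (he₀ : emb a (move e₀) ≠ 0) (ℓ : Fin d → ℝ) :
    annealed μ (escape ℓ) = 0 ∨ annealed μ (escape ℓ) = 1 := by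
  set A := escape (d := d) ℓ
  have hA : MeasurableSet A := measurableSet_escape ℓ
  set p := (annealed μ).real A
  have hp0 : 0 ≤ p := measureReal_nonneg
  have hp1 : p ≤ 1 := measureReal_le_one
  have hgood := (ae_nice μ hμ).mono fun ω hω => hω.good
  have hp : ∀ z, ∫ η, pr η z A ∂iidLaw μ = p := by
    intro z
    calc ∫ η, pr η z A ∂iidLaw μ = ∫ η, pr (shift z η) 0 A ∂iidLaw μ :=
          integral_congr_ae (hgood.mono fun η hη => (pr_escape_shift hη ℓ z).symm)
      _ = ∫ η, pr η 0 A ∂(iidLaw μ).map (shift z) :=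
          (integral_map (measurable_shift z).aemeasurable
            (bdd_pr hA 0).1.aestronglyMeasurable).symm
      _ = p := by rw [(measurePreserving_shift μ z).map_eq, integral_pr hA]
  have key : p * (1 - p) ≤ 0 := by
    refine le_of_forall_pos_le_add fun ε hε => ?_
    obtain ⟨n₀, C, hdet, hCA⟩ := exists_past_approx (annealed μ) hA (half_pos hε)
    have hC : MeasurableSet C := by
      have e : C = ⋃ f : {f : Fin (n₀ + 1) → Site d // extend n₀ f ∈ C},
          cyl n₀ (extend n₀ f.1) := by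
        ext X
        simp only [Set.mem_iUnion]
        constructor
        · intro hX
          have h : ∀ k ≤ n₀, X k = extend n₀ (fun i : Fin (n₀ + 1) => X i) k := fun k hk => by
            rw [extend, dif_pos (Nat.lt_succ_of_le hk)]
          exact ⟨⟨_, hdet n₀ le_rfl X _ h hX⟩, h⟩
        · rintro ⟨⟨f, hf⟩, hX⟩
          exact hdet n₀ le_rfl _ X (fun k hk => (hX k hk).symm) hf
      rw [e]
      exact MeasurableSet.iUnion fun f => measurableSet_cyl n₀ _
    have h := decouple hμ hγ hκ he₀ hA (theta_escape ℓ) hC hp hp0 hdet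
    set r := (annealed μ).real (symmDiff A C)
    have hr : r ≤ ε / 2 := ENNReal.toReal_le_of_le_ofReal (by positivity) hCA
    have h1 : p ≤ (annealed μ).real (C ∩ A) + r := by
      refine (measureReal_mono (fun X hX => ?_ : A ⊆ (C ∩ A) ∪ symmDiff A C)).trans
        (measureReal_union_le _ _)
      by_cases hXC : X ∈ C
      · exact Or.inl ⟨hXC, hX⟩
      · exact Or.inr (Or.inl ⟨hX, hXC⟩)
    have h2 : (annealed μ).real C ≤ p + r := by
      refine (measureReal_mono (fun X hX => ?_ : C ⊆ A ∪ symmDiff A C)).trans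
        (measureReal_union_le _ _)
      by_cases hXA : X ∈ A
      · exact Or.inl hXA
      · exact Or.inr (Or.inr ⟨hX, hXA⟩)
    nlinarith [mul_le_mul_of_nonneg_left h2 hp0]
  rcases hp0.eq_or_lt' with hz | hz
  · exact Or.inl ((measureReal_eq_zero_iff (measure_ne_top _ _)).mp hz)
  · refine Or.inr ((ENNReal.toReal_eq_one_iff _).mp (le_antisymm hp1 ?_))
    show 1 ≤ p
    by_contra hcon
    nlinarith [mul_pos hz (sub_pos.mpr (not_le.mp hcon))]

end Vale.Agent.P147.Transient
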