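import Vale.Agent.P147.Potential
import Vale.Agent.P147.Decouple

/-!
P147: quenched bounds on visits seen through a projection `emb a` on which the walk has no
drift: hitting probabilities and the sum over pairs of times.
-/

open MeasureTheory Filter
open scoped RealInnerProductSpace Topology

namespace Vale.Agent.P147

variable {d : ℕ} {E : Type*} [NormedAddCommGroup E] [InnerProductSpace ℝ E]

/-- The linear image of a site. -/
def emb (a : Fin d → E) (x : Site d) : E := ∑ i, (x i : ℝ) • a i

lemma emb_add (a : Fin d → E) (x y : Site d) : emb a (x + y) = emb a x + emb a y := by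
  simp [emb, add_smul, Finset.sum_add_distrib]

lemma emb_nsmul (a : Fin d → E) (k : ℕ) (x : Site d) : emb a (k • x) = (k : ℝ) • emb a x := by
  simp [emb, Finset.smul_sum, smul_smul]

/-- A pair of potentials for the rows of `ω`: `φ` is superharmonic and `f` pays `φ` at each
step. -/
structure Pays (a : Fin d → E) (ω : Env d) (φ f : E → ℝ) : Prop where
  nonneg : ∀ y, 0 ≤ φ y
  nonneg' : ∀ y, 0 ≤ f y
  zero : φ 0 = 1
  super : ∀ x y, ∑ e, ω x e * φ (y + emb a (move e)) ≤ φ y
  pays : ∀ x y, φ y + ∑ e, ω x e * f (y + emb a (move e)) ≤ f y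

variable [NeZero d] {a : Fin d → E} {ω : Env d} {φ f : E → ℝ}

omit [NeZero d] in
lemma measurable_lin (g : Site d → ℝ) (n : ℕ) :
    Measurable fun X : Path d => ENNReal.ofReal (g (X n)) :=
  (measurable_of_countable fun y : Site d => ENNReal.ofReal (g y)).comp (measurable_pi_apply n)

omit [NeZero d] in
lemma measurable_two (g : Site d → Site d → ℝ) (n k : ℕ) :
    Measurable fun X : Path d => ENNReal.ofReal (g (X n) (X k)) :=
  (measurable_of_countable fun q : Site d × Site d => ENNReal.ofReal (g q.1 q.2)).comp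
    (Measurable.prodMk (measurable_pi_apply n) (measurable_pi_apply k))

/-- The chance to meet a finite set. -/
lemma hit_bound (hω : Good ω) (h : Pays a ω φ f) (S : Finset (Site d)) (z : Site d) :
    pr ω z (avoid S)ᶜ ≤ ∑ s ∈ S, φ (emb a z - emb a s) := by
  set v : Site d → ℝ := fun x => 1 - ∑ s ∈ S, φ (emb a x - emb a s)
  have hle : v z ≤ pr ω z (avoid S) := by
    refine le_stay hω _ (v := v) (fun x => sub_le_self _ (Finset.sum_nonneg fun s _ => h.nonneg _))
      (fun x hx => ?_) (fun x => ?_) z
    · simp only [Set.mem_ofPred_eq, not_not] at hx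
      have h1 := Finset.single_le_sum (f := fun s => φ (emb a x - emb a s))
        (fun s _ => h.nonneg _) hx
      simp only [sub_self, h.zero] at h1
      simp only [v]
      linarith
    · simp only [v, T, mul_sub, mul_one, Finset.sum_sub_distrib, (hω x).2, Finset.mul_sum]
      rw [Finset.sum_comm]
      refine sub_le_sub_left (Finset.sum_le_sum fun s _ => ?_) 1
      refine le_trans (le_of_eq (Finset.sum_congr rfl fun e _ => ?_)) (h.super x _)
      rw [emb_add, sub_add_eq_add_sub]
  rw [pr, probReal_compl_eq_one_sub (measurableSet_avoid S)]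
  change (1 : ℝ) - ∑ s ∈ S, φ (emb a z - emb a s) ≤ _ at hle
  rw [pr] at hle
  linarith

lemma lintegral_theta (hω : Good ω) (x : Site d) {g : Path d → ENNReal} (hg : Measurable g) :
    ∫⁻ X, g (theta X) ∂law ω x =
      ∑ e, ENNReal.ofReal (ω x e) * ∫⁻ X, g X ∂law ω (x + move e) := by
  rw [← lintegral_map hg measurable_theta, map_theta hω x]
  simp [lintegral_finsetSum_measure]

lemma ae_start (ω : Env d) (x : Site d) : ∀ᵐ X ∂law ω x, X 0 = x :=
  ae_iff.mpr (law_start ω x)

/-- Expected weighted number of visits. -/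
lemma visits_bound (hω : Good ω) (h : Pays a ω φ f) (w : E) (M : ℕ) :
    ∀ x : Site d, ∫⁻ X, ∑ n ∈ Finset.range M, ENNReal.ofReal (φ (emb a (X n) + w)) ∂law ω x ≤
      ENNReal.ofReal (f (emb a x + w)) := by
  induction M with
  | zero => intro x; simp
  | succ M ih =>
    intro x
    set g : Path d → ENNReal := fun X =>
      ∑ n ∈ Finset.range M, ENNReal.ofReal (φ (emb a (X n) + w))
    have hg : Measurable g := Finset.measurable_sum _ fun n _ =>
      measurable_lin (fun y => φ (emb a y + w)) n
    calc ∫⁻ X, ∑ n ∈ Finset.range (M + 1), ENNReal.ofReal (φ (emb a (X n) + w)) ∂law ω x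
        = ∫⁻ X, (g (theta X) + ENNReal.ofReal (φ (emb a x + w))) ∂law ω x := by
          refine lintegral_congr_ae ((ae_start ω x).mono fun X hX => ?_)
          dsimp only
          rw [Finset.sum_range_succ', hX]
          rfl
      _ = ∑ e, ENNReal.ofReal (ω x e) * ∫⁻ X, g X ∂law ω (x + move e) +
            ENNReal.ofReal (φ (emb a x + w)) := by
          rw [lintegral_add_right _ measurable_const, lintegral_const, measure_univ, mul_one,
            lintegral_theta hω x hg]
      _ ≤ ∑ e, ENNReal.ofReal (ω x e) * ENNReal.ofReal (f (emb a (x + move e) + w)) +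
            ENNReal.ofReal (φ (emb a x + w)) := by
          gcongr with e
          exact ih _
      _ ≤ ENNReal.ofReal (f (emb a x + w)) := by
          have hnn : ∀ e, 0 ≤ ω x e * f (emb a (x + move e) + w) := fun e =>
            mul_nonneg ((hω x).1 e).le (h.nonneg' _)
          simp only [← ENNReal.ofReal_mul ((hω x).1 _).le]
          rw [← ENNReal.ofReal_sum_of_nonneg fun e _ => hnn e,
            ← ENNReal.ofReal_add (Finset.sum_nonneg fun e _ => hnn e) (h.nonneg _)]
          refine ENNReal.ofReal_le_ofReal (le_trans (le_of_eq ?_) (h.pays x _))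
          rw [add_comm]
          refine congrArg _ (Finset.sum_congr rfl fun e _ => ?_)
          rw [emb_add, add_right_comm]

lemma sum_pair_split {M₀ : Type*} [AddCommMonoid M₀] (M : ℕ) (F : ℕ → ℕ → M₀) :
    ∑ n ∈ Finset.range (M + 1), ∑ k ∈ Finset.range (n + 1), F n k =
      (∑ n ∈ Finset.range M, ∑ k ∈ Finset.range (n + 1), F (n + 1) (k + 1)) +
        ∑ n ∈ Finset.range (M + 1), F n 0 := by
  rw [Finset.sum_congr rfl fun n _ => Finset.sum_range_succ' (F n) n, Finset.sum_add_distrib,
    Finset.sum_range_succ' (fun n => ∑ k ∈ Finset.range n, F n (k + 1)) M, Finset.range_zero,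
    Finset.sum_empty, add_zero]

/-- Expected sum over pairs of times. -/
lemma pairs_bound (hω : Good ω) (h : Pays a ω φ f) (z : E) (M : ℕ) :
    ∀ x : Site d, ∫⁻ X, ∑ n ∈ Finset.range M, ∑ k ∈ Finset.range (n + 1),
        ENNReal.ofReal (φ (emb a (X n) - emb a (X k) + z)) ∂law ω x ≤
      (M : ENNReal) * ENNReal.ofReal (f z) := by
  induction M with
  | zero => intro x; simp
  | succ M ih =>
    intro x
    set g : Path d → ENNReal := fun X => ∑ n ∈ Finset.range M, ∑ k ∈ Finset.range (n + 1),
      ENNReal.ofReal (φ (emb a (X n) - emb a (X k) + z))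
    set g₀ : Path d → ENNReal := fun X =>
      ∑ n ∈ Finset.range (M + 1), ENNReal.ofReal (φ (emb a (X n) + (z - emb a x)))
    have hg : Measurable g := Finset.measurable_sum _ fun n _ => Finset.measurable_sum _ fun k _ =>
      measurable_two (fun y y' => φ (emb a y - emb a y' + z)) n k
    have hg₀ : Measurable g₀ := Finset.measurable_sum _ fun n _ =>
      measurable_lin (fun y => φ (emb a y + (z - emb a x))) n
    calc ∫⁻ X, ∑ n ∈ Finset.range (M + 1), ∑ k ∈ Finset.range (n + 1),
          ENNReal.ofReal (φ (emb a (X n) - emb a (X k) + z)) ∂law ω x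
        = ∫⁻ X, (g (theta X) + g₀ X) ∂law ω x := by
          refine lintegral_congr_ae ((ae_start ω x).mono fun X hX => ?_)
          simp only [g, g₀, theta]
          rw [sum_pair_split M fun n k =>
            ENNReal.ofReal (φ (emb a (X n) - emb a (X k) + z))]
          simp only [hX]
          congr 1
          refine Finset.sum_congr rfl fun n _ => ?_
          rw [sub_add_eq_add_sub, add_sub_assoc]
      _ = ∑ e, ENNReal.ofReal (ω x e) * ∫⁻ X, g X ∂law ω (x + move e) +
            ∫⁻ X, g₀ X ∂law ω x := by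
          rw [lintegral_add_right _ hg₀, lintegral_theta hω x hg]
      _ ≤ ∑ e, ENNReal.ofReal (ω x e) * ((M : ENNReal) * ENNReal.ofReal (f z)) +
            ENNReal.ofReal (f z) := by
          refine add_le_add (Finset.sum_le_sum fun e _ => mul_le_mul' le_rfl (ih _))
            ((visits_bound hω h _ _ x).trans (le_of_eq ?_))
          rw [add_sub_cancel]
      _ = ((M + 1 : ℕ) : ENNReal) * ENNReal.ofReal (f z) := by
          rw [← Finset.sum_mul, ← ENNReal.ofReal_sum_of_nonneg fun e _ => ((hω x).1 e).le,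
            (hω x).2, ENNReal.ofReal_one, one_mul, Nat.cast_succ, add_mul, one_mul]

omit [NeZero d] in
/-- The potentials exist for centred rows of bounded anisotropy. -/
lemma exists_pays (a : Fin d → E) {γ σ : ℝ} (hγ : 4 < γ) (hσ : 0 < σ) :
    ∃ φ f : E → ℝ, (∀ ω : Env d, Good ω →
      (∀ x, ∑ e, ω x e • emb a (move e) = 0) →
      (∀ x (u : E), γ * ∑ e, ω x e * ⟪u, emb a (move e)⟫ ^ 2 ≤
        ‖u‖ ^ 2 * ∑ e, ω x e * ‖emb a (move e)‖ ^ 2) →
      (∀ x, σ ≤ ∑ e, ω x e * ‖emb a (move e)‖ ^ 2) → Pays a ω φ f) ∧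
      ∀ v : E, v ≠ 0 → Tendsto (fun k : ℕ => f ((k : ℝ) • v)) atTop (𝓝 0) := by
  set s : ℝ := (γ - 4) / 4 with hsdef
  have hs : 0 < s := by rw [hsdef]; linarith
  obtain ⟨R₁, hR₁, h1⟩ := pot_step (fun e : Step d => emb a (move e)) (t := s) hs
    (show 2 * (s + 1) < γ by rw [hsdef]; linarith) hσ
  obtain ⟨R₂, hR₂, h2⟩ := pot_step (fun e : Step d => emb a (move e)) (t := s + 1) (by linarith)
    (show 2 * (s + 1 + 1) < γ by rw [hsdef]; linarith) hσ
  set R := max R₁ R₂
  have hR : 0 < R := hR₁.trans_le (le_max_left _ _)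
  obtain ⟨c, hc, h1⟩ := h1 R (le_max_left _ _)
  obtain ⟨c', hc', h2⟩ := h2 R (le_max_right _ _)
  set K : ℝ := R ^ (s + 1) with hKdef
  have hK : 0 < K := Real.rpow_pos_of_pos hR _
  refine ⟨fun y => K * pot (s + 1) R y, fun y => K / c * pot s R y, fun ω hω hm ha ht => ?_,
    fun v hv => ?_⟩
  · refine ⟨fun y => (mul_pos hK (pot_pos hR y)).le,
      fun y => (mul_pos (div_pos hK hc) (pot_pos hR y)).le, ?_, fun x y => ?_, fun x y => ?_⟩
    · simp only [pot, norm_zero, ne_eq, OfNat.ofNat_ne_zero, not_false_eq_true, zero_pow, add_zero,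
        hKdef, ← Real.rpow_add hR]
      simp
    · have h := h2 (ω x) (fun e => ((hω x).1 e).le) (hω x).2 (hm x) (ha x) (ht x) y
      simp only [mul_left_comm (ω x _) K, ← Finset.mul_sum]
      exact mul_le_mul_of_nonneg_left
        (by nlinarith [pot_pos (t := s + 1 + 1) hR y]) hK.le
    · have h := mul_le_mul_of_nonneg_left
        (h1 (ω x) (fun e => ((hω x).1 e).le) (hω x).2 (hm x) (ha x) (ht x) y) (div_pos hK hc).le
      simp only [mul_left_comm (ω x _) (K / c), ← Finset.mul_sum]
      calc K * pot (s + 1) R y + K / c * ∑ e, ω x e * pot s R (y + emb a (move e))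
          = K / c * (∑ e, ω x e * pot s R (y + emb a (move e)) + c * pot (s + 1) R y) := by
            field_simp
            ring
        _ ≤ K / c * pot s R y := h
  · have hb : Tendsto (fun k : ℕ => R + ‖(k : ℝ) • v‖ ^ 2) atTop atTop := by
      refine tendsto_atTop_add_const_left _ _ ?_
      simp only [norm_smul, Real.norm_natCast]
      exact (tendsto_pow_atTop two_ne_zero).comp
        (tendsto_natCast_atTop_atTop.atTop_mul_const (norm_pos_iff.mpr hv))
    simpa [pot] using (((tendsto_rpow_neg_atTop hs).comp hb).const_mul (K / c))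

end Vale.Agent.P147
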