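import Vale.Agent.P147.Monotone

/-!
P147: the zero one law when only one axis is free.
-/

open MeasureTheory Filter ProbabilityTheory
open scoped Topology

namespace Vale.Agent.P147

variable {d : ℕ}

/-- Translation of environments. -/
def shift (a : Site d) (ω : Env d) : Env d := fun x => ω (x + a)

lemma measurable_shift (a : Site d) : Measurable (shift (d := d) a) :=
  measurable_pi_lambda _ fun x => measurable_pi_apply (x + a)

/-- The product law of the environment. -/
noncomputable abbrev iidLaw (μ : Measure (Step d → ℝ)) : Measure (Env d) :=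
  Measure.infinitePi fun _ : Site d => μ

lemma measurePreserving_shift (μ : Measure (Step d → ℝ)) [IsProbabilityMeasure μ] (a : Site d) :
    MeasurePreserving (shift a) (iidLaw μ) (iidLaw μ) := by
  classical
  refine ⟨measurable_shift a, Measure.eq_infinitePi _ fun s t ht => ?_⟩
  rw [Measure.map_apply (measurable_shift a) (.pi s.countable_toSet fun i _ => ht i)]
  have h : shift a ⁻¹' Set.pi (s : Set (Site d)) t =
      Set.pi ((s.image (· + a) : Finset (Site d)) : Set (Site d)) (fun y => t (y - a)) := by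
    ext ω
    simp only [shift, Set.mem_preimage, Set.mem_pi, Finset.mem_coe, Finset.mem_image,
      forall_exists_index, and_imp, forall_apply_eq_imp_iff₂, add_sub_cancel_right]
  rw [h, Measure.infinitePi_pi _ fun i _ => ht _,
    Finset.prod_image fun x _ y _ hxy => add_right_cancel hxy]
  simp

lemma ae_forall_site (μ : Measure (Step d → ℝ)) [IsProbabilityMeasure μ]
    {P : (Step d → ℝ) → Prop} (h : ∀ᵐ p ∂μ, P p) : ∀ᵐ ω ∂iidLaw μ, ∀ a, P (ω a) :=
  ae_all_iff.mpr fun a =>
    (measurePreserving_eval_infinitePi (fun _ : Site d => μ) a).quasiMeasurePreserving.ae h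

lemma measure_shift_cylinder_inter (μ : Measure (Step d → ℝ)) [IsProbabilityMeasure μ]
    (I : Finset (Site d)) {S : Set (I → Step d → ℝ)} (hS : MeasurableSet S) (a : Site d)
    (hdisj : ∀ x ∈ I, x + a ∉ I) :
    iidLaw μ (cylinder I S ∩ shift a ⁻¹' cylinder I S)
      = iidLaw μ (cylinder I S) * iidLaw μ (cylinder I S) := by
  classical
  set J : Finset (Site d) := I.image (· + a)
  have hIJ : Disjoint I J := by
    rw [Finset.disjoint_left]
    intro x hx hxJ
    obtain ⟨y, hy, rfl⟩ := Finset.mem_image.mp hxJ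
    exact hdisj y hy hx
  have hindep : IndepFun (fun (ω : Env d) (i : I) => ω i) (fun (ω : Env d) (i : J) => ω i)
      (iidLaw μ) :=
    (iIndepFun_infinitePi (P := fun _ : Site d => μ) (X := fun _ p => p)
      fun _ => measurable_id).indepFun_finset I J hIJ fun i => measurable_pi_apply i
  set back : (J → Step d → ℝ) → (I → Step d → ℝ) :=
    fun g i => g ⟨i.1 + a, Finset.mem_image_of_mem _ i.2⟩
  have hback : Measurable back := measurable_pi_lambda _ fun i => measurable_pi_apply _
  have h1 : shift a ⁻¹' cylinder I S = (fun (ω : Env d) (i : J) => ω i) ⁻¹' (back ⁻¹' S) := rfl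
  have h2 := hindep.measure_inter_preimage_eq_mul S (back ⁻¹' S) hS (hback hS)
  rw [← h1] at h2
  rw [show cylinder I S = (fun (ω : Env d) (i : I) => ω i) ⁻¹' S from rfl] at *
  rw [h2, (measurePreserving_shift μ a).measure_preimage
    ((measurable_pi_lambda _ fun i => measurable_pi_apply _) hS).nullMeasurableSet]

lemma shift_shift (a b : Site d) (ω : Env d) : shift a (shift b ω) = shift (a + b) ω := by
  funext x
  simp [shift, add_assoc]

lemma ergodic_shift (μ : Measure (Step d → ℝ)) [IsProbabilityMeasure μ] {a : Site d}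
    (ha : a ≠ 0) : Ergodic (shift a) (iidLaw μ) := by
  classical
  refine { toMeasurePreserving := measurePreserving_shift μ a, aeconst_set := fun s hs hinv => ?_ }
  have hinvn : ∀ n : ℕ, shift (n • a) ⁻¹' s = s := by
    intro n
    induction n with
    | zero =>
      have h : shift ((0 : ℕ) • a) = (id : Env d → Env d) := by
        funext ω x
        simp [shift]
      rw [h, Set.preimage_id]
    | succ n ih =>
      have h : shift ((n + 1) • a) = shift (n • a) ∘ shift (d := d) a := by
        funext ω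
        rw [Function.comp_apply, shift_shift, succ_nsmul]
      rw [h, Set.preimage_comp, ih, hinv]
  set P := iidLaw μ
  set p := P.real s
  have hp0 : 0 ≤ p := measureReal_nonneg
  have hp1 : p ≤ 1 := measureReal_le_one
  have key : ∀ ε > (0 : ℝ), p * (1 - p) ≤ 5 * ε := by
    intro ε hε
    obtain ⟨B, hB, hBε⟩ := (Measure.MeasureDense.of_generateFrom_isSetAlgebra_finite P
      isSetAlgebra_measurableCylinders generateFrom_measurableCylinders.symm).approx s hs
      (measure_ne_top _ _) ε hε
    obtain ⟨I, S, hS, rfl⟩ := (mem_measurableCylinders B).mp hB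
    obtain ⟨i, hi⟩ := Function.ne_iff.mp ha
    set n : ℕ := 2 * ∑ x ∈ I, (x i).natAbs + 1 with hn
    have hdisj : ∀ x ∈ I, x + n • a ∉ I := by
      intro x hx hy
      have h1 := Finset.single_le_sum (f := fun z : Site d => (z i).natAbs)
        (fun _ _ => Nat.zero_le _) hx
      have h2 := Finset.single_le_sum (f := fun z : Site d => (z i).natAbs)
        (fun _ _ => Nat.zero_le _) hy
      have h3 : ((x + n • a) i - x i).natAbs = n * (a i).natAbs := by
        simp [Int.natAbs_mul]
      have h4 : 1 ≤ (a i).natAbs := Int.natAbs_pos.mpr hi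
      have h5 : n ≤ n * (a i).natAbs := Nat.le_mul_of_pos_right _ h4
      have h6 := Int.natAbs_sub_le ((x + n • a) i) (x i)
      omega
    set B : Set (Env d) := cylinder (α := fun _ => Step d → ℝ) I S with hBdef
    set B' := shift (n • a) ⁻¹' B with hB'
    have hBm : MeasurableSet B := hS.cylinder I
    have hd1 : P.real (symmDiff s B) ≤ ε := ENNReal.toReal_le_of_le_ofReal hε.le hBε.le
    have hd2 : P.real (symmDiff s B') ≤ ε := by
      have h : symmDiff s B' = shift (n • a) ⁻¹' symmDiff s B := by
        rw [Set.preimage_symmDiff, hinvn]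
      rw [h, measureReal_def, (measurePreserving_shift μ (n • a)).measure_preimage
        ((hs.symmDiff hBm).nullMeasurableSet)]
      exact hd1
    have hprod : P.real (B ∩ B') = P.real B * P.real B := by
      rw [measureReal_def, measureReal_def, measure_shift_cylinder_inter μ I hS _ hdisj,
        ENNReal.toReal_mul]
    have hA : p ≤ P.real (B ∩ B') + 2 * ε := by
      have hsub : s ⊆ (B ∩ B') ∪ symmDiff s B ∪ symmDiff s B' := fun x hx => by
        by_cases h1 : x ∈ B <;> by_cases h2 : x ∈ B' <;>
          simp [Set.mem_symmDiff, hx, h1, h2]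
      calc p ≤ P.real ((B ∩ B') ∪ symmDiff s B ∪ symmDiff s B') := measureReal_mono hsub
        _ ≤ P.real ((B ∩ B') ∪ symmDiff s B) + P.real (symmDiff s B') :=
          measureReal_union_le _ _
        _ ≤ P.real (B ∩ B') + P.real (symmDiff s B) + P.real (symmDiff s B') :=
          add_le_add (measureReal_union_le _ _) le_rfl
        _ ≤ _ := by linarith
    have hC : P.real B ≤ p + ε := by
      have hsub : B ⊆ s ∪ symmDiff s B := fun x hx => by
        by_cases h1 : x ∈ s <;> simp [Set.mem_symmDiff, hx, h1]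
      calc P.real B ≤ P.real (s ∪ symmDiff s B) := measureReal_mono hsub
        _ ≤ p + P.real (symmDiff s B) := measureReal_union_le _ _
        _ ≤ p + ε := by linarith
    rw [hprod] at hA
    have hb0 : 0 ≤ P.real B := measureReal_nonneg
    have hb1 : P.real B ≤ 1 := measureReal_le_one
    nlinarith
  have hz : p = 0 ∨ p = 1 := by
    by_contra hcon
    push Not at hcon
    have h1 : 0 < p * (1 - p) :=
      mul_pos (hp0.lt_of_ne' hcon.1) (sub_pos.mpr (hp1.lt_of_ne hcon.2))
    linarith [key (p * (1 - p) / 10) (by linarith)]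
  rw [eventuallyConst_set']
  rcases hz with h | h
  · exact Or.inl (ae_eq_empty.mpr ((measureReal_eq_zero_iff (measure_ne_top _ _)).mp h))
  · refine Or.inr (ae_eq_univ.mpr ?_)
    rw [prob_compl_eq_zero_iff hs]
    exact (ENNReal.toReal_eq_one_iff _).mp h

lemma move_ne_zero (e : Step d) : move e ≠ 0 := by
  intro h
  have h1 := congrFun h e.1
  rw [move, Pi.single_eq_same, Pi.zero_apply] at h1
  rcases Bool.eq_false_or_eq_true e.2 with he | he <;> simp [he] at h1

lemma measurable_rest (j : Fin d) : Measurable (rest j) :=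
  ((measurable_const.sub (measurable_pi_apply (j, true))).sub (measurable_pi_apply (j, false)))

lemma ae_thick (μ : Measure (Step d → ℝ)) [IsProbabilityMeasure μ] (hd : 2 ≤ d)
    (hμ : ∀ᵐ p ∂μ, GoodRow p) (j : Fin d) (b : Bool) :
    ∀ᵐ ω ∂iidLaw μ, Thick ω j (move (j, b)) := by
  obtain ⟨n, hn⟩ : ∃ n : ℕ, μ {p | rest j p < 1 / ((n : ℝ) + 1)} < 1 := by
    by_contra hcon
    push Not at hcon
    have h : ∀ᵐ p ∂μ, ∀ n : ℕ, rest j p < 1 / ((n : ℝ) + 1) :=
      ae_all_iff.mpr fun n => (mem_ae_iff_prob_eq_one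
        (measurableSet_lt (measurable_rest j) measurable_const)).mpr
        (le_antisymm prob_le_one (hcon n))
    obtain ⟨p, hp1, hp2⟩ := (hμ.and h).exists
    obtain ⟨k, hk⟩ := exists_nat_one_div_lt (rest_pos hp1 hd j)
    exact absurd (hp2 k) (not_lt.mpr hk.le)
  set τ : ℝ := 1 / ((n : ℝ) + 1) with hτ
  suffices h : ∀ᵐ ω ∂iidLaw μ, ∀ (x : Site d) (N : ℕ), ∃ k ≥ N,
      τ ≤ rest j (ω (x - k • move (j, b))) by
    filter_upwards [h] with ω hω x
    exact ⟨τ, by positivity, hω x⟩
  refine ae_all_iff.mpr fun x => ae_all_iff.mpr fun N => ?_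
  rw [ae_iff]
  refine le_antisymm ?_ zero_le
  refine ge_of_tendsto' (ENNReal.tendsto_pow_atTop_nhds_zero_of_lt_one hn) fun r => ?_
  classical
  set g : ℕ → Site d := fun k => x - (N + k) • move (j, b) with hg
  have hinj : Function.Injective g := by
    intro k l hkl
    have h1 := congrFun hkl j
    simp only [hg, Pi.sub_apply, Pi.smul_apply, move, Pi.single_eq_same, sub_right_inj] at h1
    cases b <;> simp at h1 <;> omega
  calc iidLaw μ {ω | ¬∃ k ≥ N, τ ≤ rest j (ω (x - k • move (j, b)))}
      ≤ iidLaw μ (Set.pi ((Finset.range r).image g : Finset (Site d))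
          fun _ => {p | rest j p < τ}) := by
        refine measure_mono fun ω hω => ?_
        simp only [Set.mem_ofPred_eq, not_exists, not_and, not_le] at hω
        intro y hy
        obtain ⟨k, -, rfl⟩ := Finset.mem_image.mp hy
        exact hω (N + k) (Nat.le_add_right _ _)
    _ = ∏ _y ∈ (Finset.range r).image g, μ {p | rest j p < τ} :=
        Measure.infinitePi_pi _ fun _ _ => measurableSet_lt (measurable_rest j) measurable_const
    _ = μ {p | rest j p < τ} ^ r := by
        rw [Finset.prod_const, Finset.card_image_of_injective _ hinj, Finset.card_range]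

lemma escape_eq_iInter (ℓ : Fin d → ℝ) :
    escape ℓ = ⋂ N : ℕ, settle {x : Site d | (N : ℝ) ≤ ∑ i, ℓ i * (x i : ℝ)} := by
  ext X
  simp only [escape, settle, stayFrom, Set.mem_ofPred_eq, Set.mem_iInter, Set.mem_iUnion,
    tendsto_atTop, eventually_atTop]
  constructor
  · exact fun h N => h N
  · intro h c
    obtain ⟨N, hN⟩ := exists_nat_ge c
    obtain ⟨n, hn⟩ := h N
    exact ⟨n, fun k hk => hN.trans (hn k hk)⟩

lemma measurableSet_escape (ℓ : Fin d → ℝ) : MeasurableSet (escape ℓ) := by
  rw [escape_eq_iInter]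
  exact MeasurableSet.iInter fun N => measurableSet_settle _

lemma theta_escape (ℓ : Fin d → ℝ) : theta ⁻¹' escape ℓ = escape ℓ := by
  ext X
  exact tendsto_add_atTop_iff_nat (f := fun n => ∑ i, ℓ i * (X n i : ℝ)) 1

variable [NeZero d]

lemma law_shift {ω : Env d} (hω : Good ω) (a x : Site d) :
    law (shift a ω) x = (law ω (x + a)).map (fun X k => X k - a) := by
  have hmeas : Measurable fun (X : Path d) k => X k - a :=
    measurable_pi_lambda _ fun k => (measurable_of_countable fun y : Site d => y - a).comp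
      (measurable_pi_apply k)
  refine ext_cyl fun n p => ?_
  rw [Measure.map_apply hmeas (measurableSet_cyl n p)]
  have h : (fun (X : Path d) k => X k - a) ⁻¹' cyl n p = cyl n fun k => p k + a := by
    ext X
    simp only [cyl, Set.mem_preimage, Set.mem_ofPred_eq, sub_eq_iff_eq_add]
  have hgood : Good (shift a ω) := fun y => hω (y + a)
  rw [h, law_cyl_jump hgood, law_cyl_jump hω]
  congr 1
  · simp
  · refine Finset.prod_congr rfl fun k _ => ?_
    simp only [jump, shift]
    congr 1
    refine Finset.sum_congr rfl fun e _ => ?_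
    simp only [add_right_comm (p k) a, add_left_inj]

lemma pr_escape_shift {ω : Env d} (hω : Good ω) (ℓ : Fin d → ℝ) (a : Site d) :
    pr (shift a ω) 0 (escape ℓ) = pr ω a (escape ℓ) := by
  have hmeas : Measurable fun (X : Path d) k => X k - a :=
    measurable_pi_lambda _ fun k => (measurable_of_countable fun y : Site d => y - a).comp
      (measurable_pi_apply k)
  rw [pr, law_shift hω, map_measureReal_apply hmeas (measurableSet_escape ℓ), zero_add, pr]
  congr 1
  ext X
  simp only [Set.mem_preimage, escape, Set.mem_ofPred_eq, Pi.sub_apply, Int.cast_sub, mul_sub,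
    Finset.sum_sub_distrib]
  constructor
  · intro h
    simpa using h.atTop_add (tendsto_const_nhds (x := ∑ i, ℓ i * (a i : ℝ)))
  · intro h
    exact h.atTop_add tendsto_const_nhds

lemma escape_mono {ω : Env d} (hω : Good ω) (hd : 2 ≤ d) {j : Fin d} {q : Step d → ℝ}
    (hq : Ratio ω j q) (hT : ∀ b, Thick ω j (move (j, b))) {b : Bool} {ℓ : Fin d → ℝ}
    (hb : 0 ≤ ∑ i, ℓ i * (move (j, b) i : ℝ)) (x : Site d) :
    pr ω x (escape ℓ) ≤ pr ω (x + move (j, b)) (escape ℓ) := by
  have hlim : ∀ y, Tendsto (fun N : ℕ => pr ω y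
      (settle {z : Site d | (N : ℝ) ≤ ∑ i, ℓ i * (z i : ℝ)})) atTop
      (𝓝 (pr ω y (escape ℓ))) := by
    intro y
    rw [escape_eq_iInter]
    refine (ENNReal.tendsto_toReal (measure_ne_top _ _)).comp
      (tendsto_measure_iInter_atTop (fun N => (measurableSet_settle _).nullMeasurableSet) ?_
        ⟨0, measure_ne_top _ _⟩)
    intro N M hNM X hX
    simp only [settle, Set.mem_iUnion] at hX ⊢
    obtain ⟨n, hn⟩ := hX
    exact ⟨n, fun k hk => le_trans (Nat.cast_le.mpr hNM : (N : ℝ) ≤ M) (hn k hk)⟩
  refine le_of_tendsto_of_tendsto' (hlim x) (hlim _) fun N =>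
    settle_mono hω hd hq hT b (fun z hz => ?_) x
  simp only [Set.mem_ofPred_eq, Pi.add_apply, Int.cast_add, mul_add, Finset.sum_add_distrib]
  exact le_trans hz (le_add_of_nonneg_right hb)

theorem zero_one_law (hd : 2 ≤ d) (j : Fin d) (μ : Measure (Step d → ℝ))
    [IsProbabilityMeasure μ] (hrow : ∀ᵐ p ∂μ, GoodRow p) (q : Step d → ℝ)
    (hratio : ∀ᵐ p ∂μ, ∀ e : Step d, e.1 ≠ j → p e = q e * rest j p) (ℓ : Fin d → ℝ) :
    ∃ c : ENNReal, (c = 0 ∨ c = 1) ∧
      ∀ᵐ ω ∂iidLaw μ, Good ω ∧ ∀ x, law ω x (escape ℓ) = c := by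
  obtain ⟨b, hb⟩ : ∃ b : Bool, 0 ≤ ∑ i, ℓ i * (move (j, b) i : ℝ) := by
    have hv : ∀ b : Bool, ∑ i, ℓ i * (move (j, b) i : ℝ) = if b then ℓ j else -ℓ j := by
      intro b
      rw [Finset.sum_eq_single j (fun i _ hi => by simp [move, Pi.single_eq_of_ne hi])
        (fun h => absurd (Finset.mem_univ j) h)]
      cases b <;> simp [move]
    rcases le_total 0 (ℓ j) with h | h
    · exact ⟨true, by rw [hv]; simpa using h⟩
    · exact ⟨false, by rw [hv]; simpa using h⟩
  set P := iidLaw μ
  set F : Env d → ℝ := fun ω => pr ω 0 (escape ℓ)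
  have hF : Measurable F :=
    ENNReal.measurable_toReal.comp (measurable_law 0 (measurableSet_escape ℓ))
  have hFint : Integrable F P :=
    Integrable.of_bound hF.aestronglyMeasurable 1 (ae_of_all _ fun ω => by
      rw [Real.norm_eq_abs, abs_of_nonneg (pr_nonneg _ _ _)]
      exact pr_le_one _ _ _)
  have hgood : ∀ᵐ ω ∂P, Good ω := ae_forall_site μ hrow
  have hprops : ∀ᵐ ω ∂P, Good ω ∧ Ratio ω j q ∧ ∀ b, Thick ω j (move (j, b)) := by
    filter_upwards [hgood, ae_forall_site μ hratio,
      ae_all_iff.mpr (ae_thick μ hd hrow j)] with ω h1 h2 h3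
    exact ⟨h1, h2, h3⟩
  have hle : F ≤ᵐ[P] F ∘ shift (move (j, b)) := by
    filter_upwards [hprops] with ω hω
    simp only [Function.comp_apply, F]
    rw [pr_escape_shift hω.1]
    simpa using escape_mono hω.1 hd hω.2.1 hω.2.2 hb 0
  have hmp := measurePreserving_shift μ (move (j, b))
  have hint : ∫ ω, F ω ∂P = ∫ ω, (F ∘ shift (move (j, b))) ω ∂P := by
    have h := integral_map (μ := P) hmp.measurable.aemeasurable
      (f := F) (hF.aestronglyMeasurable (μ := P.map (shift (move (j, b)))))
    rw [hmp.map_eq] at h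
    exact h
  have heq := (integral_eq_iff_of_ae_le hFint (hmp.integrable_comp_of_integrable hFint) hle).mp hint
  obtain ⟨c, hc⟩ := (ergodic_shift μ (move_ne_zero (j, b))).ae_eq_const_of_ae_eq_comp₀
    hF.nullMeasurable heq.symm
  have hall : ∀ᵐ ω ∂P, Good ω ∧ ∀ x, law ω x (escape ℓ) = ENNReal.ofReal c := by
    filter_upwards [hgood, ae_all_iff.mpr fun x =>
      (measurePreserving_shift μ x).quasiMeasurePreserving.ae hc] with ω hω hx
    refine ⟨hω, fun x => ?_⟩
    have h1 : pr (shift x ω) 0 (escape ℓ) = c := hx x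
    rw [pr_escape_shift hω] at h1
    rw [← h1, pr, ofReal_measureReal]
  obtain ⟨ω, hω, hconst⟩ := hall.exists
  exact ⟨ENNReal.ofReal c,
    zero_one_of_const hω (measurableSet_escape ℓ) (theta_escape ℓ) hconst, hall⟩

end Vale.Agent.P147
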